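import Mathlib

/-!
The lifted angle of a finite family of functions and the window form of Bessel's inequality.
-/

namespace Vale.Agent.P371

open MeasureTheory intervalIntegral

variable {ι : Type*} [Fintype ι]

/-- The density `∑ ψᵢ²`. -/
def dens (ψ : ι → ℝ → ℝ) (x : ℝ) : ℝ := ∑ i, ψ i x ^ 2

/-- The derivative of the density. -/
def densD (ψ ψd : ι → ℝ → ℝ) (x : ℝ) : ℝ := 2 * ∑ i, ψ i x * ψd i x

/-- The angular speed of the unit vector `ψ / √ρ`. -/
noncomputable def speed (ψ ψd : ι → ℝ → ℝ) (x : ℝ) : ℝ :=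
  Real.sqrt ((∑ i, ψd i x ^ 2) / dens ψ x - densD ψ ψd x ^ 2 / (4 * dens ψ x ^ 2))

/-- The lifted angle. -/
noncomputable def angle (ψ ψd : ι → ℝ → ℝ) (a x : ℝ) : ℝ := ∫ y in a..x, speed ψ ψd y

theorem hasDerivAt_dens {ψ ψd : ι → ℝ → ℝ} (hψ : ∀ i x, HasDerivAt (ψ i) (ψd i x) x) (x : ℝ) :
    HasDerivAt (dens ψ) (densD ψ ψd x) x := by
  have h : HasDerivAt (fun y => ∑ i, ψ i y ^ 2) (∑ i, 2 * (ψ i x * ψd i x)) x :=
    HasDerivAt.fun_sum fun i _ => ((hψ i x).fun_pow 2).congr_deriv (by push_cast; ring)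
  rwa [densD, Finset.mul_sum]

theorem speed_sq {ψ ψd : ι → ℝ → ℝ} {x : ℝ} (hpos : 0 < dens ψ x) :
    dens ψ x * speed ψ ψd x ^ 2 = (∑ i, ψd i x ^ 2) - densD ψ ψd x ^ 2 / (4 * dens ψ x) := by
  have hcs : (∑ i, ψ i x * ψd i x) ^ 2 ≤ (∑ i, ψ i x ^ 2) * ∑ i, ψd i x ^ 2 :=
    Finset.sum_mul_sq_le_sq_mul_sq Finset.univ (fun i => ψ i x) fun i => ψd i x
  have hnn : 0 ≤ (∑ i, ψd i x ^ 2) / dens ψ x - densD ψ ψd x ^ 2 / (4 * dens ψ x ^ 2) := by
    have he : (∑ i, ψd i x ^ 2) / dens ψ x - densD ψ ψd x ^ 2 / (4 * dens ψ x ^ 2) =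
        (dens ψ x * (∑ i, ψd i x ^ 2) - (∑ i, ψ i x * ψd i x) ^ 2) / dens ψ x ^ 2 := by
      rw [densD]
      field_simp
      ring
    rw [he]
    exact div_nonneg (sub_nonneg.2 hcs) (sq_nonneg _)
  rw [speed, Real.sq_sqrt hnn]
  field_simp

theorem continuous_dens {ψ : ι → ℝ → ℝ} (hψ : ∀ i, Continuous (ψ i)) : Continuous (dens ψ) := by
  unfold dens
  fun_prop

theorem continuous_densD {ψ ψd : ι → ℝ → ℝ} (hψ : ∀ i, Continuous (ψ i))
    (hψd : ∀ i, Continuous (ψd i)) : Continuous (densD ψ ψd) := by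
  unfold densD
  fun_prop

theorem continuous_speed {ψ ψd : ι → ℝ → ℝ} (hψ : ∀ i, Continuous (ψ i))
    (hψd : ∀ i, Continuous (ψd i)) (hpos : ∀ x, 0 < dens ψ x) : Continuous (speed ψ ψd) := by
  have h1 := continuous_dens hψ
  have h2 := continuous_densD hψ hψd
  unfold speed
  refine Real.continuous_sqrt.comp (Continuous.sub ?_ ?_)
  · exact (by fun_prop : Continuous fun x => ∑ i, ψd i x ^ 2).div₀ h1 fun x => (hpos x).ne'
  · exact (h2.pow 2).div₀ (continuous_const.mul (h1.pow 2))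
      fun x => by have := hpos x; positivity

theorem hasDerivAt_angle {ψ ψd : ι → ℝ → ℝ} (hs : Continuous (speed ψ ψd)) (a x : ℝ) :
    HasDerivAt (angle ψ ψd a) (speed ψ ψd x) x :=
  integral_hasDerivAt_right (hs.intervalIntegrable _ _)
    hs.stronglyMeasurable.stronglyMeasurableAtFilter hs.continuousAt

theorem continuous_angle {ψ ψd : ι → ℝ → ℝ} (hs : Continuous (speed ψ ψd)) (a : ℝ) :
    Continuous (angle ψ ψd a) :=
  continuous_iff_continuousAt.2 fun x => (hasDerivAt_angle hs a x).continuousAt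

theorem monotone_angle {ψ ψd : ι → ℝ → ℝ} (hs : Continuous (speed ψ ψd)) (a : ℝ) :
    Monotone (angle ψ ψd a) :=
  monotone_of_deriv_nonneg (fun x => (hasDerivAt_angle hs a x).differentiableAt)
    fun x => by rw [(hasDerivAt_angle hs a x).deriv]; exact Real.sqrt_nonneg _

/-- On the unit sphere the inner product is at least the cosine of the arclength. -/
theorem cos_angle_le {ψ ψd : ι → ℝ → ℝ} (hψ : ∀ i x, HasDerivAt (ψ i) (ψd i x) x)
    (hψd : ∀ i, Continuous (ψd i)) (hpos : ∀ x, 0 < dens ψ x) (a x y : ℝ)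
    (hD : |angle ψ ψd a y - angle ψ ψd a x| ≤ Real.pi / 2) :
    Real.cos (angle ψ ψd a y - angle ψ ψd a x) *
        (Real.sqrt (dens ψ x) * Real.sqrt (dens ψ y)) ≤
      ∑ i, ψ i x * ψ i y := by
  have hc : ∀ i, Continuous (ψ i) := fun i =>
    continuous_iff_continuousAt.2 fun z => (hψ i z).continuousAt
  have hs := continuous_speed hc hψd hpos
  set N : ℝ := Real.sqrt (dens ψ x) with hN
  have hN0 : 0 < N := Real.sqrt_pos.2 (hpos x)
  set w : ℝ → ℝ := fun t => (∑ i, ψ i x * ψ i t) / (N * Real.sqrt (dens ψ t)) with hw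
  set w' : ℝ → ℝ := fun t => ((∑ i, ψ i x * ψd i t) -
      densD ψ ψd t / (2 * dens ψ t) * (∑ i, ψ i x * ψ i t)) / (N * Real.sqrt (dens ψ t)) with hw'
  have hderiv : ∀ t, HasDerivAt w (w' t) t := by
    intro t
    have ht := Real.sqrt_pos.2 (hpos t)
    have h1 : HasDerivAt (fun t => ∑ i, ψ i x * ψ i t) (∑ i, ψ i x * ψd i t) t :=
      HasDerivAt.fun_sum fun i _ => (hψ i t).const_mul (ψ i x)
    have h2 := (((hasDerivAt_dens hψ t).sqrt (hpos t).ne').const_mul N)
    refine (h1.div h2 (by positivity)).congr_deriv ?_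
    simp only [hw']
    have hsq : Real.sqrt (dens ψ t) ^ 2 = dens ψ t := Real.sq_sqrt (hpos t).le
    field_simp
    rw [hsq]
    field_simp [(hpos t).ne']
  have hcs : ∀ t, w t ^ 2 ≤ 1 ∧ w' t ^ 2 ≤ speed ψ ψd t ^ 2 * (1 - w t ^ 2) := by
    intro t
    have ht := Real.sqrt_pos.2 (hpos t)
    have hsq : Real.sqrt (dens ψ t) ^ 2 = dens ψ t := Real.sq_sqrt (hpos t).le
    have hNsq : N ^ 2 = dens ψ x := Real.sq_sqrt (hpos x).le
    set u : ι → ℝ := fun i => ψ i x / N with hu
    set φ : ι → ℝ := fun i => ψ i t / Real.sqrt (dens ψ t) with hφ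
    set φd : ι → ℝ := fun i => (ψd i t - densD ψ ψd t / (2 * dens ψ t) * ψ i t) /
      Real.sqrt (dens ψ t) with hφd
    have hwd : w t = ∑ i, u i * φ i := by
      simp only [hw, hu, hφ, Finset.sum_div]
      exact Finset.sum_congr rfl fun i _ => by ring
    have hwd' : w' t = ∑ i, (u i - w t * φ i) * φd i := by
      have horth : ∑ i, φ i * φd i = 0 := by
        have : ∀ i, φ i * φd i = (ψ i t * ψd i t -
            densD ψ ψd t / (2 * dens ψ t) * ψ i t ^ 2) / dens ψ t := fun i => by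
          simp only [hφ, hφd]
          rw [div_mul_div_comm, ← pow_two (Real.sqrt _), hsq]
          ring
        simp only [this, ← Finset.sum_div, Finset.sum_sub_distrib, ← Finset.mul_sum]
        have hne := (hpos t).ne'
        simp only [densD]
        change (_ - _ * dens ψ t) / dens ψ t = 0
        field_simp
        ring
      simp only [sub_mul, Finset.sum_sub_distrib, mul_assoc (w t), ← Finset.mul_sum, horth,
        mul_zero, sub_zero]
      simp only [hw', hu, hφd, Finset.mul_sum, ← Finset.sum_sub_distrib, Finset.sum_div]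
      exact Finset.sum_congr rfl fun i _ => by ring
    have hunit : ∑ i, u i ^ 2 = 1 := by
      simp only [hu, div_pow, ← Finset.sum_div, hNsq]
      exact div_self (hpos x).ne'
    have hphi : ∑ i, φ i ^ 2 = 1 := by
      simp only [hφ, div_pow, ← Finset.sum_div, hsq]
      exact div_self (hpos t).ne'
    have hres : ∑ i, (u i - w t * φ i) ^ 2 = 1 - w t ^ 2 := by
      have : ∀ i, (u i - w t * φ i) ^ 2 =
          u i ^ 2 - 2 * w t * (u i * φ i) + w t ^ 2 * φ i ^ 2 := fun i => by ring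
      simp only [this, Finset.sum_add_distrib, Finset.sum_sub_distrib, ← Finset.mul_sum, hunit,
        hphi, ← hwd]
      ring
    have hspeed : ∑ i, φd i ^ 2 = speed ψ ψd t ^ 2 := by
      have h2 := speed_sq (ψd := ψd) (hpos t)
      have : ∀ i, φd i ^ 2 = (ψd i t ^ 2 - densD ψ ψd t / dens ψ t * (ψ i t * ψd i t) +
          densD ψ ψd t ^ 2 / (4 * dens ψ t ^ 2) * ψ i t ^ 2) / dens ψ t := fun i => by
        simp only [hφd, div_pow, hsq]
        ring
      simp only [this, ← Finset.sum_div, Finset.sum_add_distrib, Finset.sum_sub_distrib,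
        ← Finset.mul_sum]
      change (_ - _ + _ * dens ψ t) / dens ψ t = _
      have hne := (hpos t).ne'
      rw [show ∑ i, ψ i t * ψd i t = densD ψ ψd t / 2 by simp [densD]]
      field_simp at h2 ⊢
      linear_combination (-2 : ℝ) * h2
    refine ⟨?_, ?_⟩
    · rw [hwd]
      refine (Finset.sum_mul_sq_le_sq_mul_sq _ u φ).trans ?_
      rw [hunit, hphi, one_mul]
    · rw [hwd', mul_comm (speed ψ ψd t ^ 2), ← hres, ← hspeed]
      exact Finset.sum_mul_sq_le_sq_mul_sq _ _ _
  have hwx : w x = 1 := by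
    simp only [hw, hN, ← pow_two, Real.sq_sqrt (hpos x).le]
    exact div_self (hpos x).ne'
  set D := |angle ψ ψd a y - angle ψ ψd a x| with hDd
  have hmain : ∀ μ : ℝ, 0 < μ → μ < 1 → Real.sin (Real.arcsin μ - D) ≤ μ * w y := by
    intro μ h0 h1
    have hlt : ∀ t, -1 < μ * w t ∧ μ * w t < 1 := fun t => by
      have h2 := abs_le.1 ((sq_le_one_iff_abs_le_one _).1 (hcs t).1)
      constructor <;> nlinarith [h2.1, h2.2]
    have hg : ∀ t, HasDerivAt (fun t => Real.arcsin (μ * w t))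
        (1 / Real.sqrt (1 - (μ * w t) ^ 2) * (μ * w' t)) t := fun t => by
      have hA : HasDerivAt Real.arcsin (1 / Real.sqrt (1 - (μ * w t) ^ 2))
          ((fun t => μ * w t) t) := Real.hasDerivAt_arcsin (hlt t).1.ne' (hlt t).2.ne
      exact hA.comp t ((hderiv t).const_mul μ)
    have hgb : ∀ t, |1 / Real.sqrt (1 - (μ * w t) ^ 2) * (μ * w' t)| ≤ speed ψ ψd t := by
      intro t
      have hp : 0 < 1 - (μ * w t) ^ 2 := by nlinarith [(hlt t).1, (hlt t).2]
      rw [one_div, abs_mul, abs_inv, abs_of_nonneg (Real.sqrt_nonneg _),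
        inv_mul_le_iff₀ (Real.sqrt_pos.2 hp)]
      have hsp : 0 ≤ speed ψ ψd t := Real.sqrt_nonneg _
      refine abs_le_of_sq_le_sq ?_ (by positivity)
      rw [mul_pow, mul_pow, Real.sq_sqrt hp.le]
      calc μ ^ 2 * w' t ^ 2 ≤ μ ^ 2 * (speed ψ ψd t ^ 2 * (1 - w t ^ 2)) :=
            mul_le_mul_of_nonneg_left (hcs t).2 (sq_nonneg _)
        _ ≤ (1 - (μ * w t) ^ 2) * speed ψ ψd t ^ 2 := by
            nlinarith [mul_nonneg (sq_nonneg (speed ψ ψd t))
              (by nlinarith : 0 ≤ 1 - μ ^ 2)]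
    have hmono1 : Monotone fun t => angle ψ ψd a t - Real.arcsin (μ * w t) :=
      monotone_of_deriv_nonneg (fun t => ((hasDerivAt_angle hs a t).sub (hg t)).differentiableAt)
        fun t => by
          rw [((hasDerivAt_angle hs a t).fun_sub (hg t)).deriv]
          linarith [le_abs_self (1 / Real.sqrt (1 - (μ * w t) ^ 2) * (μ * w' t)), hgb t]
    have hmono2 : Monotone fun t => angle ψ ψd a t + Real.arcsin (μ * w t) :=
      monotone_of_deriv_nonneg (fun t => ((hasDerivAt_angle hs a t).add (hg t)).differentiableAt)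
        fun t => by
          rw [((hasDerivAt_angle hs a t).fun_add (hg t)).deriv]
          linarith [neg_abs_le (1 / Real.sqrt (1 - (μ * w t) ^ 2) * (μ * w' t)), hgb t]
    have hasn : Real.arcsin μ - D ≤ Real.arcsin (μ * w y) := by
      rcases le_total x y with hxy | hxy
      · have := hmono2 hxy
        simp only [hwx, mul_one] at this
        rw [hDd, abs_of_nonneg (sub_nonneg.2 (monotone_angle hs a hxy))]
        linarith
      · have := hmono1 hxy
        simp only [hwx, mul_one] at this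
        rw [hDd, abs_of_nonpos (sub_nonpos.2 (monotone_angle hs a hxy))]
        linarith
    calc Real.sin (Real.arcsin μ - D) ≤ Real.sin (Real.arcsin (μ * w y)) := by
          refine Real.sin_le_sin_of_le_of_le_pi_div_two ?_ (Real.arcsin_le_pi_div_two _) hasn
          linarith [Real.arcsin_nonneg.2 h0.le]
      _ = μ * w y := Real.sin_arcsin (hlt y).1.le (hlt y).2.le
  have hlim : Real.sin (Real.arcsin 1 - D) ≤ 1 * w y := by
    refine ContinuousWithinAt.closure_le (s := Set.Ioo (0 : ℝ) 1) ?_ ?_ ?_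
      (fun μ hμ => hmain μ hμ.1 hμ.2)
    · rw [closure_Ioo (by norm_num)]
      exact ⟨by norm_num, le_rfl⟩
    · exact Continuous.continuousWithinAt (by fun_prop)
    · exact Continuous.continuousWithinAt (by fun_prop)
  rw [Real.arcsin_one, Real.sin_pi_div_two_sub, one_mul, hDd, Real.cos_abs] at hlim
  simp only [hw] at hlim
  rwa [le_div_iff₀ (mul_pos hN0 (Real.sqrt_pos.2 (hpos y)))] at hlim

end Vale.Agent.P371
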