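import Mathlib

/-!
A weighted Wirtinger inequality on one crossing, by Picone's identity.
-/

namespace Vale.Agent.P371

open MeasureTheory intervalIntegral

theorem abs_cot_le {x : ℝ} (h0 : 0 < x) (h1 : x < Real.pi) (d : ℝ) (hd : 0 < d) (hdx : d ≤ x)
    (hdy : d ≤ Real.pi - x) : |Real.cos x / Real.sin x| ≤ 1 / d := by
  have key : ∀ y : ℝ, 0 < y → y < Real.pi → Real.cos y * y ≤ Real.sin y := by
    intro y hy0 hy1
    rcases lt_or_ge y (Real.pi / 2) with h | h
    · have hc : 0 < Real.cos y := Real.cos_pos_of_mem_Ioo ⟨by linarith, h⟩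
      have := (Real.lt_tan hy0 h).le
      rw [Real.tan_eq_sin_div_cos, le_div_iff₀ hc] at this
      linarith
    · have hc : Real.cos y ≤ 0 :=
        Real.cos_nonpos_of_pi_div_two_le_of_le h (by linarith [Real.pi_pos])
      have hs := (Real.sin_pos_of_pos_of_lt_pi hy0 hy1).le
      nlinarith [mul_nonpos_of_nonpos_of_nonneg hc hy0.le]
  have hs := Real.sin_pos_of_pos_of_lt_pi h0 h1
  rw [abs_div, abs_of_pos hs, div_le_div_iff₀ hs hd, one_mul, ← abs_of_pos hd, ← abs_mul, abs_le]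
  constructor
  · have h := key (Real.pi - x) (by linarith) (by linarith)
    rw [Real.sin_pi_sub, Real.cos_pi_sub] at h
    rcases le_or_gt 0 (Real.cos x) with hc | hc
    · nlinarith
    · nlinarith [mul_le_mul_of_nonneg_left hdy (neg_nonneg.2 hc.le)]
  · have h := key x h0 h1
    rcases le_or_gt 0 (Real.cos x) with hc | hc
    · nlinarith [mul_le_mul_of_nonneg_left hdx hc]
    · nlinarith

/-- `∫ f'^2/ρ ≥ (π/(L+2δ))² ∫ ρ f²` up to boundary terms, with `L = ∫ ρ`. -/
theorem picone {p q δ : ℝ} (hpq : p ≤ q) (hδ : 0 < δ) {ρ f f' : ℝ → ℝ}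
    (hρc : Continuous ρ) (hρ : ∀ x, 0 < ρ x) (hf : ∀ x, HasDerivAt f (f' x) x)
    (hf'c : Continuous f') :
    (Real.pi / ((∫ y in p..q, ρ y) + 2 * δ)) ^ 2 * ∫ x in p..q, ρ x * f x ^ 2 ≤
      (∫ x in p..q, f' x ^ 2 / ρ x) + (f p ^ 2 + f q ^ 2) / δ := by
  set A : ℝ → ℝ := fun x => ∫ y in p..x, ρ y with hA
  have hfc : Continuous f := continuous_iff_continuousAt.2 fun x => (hf x).continuousAt
  have hA' : ∀ x, HasDerivAt A (ρ x) x := fun x =>
    integral_hasDerivAt_right (hρc.intervalIntegrable _ _)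
      hρc.stronglyMeasurable.stronglyMeasurableAtFilter hρc.continuousAt
  have hA0 : ∀ x ∈ Set.Icc p q, 0 ≤ A x ∧ A x ≤ A q := by
    intro x hx
    refine ⟨integral_nonneg hx.1 fun y _ => (hρ y).le, ?_⟩
    have h := integral_add_adjacent_intervals (hρc.intervalIntegrable p x)
      (hρc.intervalIntegrable x q) (μ := volume)
    have h2 : (0 : ℝ) ≤ ∫ y in x..q, ρ y := integral_nonneg hx.2 fun y _ => (hρ y).le
    simp only [hA]
    linarith
  have hAq : 0 ≤ A q := (hA0 q ⟨hpq, le_rfl⟩).1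
  set L := A q + 2 * δ with hL
  have hL0 : 0 < L := by linarith
  set r : ℝ → ℝ := fun x => Real.pi * (A x + δ) / L with hr
  have hr' : ∀ x, HasDerivAt r (Real.pi * ρ x / L) x := fun x =>
    (((hA' x).add_const δ).const_mul Real.pi).div_const L
  have hrb : ∀ x ∈ Set.Icc p q, Real.pi * δ / L ≤ r x ∧ Real.pi * δ / L ≤ Real.pi - r x := by
    intro x hx
    obtain ⟨h1, h2⟩ := hA0 x hx
    constructor
    · exact div_le_div_of_nonneg_right
        (mul_le_mul_of_nonneg_left (by linarith) Real.pi_pos.le) hL0.le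
    · have : Real.pi - r x = Real.pi * (L - A x - δ) / L := by
        simp only [hr]
        field_simp
        ring
      rw [this]
      exact div_le_div_of_nonneg_right
        (mul_le_mul_of_nonneg_left (by linarith) Real.pi_pos.le) hL0.le
  have hd : 0 < Real.pi * δ / L := by positivity
  have hrpos : ∀ x ∈ Set.Icc p q, 0 < r x ∧ r x < Real.pi := fun x hx =>
    ⟨hd.trans_le (hrb x hx).1, by linarith [(hrb x hx).2]⟩
  have hsin : ∀ x ∈ Set.Icc p q, Real.sin (r x) ≠ 0 := fun x hx =>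
    (Real.sin_pos_of_pos_of_lt_pi (hrpos x hx).1 (hrpos x hx).2).ne'
  set h : ℝ → ℝ := fun x => Real.pi / L * (Real.cos (r x) / Real.sin (r x)) with hh
  have hH : ∀ x ∈ Set.Icc p q, HasDerivAt (fun x => h x * f x ^ 2)
      (-(Real.pi / L) ^ 2 * ρ x * f x ^ 2 + 2 * h x * f x * f' x - h x ^ 2 * ρ x * f x ^ 2) x := by
    intro x hx
    have h1 := (((hr' x).cos).div ((hr' x).sin) (hsin x hx)).const_mul (Real.pi / L)
    refine (h1.mul ((hf x).pow 2)).congr_deriv ?_
    simp only [hh, Pi.div_apply, Pi.pow_apply]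
    have hs := hsin x hx
    field_simp
    linear_combination (0 : ℝ) * Real.sin_sq_add_cos_sq (r x)
  have hbound : ∀ x ∈ Set.Icc p q, |h x| ≤ 1 / δ := by
    intro x hx
    simp only [hh]
    rw [abs_mul, abs_of_pos (by positivity : 0 < Real.pi / L)]
    calc Real.pi / L * |Real.cos (r x) / Real.sin (r x)|
        ≤ Real.pi / L * (1 / (Real.pi * δ / L)) :=
          mul_le_mul_of_nonneg_left (abs_cot_le (hrpos x hx).1 (hrpos x hx).2 _ hd
            (hrb x hx).1 (hrb x hx).2) (by positivity)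
      _ = 1 / δ := by field_simp
  have hAc : Continuous A := continuous_iff_continuousAt.2 fun x => (hA' x).continuousAt
  have hhc : ContinuousOn h (Set.Icc p q) := by
    simp only [hh, hr]
    exact continuousOn_const.mul (ContinuousOn.div (by fun_prop) (by fun_prop) hsin)
  have hderiv_c : ContinuousOn (fun x => -(Real.pi / L) ^ 2 * ρ x * f x ^ 2 + 2 * h x * f x * f' x
      - h x ^ 2 * ρ x * f x ^ 2) (Set.Icc p q) := by fun_prop
  have hFTC := integral_eq_sub_of_hasDerivAt (fun x hx => hH x (Set.uIcc_of_le hpq ▸ hx))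
    (hderiv_c.intervalIntegrable_of_Icc hpq)
  have hc1 : Continuous fun x => f' x ^ 2 / ρ x :=
    (hf'c.pow 2).div₀ hρc fun x => (hρ x).ne'
  have hc2 : Continuous fun x => (Real.pi / L) ^ 2 * (ρ x * f x ^ 2) := by fun_prop
  have hmono : ∫ x in p..q, (-(Real.pi / L) ^ 2 * ρ x * f x ^ 2 + 2 * h x * f x * f' x
      - h x ^ 2 * ρ x * f x ^ 2) ≤
      ∫ x in p..q, (f' x ^ 2 / ρ x - (Real.pi / L) ^ 2 * (ρ x * f x ^ 2)) := by
    refine integral_mono_on hpq (hderiv_c.intervalIntegrable_of_Icc hpq)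
      ((hc1.sub hc2).intervalIntegrable _ _) fun x _ => ?_
    have : f' x ^ 2 / ρ x - (Real.pi / L) ^ 2 * (ρ x * f x ^ 2) -
        (-(Real.pi / L) ^ 2 * ρ x * f x ^ 2 + 2 * h x * f x * f' x - h x ^ 2 * ρ x * f x ^ 2) =
        (f' x - ρ x * h x * f x) ^ 2 / ρ x := by
      field_simp [(hρ x).ne']
      ring
    have h2 : 0 ≤ (f' x - ρ x * h x * f x) ^ 2 / ρ x := div_nonneg (sq_nonneg _) (hρ x).le
    linarith
  rw [hFTC, integral_sub (hc1.intervalIntegrable _ _) (hc2.intervalIntegrable _ _),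
    intervalIntegral.integral_const_mul] at hmono
  have hp := abs_le.1 (hbound p ⟨le_rfl, hpq⟩)
  have hq := abs_le.1 (hbound q ⟨hpq, le_rfl⟩)
  have e1 : h p * f p ^ 2 ≤ f p ^ 2 / δ := by
    rw [div_eq_mul_one_div (f p ^ 2), mul_comm (h p)]
    exact mul_le_mul_of_nonneg_left hp.2 (sq_nonneg _)
  have e2 : -(f q ^ 2 / δ) ≤ h q * f q ^ 2 := by
    rw [div_eq_mul_one_div (f q ^ 2), mul_comm (h q), ← mul_neg]
    exact mul_le_mul_of_nonneg_left hq.1 (sq_nonneg _)
  rw [add_div]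
  show (Real.pi / L) ^ 2 * _ ≤ _
  linarith

end Vale.Agent.P371
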