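import Mathlib
import Vale.Agent.P371.Angle

/-!
Averaging crossing masses over directions gives the cos-squared window, which Bessel's inequality
bounds.
-/

namespace Vale.Agent.P371

open MeasureTheory intervalIntegral Set

/-- Index of the crossing containing phase `u`. -/
noncomputable def cellIdx (u : ℝ) : ℤ := ⌊u / Real.pi⌋

/-- `1` when the phases `u` and `v` lie in the same crossing, else `0`. -/
noncomputable def sameCell (u v : ℝ) : ℝ := if cellIdx u = cellIdx v then 1 else 0

theorem measurable_cellIdx : Measurable cellIdx :=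
  Int.measurable_floor.comp (measurable_id.div_const _)

theorem cellIdx_add_pi (u : ℝ) : cellIdx (u + Real.pi) = cellIdx u + 1 := by
  rw [cellIdx, cellIdx, add_div, div_self Real.pi_ne_zero, Int.floor_add_one]

theorem sameCell_nonneg (u v : ℝ) : 0 ≤ sameCell u v := by
  unfold sameCell
  split <;> norm_num

theorem sameCell_le_one (u v : ℝ) : sameCell u v ≤ 1 := by
  unfold sameCell
  split <;> norm_num

theorem measurable_sameCell {α : Type*} [MeasurableSpace α] {u v : α → ℝ} (hu : Measurable u)
    (hv : Measurable v) : Measurable fun x => sameCell (u x) (v x) := by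
  unfold sameCell
  exact Measurable.ite (measurableSet_eq_fun (measurable_cellIdx.comp hu)
    (measurable_cellIdx.comp hv)) measurable_const measurable_const

/-- The averaged window. -/
noncomputable def window (D : ℝ) : ℝ := if |D| < Real.pi then 1 + Real.cos D else 0

theorem integral_sameCell (θ D : ℝ) :
    ∫ c in (0 : ℝ)..Real.pi, |Real.sin (θ - c)| * sameCell (θ + D - c) (θ - c) = window D := by
  set P : ℝ → ℝ := fun u => |Real.sin u| * sameCell (u + D) u with hP
  have hper : Function.Periodic P Real.pi := by
    intro u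
    simp only [hP, sameCell, Real.sin_add_pi, abs_neg, add_right_comm u Real.pi D, cellIdx_add_pi,
      add_left_inj]
  have h1 : ∫ c in (0 : ℝ)..Real.pi, |Real.sin (θ - c)| * sameCell (θ + D - c) (θ - c) =
      ∫ c in (0 : ℝ)..Real.pi, P (θ - c) := by
    refine integral_congr fun c _ => ?_
    simp only [hP, show θ + D - c = θ - c + D by ring]
  have h2 : ∫ u in θ - Real.pi..θ, P u = ∫ u in (0 : ℝ)..Real.pi, P u := by
    have h := hper.intervalIntegral_add_eq (θ - Real.pi) 0
    simpa using h
  rw [h1, integral_comp_sub_left, sub_zero, h2, intervalIntegral.integral_of_le Real.pi_pos.le,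
    integral_Ioc_eq_integral_Ioo]
  have hid : ∀ u ∈ Ioo (0 : ℝ) Real.pi,
      P u = (Ico (-D) (Real.pi - D)).indicator Real.sin u := by
    intro u hu
    have hidx : cellIdx u = 0 := by
      rw [cellIdx, Int.floor_eq_zero_iff]
      exact ⟨div_nonneg hu.1.le Real.pi_pos.le, (div_lt_one Real.pi_pos).2 hu.2⟩
    have hiff : cellIdx (u + D) = 0 ↔ u ∈ Ico (-D) (Real.pi - D) := by
      rw [cellIdx, Int.floor_eq_zero_iff, mem_Ico, mem_Ico, le_div_iff₀ Real.pi_pos,
        div_lt_one Real.pi_pos]
      constructor <;> rintro ⟨a, b⟩ <;> constructor <;> linarith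
    simp only [hP, sameCell, hidx, abs_of_pos (Real.sin_pos_of_pos_of_lt_pi hu.1 hu.2)]
    by_cases hm : u ∈ Ico (-D) (Real.pi - D)
    · rw [indicator_of_mem hm, if_pos (hiff.2 hm), mul_one]
    · rw [indicator_of_notMem hm, if_neg (fun h => hm (hiff.1 h)), mul_zero]
  rw [setIntegral_congr_fun measurableSet_Ioo hid, setIntegral_indicator measurableSet_Ico]
  unfold window
  split_ifs with hD
  · rw [abs_lt] at hD
    rcases le_total 0 D with h | h
    · have he : Ioo (0 : ℝ) Real.pi ∩ Ico (-D) (Real.pi - D) = Ioo 0 (Real.pi - D) := by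
        ext u
        simp only [mem_inter_iff, mem_Ioo, mem_Ico]
        constructor
        · rintro ⟨⟨a, b⟩, c, d⟩; exact ⟨a, d⟩
        · rintro ⟨a, b⟩; exact ⟨⟨a, by linarith⟩, by linarith, b⟩
      rw [he, ← integral_Ioc_eq_integral_Ioo, ← intervalIntegral.integral_of_le (by linarith),
        integral_sin, Real.cos_zero, Real.cos_pi_sub]
      ring
    · rcases eq_or_lt_of_le h with rfl | h'
      · rw [neg_zero, sub_zero, inter_eq_left.2 Ioo_subset_Ico_self,
          ← integral_Ioc_eq_integral_Ioo, ← intervalIntegral.integral_of_le Real.pi_pos.le,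
          integral_sin, Real.cos_zero, Real.cos_pi]
        ring
      · have he : Ioo (0 : ℝ) Real.pi ∩ Ico (-D) (Real.pi - D) = Ico (-D) Real.pi := by
          ext u
          simp only [mem_inter_iff, mem_Ioo, mem_Ico]
          constructor
          · rintro ⟨⟨a, b⟩, c, d⟩; exact ⟨c, b⟩
          · rintro ⟨a, b⟩; exact ⟨⟨by linarith, b⟩, a, by linarith⟩
        rw [he, integral_Ico_eq_integral_Ioo, ← integral_Ioc_eq_integral_Ioo,
          ← intervalIntegral.integral_of_le (by linarith), integral_sin, Real.cos_neg, Real.cos_pi]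
        ring
  · rw [not_lt] at hD
    have he : Ioo (0 : ℝ) Real.pi ∩ Ico (-D) (Real.pi - D) = ∅ := by
      ext u
      simp only [mem_inter_iff, mem_Ioo, mem_Ico, mem_empty_iff_false, iff_false]
      rintro ⟨⟨a, b⟩, c, d⟩
      rcases le_abs.1 hD with h | h <;> linarith
    rw [he, setIntegral_empty]

variable {ι : Type*} [Fintype ι]

/-- Bessel's inequality bounds the averaged window mass. -/
theorem window_mass_le {ψ ψd : ι → ℝ → ℝ} (hψ : ∀ i x, HasDerivAt (ψ i) (ψd i x) x)
    (hψd : ∀ i, Continuous (ψd i)) (hpos : ∀ x, 0 < dens ψ x) {a b B : ℝ} (hab : a ≤ b)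
    (hB : ∀ v : ι → ℝ, ∫ y in a..b, (∑ i, v i * ψ i y) ^ 2 ≤ B * ∑ i, v i ^ 2) (x : ℝ) :
    ∫ y in a..b, dens ψ y * window (2 * (angle ψ ψd a y - angle ψ ψd a x)) ≤ 2 * B := by
  have hc : ∀ i, Continuous (ψ i) := fun i =>
    continuous_iff_continuousAt.2 fun z => (hψ i z).continuousAt
  have hρc := continuous_dens hc
  have hpt : ∀ y, dens ψ x * (dens ψ y * window (2 * (angle ψ ψd a y - angle ψ ψd a x))) ≤
      2 * (∑ i, ψ i x * ψ i y) ^ 2 := by
    intro y
    set E := angle ψ ψd a y - angle ψ ψd a x with hE
    unfold window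
    split_ifs with hlt
    · rw [abs_mul, abs_two] at hlt
      have hE2 : |E| ≤ Real.pi / 2 := by linarith
      have h := cos_angle_le hψ hψd hpos a x y hE2
      have hcos : 0 ≤ Real.cos E := Real.cos_nonneg_of_mem_Icc
        ⟨by linarith [(abs_le.1 hE2).1], (abs_le.1 hE2).2⟩
      have h2 := pow_le_pow_left₀ (mul_nonneg hcos
        (mul_nonneg (Real.sqrt_nonneg _) (Real.sqrt_nonneg _))) h 2
      rw [mul_pow, mul_pow, Real.sq_sqrt (hpos x).le, Real.sq_sqrt (hpos y).le] at h2
      have : 1 + Real.cos (2 * E) = 2 * Real.cos E ^ 2 := by rw [Real.cos_two_mul]; ring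
      rw [this]
      linarith
    · simp only [mul_zero]
      positivity
  have hint : IntervalIntegrable
      (fun y => dens ψ y * window (2 * (angle ψ ψd a y - angle ψ ψd a x))) volume a b := by
    have hs := continuous_speed hc hψd hpos
    have hmw : Measurable window := by
      unfold window
      exact Measurable.ite (measurableSet_lt (by fun_prop) (by fun_prop)) (by fun_prop) (by fun_prop)
    refine IntervalIntegrable.mono_fun' (g := fun y => dens ψ y * 2)
      ((by fun_prop : Continuous fun y => dens ψ y * 2).intervalIntegrable _ _) ?_ ?_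
    · exact (hρc.measurable.mul (hmw.comp
        (((continuous_angle hs a).measurable.sub_const _).const_mul 2))).aestronglyMeasurable
    · refine Filter.Eventually.of_forall fun y => ?_
      simp only [norm_mul, Real.norm_eq_abs, abs_of_pos (hpos y)]
      refine mul_le_mul_of_nonneg_left ?_ (hpos y).le
      unfold window
      split
      · rw [abs_le]
        constructor <;> linarith [Real.cos_le_one (2 * (angle ψ ψd a y - angle ψ ψd a x)),
          Real.neg_one_le_cos (2 * (angle ψ ψd a y - angle ψ ψd a x))]
      · norm_num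
  have h := integral_mono_on hab (hint.const_mul (dens ψ x))
    ((by fun_prop : Continuous fun y => 2 * (∑ i, ψ i x * ψ i y) ^ 2).intervalIntegrable _ _)
    (fun y _ => hpt y)
  rw [intervalIntegral.integral_const_mul, intervalIntegral.integral_const_mul] at h
  have h2 := hB fun i => ψ i x
  change _ ≤ B * dens ψ x at h2
  exact le_of_mul_le_mul_left (by linarith) (hpos x)

end Vale.Agent.P371
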