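import Mathlib
import Vale.Agent.P371.Picone
import Vale.Agent.P371.Window

/-!
For one direction, the crossings cut the interval into cells; Picone's inequality on each cell.
-/

namespace Vale.Agent.P371

open MeasureTheory intervalIntegral Set

theorem monotone_cellIdx : Monotone cellIdx := fun _ _ h =>
  Int.floor_mono (div_le_div_of_nonneg_right h Real.pi_pos.le)

theorem cellIdx_int_mul_pi (k : ℤ) : cellIdx (k * Real.pi) = k := by
  rw [cellIdx, mul_div_cancel_right₀ _ Real.pi_ne_zero, Int.floor_intCast]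

theorem cellIdx_lt {u : ℝ} {k : ℤ} (h : u < k * Real.pi) : cellIdx u < k := by
  rw [cellIdx, Int.floor_lt, div_lt_iff₀ Real.pi_pos]
  exact h

/-- The mass of the crossing containing phase `u`. -/
noncomputable def cellMass (ρ g : ℝ → ℝ) (a b u : ℝ) : ℝ := ∫ y in a..b, ρ y * sameCell (g y) u

theorem intervalIntegrable_sameCell {ρ g : ℝ → ℝ} (hρc : Continuous ρ) (hg : Measurable g)
    (u a b : ℝ) : IntervalIntegrable (fun y => ρ y * sameCell (g y) u) volume a b := by
  refine IntervalIntegrable.mono_fun' (g := fun y => |ρ y|) (hρc.abs.intervalIntegrable _ _) ?_ ?_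
  · exact (hρc.measurable.mul (measurable_sameCell hg measurable_const)).aestronglyMeasurable
  · refine Filter.Eventually.of_forall fun y => ?_
    simp only [norm_mul, Real.norm_eq_abs]
    refine mul_le_of_le_one_right (abs_nonneg _) ?_
    rw [abs_of_nonneg (sameCell_nonneg _ _)]
    exact sameCell_le_one _ _

/-- If the cell of index `k` is `[p, q)`, its mass is the integral of the density there. -/
theorem cellMass_eq {ρ g : ℝ → ℝ} (hρc : Continuous ρ) (hg : Measurable g) {a b p q u : ℝ}
    (hap : a ≤ p) (hpq : p ≤ q) (hqb : q ≤ b)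
    (hin : ∀ y ∈ Ico p q, cellIdx (g y) = cellIdx u)
    (hl : ∀ y ∈ Ico a p, cellIdx (g y) ≠ cellIdx u)
    (hr : ∀ y ∈ Ioc q b, cellIdx (g y) ≠ cellIdx u) :
    cellMass ρ g a b u = ∫ y in p..q, ρ y := by
  have hi := intervalIntegrable_sameCell hρc hg u
  unfold cellMass
  rw [← integral_add_adjacent_intervals (hi a p) (hi p b),
    ← integral_add_adjacent_intervals (hi p q) (hi q b)]
  have h1 : ∫ y in a..p, ρ y * sameCell (g y) u = 0 := by
    refine intervalIntegral.integral_zero_ae ?_
    filter_upwards [Measure.ae_ne volume p] with y hne hy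
    rw [uIoc_of_le hap] at hy
    rw [sameCell, if_neg (hl y ⟨hy.1.le, lt_of_le_of_ne hy.2 hne⟩), mul_zero]
  have h3 : ∫ y in q..b, ρ y * sameCell (g y) u = 0 := by
    refine intervalIntegral.integral_zero_ae (Filter.Eventually.of_forall fun y hy => ?_)
    rw [uIoc_of_le hqb] at hy
    rw [sameCell, if_neg (hr y hy), mul_zero]
  have h2 : ∫ y in p..q, ρ y * sameCell (g y) u = ∫ y in p..q, ρ y := by
    refine intervalIntegral.integral_congr_ae ?_
    filter_upwards [Measure.ae_ne volume q] with y hne hy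
    rw [uIoc_of_le hpq] at hy
    rw [sameCell, if_pos (hin y ⟨hy.1.le, lt_of_le_of_ne hy.2 hne⟩), mul_one]
  rw [h1, h2, h3]
  ring

/-- Picone's inequality summed over the crossings. -/
theorem cells_le {a b δ : ℝ} (hab : a ≤ b) (hδ : 0 < δ) {ρ g f f' : ℝ → ℝ}
    (hρc : Continuous ρ) (hρ : ∀ x, 0 < ρ x) (hgc : Continuous g) (hgm : Monotone g)
    (hf : ∀ x, HasDerivAt f (f' x) x) (hf'c : Continuous f')
    (hzero : ∀ x, ∀ k : ℤ, g x = k * Real.pi → f x = 0) :
    IntervalIntegrable
        (fun x => Real.pi ^ 2 * (ρ x * f x ^ 2) / (cellMass ρ g a b (g x) + 2 * δ) ^ 2) volume a b ∧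
      ∫ x in a..b, Real.pi ^ 2 * (ρ x * f x ^ 2) / (cellMass ρ g a b (g x) + 2 * δ) ^ 2 ≤
        (∫ x in a..b, f' x ^ 2 / ρ x) + (f a ^ 2 + f b ^ 2) / δ := by
  set F : ℝ → ℝ := fun x =>
    Real.pi ^ 2 * (ρ x * f x ^ 2) / (cellMass ρ g a b (g x) + 2 * δ) ^ 2 with hF
  have hgmeas := hgc.measurable
  have hfc : Continuous f := continuous_iff_continuousAt.2 fun x => (hf x).continuousAt
  have hc1 : Continuous fun x => f' x ^ 2 / ρ x := (hf'c.pow 2).div₀ hρc fun x => (hρ x).ne'
  -- one cell
  have hcell : ∀ p q, a ≤ p → p ≤ q → q ≤ b →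
      (∀ y ∈ Ico p q, cellIdx (g y) = cellIdx (g p)) →
      (∀ y ∈ Ico a p, cellIdx (g y) ≠ cellIdx (g p)) →
      (∀ y ∈ Ioc q b, cellIdx (g y) ≠ cellIdx (g p)) →
      IntervalIntegrable F volume p q ∧
      ∫ x in p..q, F x ≤ (∫ x in p..q, f' x ^ 2 / ρ x) + (f p ^ 2 + f q ^ 2) / δ := by
    intro p q hap hpq hqb hin hl hr
    have he : ∀ᵐ x, x ∈ Ioc p q →
        F x = (Real.pi / ((∫ y in p..q, ρ y) + 2 * δ)) ^ 2 * (ρ x * f x ^ 2) := by
      filter_upwards [Measure.ae_ne volume q] with x hne hx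
      have hk := hin x ⟨hx.1.le, lt_of_le_of_ne hx.2 hne⟩
      simp only [hF]
      rw [cellMass_eq hρc hgmeas hap hpq hqb (fun y hy => (hin y hy).trans hk.symm)
        (fun y hy h => hl y hy (h.trans hk)) (fun y hy h => hr y hy (h.trans hk))]
      rw [div_pow, div_mul_eq_mul_div]
    refine ⟨?_, ?_⟩
    · refine ((by fun_prop : Continuous fun x =>
          (Real.pi / ((∫ y in p..q, ρ y) + 2 * δ)) ^ 2 * (ρ x * f x ^ 2)).intervalIntegrable
            p q).congr_ae ?_
      rw [uIoc_of_le hpq]
      exact Filter.EventuallyEq.symm ((ae_restrict_iff' measurableSet_Ioc).2 he)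
    · rw [intervalIntegral.integral_congr_ae (uIoc_of_le hpq ▸ he),
        intervalIntegral.integral_const_mul]
      exact picone hpq hδ hρc hρ hf hf'c
  -- induction on the number of crossings to the right of `p`
  have key : ∀ n : ℕ, ∀ p ∈ Icc a b, (∀ y ∈ Ico a p, cellIdx (g y) < cellIdx (g p)) →
      cellIdx (g b) ≤ cellIdx (g p) + n →
      IntervalIntegrable F volume p b ∧
      ∫ x in p..b, F x ≤ (∫ x in p..b, f' x ^ 2 / ρ x) + (f p ^ 2 + f b ^ 2) / δ := by
    intro n
    induction n with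
    | zero =>
      intro p hp hl hn
      refine hcell p b hp.1 hp.2 le_rfl (fun y hy => le_antisymm ?_ ?_) (fun y hy => (hl y hy).ne)
        (fun y hy => absurd hy (by simp))
      · exact (monotone_cellIdx (hgm hy.2.le)).trans (by simpa using hn)
      · exact monotone_cellIdx (hgm hy.1)
    | succ n ih =>
      intro p hp hl hn
      rcases le_or_gt (cellIdx (g b)) (cellIdx (g p)) with h | h
      · exact ih p hp hl (by omega)
      set k : ℤ := cellIdx (g p) + 1 with hk
      have hgp : g p < k * Real.pi := by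
        by_contra hcon
        have := monotone_cellIdx (not_lt.1 hcon)
        rw [cellIdx_int_mul_pi] at this
        omega
      have hgb : k * Real.pi ≤ g b := by
        by_contra hcon
        have := cellIdx_lt (not_le.1 hcon)
        omega
      set S : Set ℝ := Icc p b ∩ g ⁻¹' {k * Real.pi} with hS
      have hScl : IsClosed S := isClosed_Icc.inter (isClosed_singleton.preimage hgc)
      have hSne : S.Nonempty := by
        obtain ⟨z, hz, hz2⟩ := intermediate_value_Icc hp.2 hgc.continuousOn ⟨hgp.le, hgb⟩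
        exact ⟨z, hz, hz2⟩
      have hSb : BddBelow S := ⟨p, fun z hz => hz.1.1⟩
      set q := sInf S with hq
      obtain ⟨hqI, hgq⟩ : q ∈ S := hScl.csInf_mem hSne hSb
      simp only [mem_preimage, mem_singleton_iff] at hgq
      have hlt : ∀ y ∈ Ico p q, g y < k * Real.pi := fun y hy =>
        lt_of_le_of_ne (hgq ▸ hgm hy.2.le) fun he => absurd
          (csInf_le hSb ⟨⟨hy.1, hy.2.le.trans hqI.2⟩, he⟩) (not_le.2 hy.2)
      have hpq : p ≤ q := hqI.1
      have hidq : cellIdx (g q) = k := by rw [hgq, cellIdx_int_mul_pi]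
      have hin : ∀ y ∈ Ico p q, cellIdx (g y) = cellIdx (g p) := fun y hy => by
        have h1 := cellIdx_lt (hlt y hy)
        have h2 := monotone_cellIdx (hgm hy.1)
        omega
      obtain ⟨i1, c1⟩ := hcell p q hp.1 hpq hqI.2 hin (fun y hy => (hl y hy).ne) fun y hy => by
        have := monotone_cellIdx (hgm hy.1.le)
        omega
      obtain ⟨i2, c2⟩ := ih q ⟨hp.1.trans hpq, hqI.2⟩ (fun y hy => by
        rw [hidq]
        rcases lt_or_ge y p with h' | h'
        · have := hl y ⟨hy.1, h'⟩
          omega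
        · exact cellIdx_lt (hlt y ⟨h', hy.2⟩)) (by omega)
      refine ⟨i1.trans i2, ?_⟩
      rw [← integral_add_adjacent_intervals i1 i2, ← integral_add_adjacent_intervals
        (hc1.intervalIntegrable p q) (hc1.intervalIntegrable q b)]
      rw [hzero q k hgq, add_div] at c1 c2
      rw [add_div]
      norm_num at c1 c2 ⊢
      linarith
  exact key (cellIdx (g b) - cellIdx (g a)).toNat a ⟨le_rfl, hab⟩
    (fun y hy => absurd hy (by simp)) (by omega)

end Vale.Agent.P371
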