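import Mathlib

/-!
Fubini's theorem for bounded measurable functions on rectangles.
-/

namespace Vale.Agent.P371

open MeasureTheory Set

/-- Bounded measurable functions on a rectangle: the order of integration can be swapped and the
inner integrals are integrable. -/
theorem swap_bdd {F : ℝ → ℝ → ℝ} {a b a' b' M : ℝ} (hab : a ≤ b) (hab' : a' ≤ b')
    (hm : Measurable (Function.uncurry F))
    (hM : ∀ c ∈ Icc a b, ∀ x ∈ Icc a' b', |F c x| ≤ M) :
    (∫ c in a..b, ∫ x in a'..b', F c x) = (∫ x in a'..b', ∫ c in a..b, F c x) ∧
      IntervalIntegrable (fun c => ∫ x in a'..b', F c x) volume a b ∧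
      IntervalIntegrable (fun x => ∫ c in a..b, F c x) volume a' b' := by
  have hi : IntegrableOn (Function.uncurry F) (Ioc a b ×ˢ Ioc a' b') := by
    refine Measure.integrableOn_of_bounded ?_ hm.aestronglyMeasurable (M := M) ?_
    · rw [Measure.volume_eq_prod, Measure.prod_prod]
      exact ENNReal.mul_ne_top (by simp) (by simp)
    · refine (ae_restrict_mem (measurableSet_Ioc.prod measurableSet_Ioc)).mono fun z hz => ?_
      exact hM z.1 (Ioc_subset_Icc_self hz.1) z.2 (Ioc_subset_Icc_self hz.2)
  refine ⟨intervalIntegral_intervalIntegral_swap (by rwa [uIoc_of_le hab, uIoc_of_le hab']), ?_, ?_⟩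
  all_goals rw [IntegrableOn, Measure.volume_eq_prod, ← Measure.prod_restrict] at hi
  · rw [intervalIntegrable_iff, uIoc_of_le hab]
    simp only [intervalIntegral.integral_of_le hab']
    exact hi.integral_prod_left
  · rw [intervalIntegrable_iff, uIoc_of_le hab']
    simp only [intervalIntegral.integral_of_le hab]
    exact hi.integral_prod_right

end Vale.Agent.P371
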