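import Mathlib

/-!
Polynomial minorant of `s ^ (4/3)` and the linearised bound on `s ^ 2 / L ^ 2`.
-/

namespace Vale.Agent.P371

open MeasureTheory

/-- The linearisation parameter. -/
noncomputable def tau : ℝ := 91 / 100

/-- A polynomial below `s ^ (4/3)` on `[0, 1]`. -/
noncomputable def minor (s : ℝ) : ℝ :=
  (-(545377546 : ℝ) / 68919720831)
    + ((31099248565 : ℝ) / 68919720831) * s
    + ((363672795380 : ℝ) / 375229591191) * s ^ 2
    + (-(2044559503360 : ℝ) / 3377066320719) * s ^ 3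
    + ((651430985728 : ℝ) / 3377066320719) * s ^ 4

/-- The positive cofactor of the minorant certificate. -/
noncomputable def cofactor (x : ℝ) : ℝ :=
  ((2849319424 : ℝ) / 68919720831)
    + ((6919775744 : ℝ) / 22973240277) * x
    + ((92166760960 : ℝ) / 68919720831) * x ^ 2
    + ((1124841227008 : ℝ) / 482438045817) * x ^ 3
    + ((7945745379328 : ℝ) / 3377066320719) * x ^ 4
    + ((5567699206144 : ℝ) / 3377066320719) * x ^ 5
    + ((814288732160 : ℝ) / 1125688773573) * x ^ 6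
    + ((651430985728 : ℝ) / 3377066320719) * x ^ 7

theorem cofactor_nonneg {x : ℝ} (hx : 0 ≤ x) : 0 ≤ cofactor x := by
  unfold cofactor
  norm_num
  positivity

theorem minor_le {x : ℝ} (h0 : 0 ≤ x) (h1 : x ≤ 1) : minor (x ^ 3) ≤ x ^ 4 := by
  have key : x ^ 4 - minor (x ^ 3) =
      (x - 1 / 2) ^ 2 * (x - 7 / 8) ^ 2 * (1 - x) * cofactor x := by
    unfold minor cofactor
    ring
  have : 0 ≤ (x - 1 / 2) ^ 2 * (x - 7 / 8) ^ 2 * (1 - x) * cofactor x :=
    mul_nonneg (mul_nonneg (by positivity) (by linarith)) (cofactor_nonneg h0)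
  linarith

@[fun_prop]
theorem continuous_minor : Continuous minor := by
  unfold minor
  fun_prop

/-- `s ^ 2 / L ^ 2` dominates its linearisation in `L`. -/
theorem linearised {s L : ℝ} (h0 : 0 ≤ s) (h1 : s ≤ 1) (hL : 0 < L) :
    3 * tau ^ 2 * minor s - 2 * tau ^ 3 * s * L ≤ s ^ 2 / L ^ 2 := by
  have hx0 : 0 ≤ s ^ ((1 : ℝ) / 3) := Real.rpow_nonneg h0 _
  have hx1 : s ^ ((1 : ℝ) / 3) ≤ 1 := Real.rpow_le_one h0 h1 (by norm_num)
  have hx3 : (s ^ ((1 : ℝ) / 3)) ^ 3 = s := by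
    rw [← Real.rpow_natCast, ← Real.rpow_mul h0]
    norm_num
  generalize s ^ ((1 : ℝ) / 3) = x at hx0 hx1 hx3
  subst hx3
  have h2 := minor_le hx0 hx1
  have ht : 0 < tau := by norm_num [tau]
  have h3 : 3 * tau ^ 2 * x ^ 4 - 2 * tau ^ 3 * x ^ 3 * L ≤ (x ^ 3) ^ 2 / L ^ 2 := by
    rw [le_div_iff₀ (by positivity)]
    nlinarith [mul_nonneg (mul_nonneg (pow_nonneg hx0 3) (sq_nonneg (x - tau * L)))
      (by positivity : 0 ≤ x + 2 * tau * L)]
  nlinarith [mul_le_mul_of_nonneg_left h2 (by positivity : 0 ≤ 3 * tau ^ 2)]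

theorem integral_minor_sin : 182 / 100 ≤ ∫ x in (0 : ℝ)..Real.pi, minor (Real.sin x) := by
  have hi : ∀ (a : ℝ) (k : ℕ), IntervalIntegrable (fun x => a * Real.sin x ^ k) volume 0 Real.pi :=
    fun a k => (by fun_prop : Continuous fun x => a * Real.sin x ^ k).intervalIntegrable _ _
  have e2 : ∫ x in (0 : ℝ)..Real.pi, Real.sin x ^ 2 = Real.pi / 2 := by
    simp [integral_sin_sq]
  have e3 : ∫ x in (0 : ℝ)..Real.pi, Real.sin x ^ 3 = 4 / 3 := by
    have h := integral_sin_pow (a := 0) (b := Real.pi) (n := 1)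
    norm_num [integral_sin] at h ⊢
  have e4 : ∫ x in (0 : ℝ)..Real.pi, Real.sin x ^ 4 = 3 * Real.pi / 8 := by
    have h := integral_sin_pow_even 2
    norm_num [Finset.prod_range_succ] at h
    rw [h]
    ring
  have h0 : ∀ a : ℝ, IntervalIntegrable (fun _ : ℝ => a) volume 0 Real.pi :=
    fun a => intervalIntegrable_const
  have h1 : ∀ a : ℝ, IntervalIntegrable (fun x => a * Real.sin x) volume 0 Real.pi :=
    fun a => (by fun_prop : Continuous fun x => a * Real.sin x).intervalIntegrable _ _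
  unfold minor
  rw [intervalIntegral.integral_add (((h0 _).add (h1 _)).add (hi _ 2) |>.add (hi _ 3)) (hi _ 4),
    intervalIntegral.integral_add (((h0 _).add (h1 _)).add (hi _ 2)) (hi _ 3),
    intervalIntegral.integral_add ((h0 _).add (h1 _)) (hi _ 2),
    intervalIntegral.integral_add (h0 _) (h1 _)]
  simp only [intervalIntegral.integral_const, intervalIntegral.integral_const_mul, integral_sin,
    Real.cos_zero, Real.cos_pi, smul_eq_mul, e2, e3, e4]
  nlinarith [Real.pi_gt_d6, Real.pi_lt_d6]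

end Vale.Agent.P371
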