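import Mathlib
import Vale.Agent.P371.Minorant
import Vale.Agent.P371.Fubini
import Vale.Agent.P371.Cells

/-!
Averaging over directions gives the kinetic inequality for a nowhere vanishing density.
-/

namespace Vale.Agent.P371

open MeasureTheory intervalIntegral Set

theorem integral_abs_sin_sub (θ : ℝ) (h : ℝ → ℝ) :
    ∫ c in (0 : ℝ)..Real.pi, h |Real.sin (θ - c)| = ∫ u in (0 : ℝ)..Real.pi, h (Real.sin u) := by
  have hper : Function.Periodic (fun u => h |Real.sin u|) Real.pi := fun u => by
    simp [Real.sin_add_pi]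
  have h2 := hper.intervalIntegral_add_eq (θ - Real.pi) 0
  rw [integral_comp_sub_left (fun u => h |Real.sin u|), sub_zero]
  simp only [sub_add_cancel, zero_add] at h2
  rw [h2]
  refine integral_congr fun u hu => ?_
  rw [uIcc_of_le Real.pi_pos.le] at hu
  simp only [abs_of_nonneg (Real.sin_nonneg_of_nonneg_of_le_pi hu.1 hu.2)]

theorem integral_sq_trig (A B θ : ℝ) :
    ∫ c in (0 : ℝ)..Real.pi, (A * Real.sin (θ - c) + B * Real.cos (θ - c)) ^ 2 =
      Real.pi / 2 * (A ^ 2 + B ^ 2) := by
  have he : ∀ c, (A * Real.sin (θ - c) + B * Real.cos (θ - c)) ^ 2 =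
      (A * Real.sin θ + B * Real.cos θ) ^ 2 * Real.cos c ^ 2
      + (B * Real.sin θ - A * Real.cos θ) ^ 2 * Real.sin c ^ 2
      + 2 * (A * Real.sin θ + B * Real.cos θ) * (B * Real.sin θ - A * Real.cos θ) *
        (Real.sin c * Real.cos c) := fun c => by
    rw [Real.sin_sub, Real.cos_sub]
    ring
  simp only [he]
  rw [intervalIntegral.integral_add, intervalIntegral.integral_add,
    intervalIntegral.integral_const_mul, intervalIntegral.integral_const_mul,
    intervalIntegral.integral_const_mul, integral_cos_sq, integral_sin_sq, integral_sin_mul_cos₁]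
  · simp only [Real.sin_pi, Real.sin_zero, Real.cos_pi, Real.cos_zero]
    linear_combination Real.pi / 2 * (A ^ 2 + B ^ 2) * Real.sin_sq_add_cos_sq θ
  all_goals exact (by fun_prop : Continuous _).intervalIntegrable _ _

variable {ι : Type*} [Fintype ι]

/-- The kinetic inequality, up to boundary terms. -/
theorem core {ψ ψd : ι → ℝ → ℝ} (hψ : ∀ i x, HasDerivAt (ψ i) (ψd i x) x)
    (hψd : ∀ i, Continuous (ψd i)) (hpos : ∀ x, 0 < dens ψ x) {a b B δ : ℝ} (hab : a ≤ b)
    (hδ : 0 < δ) (hB : ∀ v : ι → ℝ, ∫ y in a..b, (∑ i, v i * ψ i y) ^ 2 ≤ B * ∑ i, v i ^ 2) :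
    Real.pi ^ 2 * (3 * tau ^ 2 * (182 / 100) - 4 * tau ^ 3 * (B + 2 * δ)) *
        ∫ x in a..b, dens ψ x ^ 3 ≤
      2 * Real.pi * (∫ x in a..b, ∑ i, ψd i x ^ 2) +
        Real.pi * (dens ψ a ^ 2 + dens ψ b ^ 2) / δ := by
  have hc : ∀ i, Continuous (ψ i) := fun i =>
    continuous_iff_continuousAt.2 fun z => (hψ i z).continuousAt
  set ρ := dens ψ with hρ_def
  set ρd := densD ψ ψd with hρd_def
  set v := speed ψ ψd with hv_def
  set Θ := angle ψ ψd a with hΘ_def
  have hρc : Continuous ρ := continuous_dens hc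
  have hρdc : Continuous ρd := continuous_densD hc hψd
  have hvc : Continuous v := continuous_speed hc hψd hpos
  have hΘc : Continuous Θ := continuous_angle hvc a
  set f : ℝ → ℝ → ℝ := fun c x => ρ x * Real.sin (2 * Θ x - c) with hf_def
  set f' : ℝ → ℝ → ℝ := fun c x =>
    ρd x * Real.sin (2 * Θ x - c) + 2 * ρ x * v x * Real.cos (2 * Θ x - c) with hf'_def
  have hf : ∀ c x, HasDerivAt (f c) (f' c x) x := fun c x =>
    ((hasDerivAt_dens hψ x).mul
      (((hasDerivAt_angle hvc a x).const_mul 2).sub_const c).sin).congr_deriv (by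
        simp only [hf'_def, hρ_def, hρd_def, hv_def, hΘ_def]; ring)
  set L : ℝ → ℝ → ℝ := fun c x =>
    cellMass ρ (fun y => 2 * Θ y - c) a b (2 * Θ x - c) with hL_def
  set R := ∫ y in a..b, ρ y with hR
  have hL0 : ∀ c x, 0 ≤ L c x ∧ L c x ≤ R := fun c x => by
    have hi := intervalIntegrable_sameCell hρc
      (g := fun y => 2 * Θ y - c) (by fun_prop) (2 * Θ x - c) a b
    refine ⟨integral_nonneg hab fun y _ => mul_nonneg (hpos y).le (sameCell_nonneg _ _),
      integral_mono_on hab hi (hρc.intervalIntegrable _ _) fun y _ => ?_⟩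
    exact mul_le_of_le_one_right (hpos y).le (sameCell_le_one _ _)
  have hLm : Measurable (Function.uncurry L) := by
    have h : StronglyMeasurable fun z : (ℝ × ℝ) × ℝ =>
        ρ z.2 * sameCell (2 * Θ z.2 - z.1.1) (2 * Θ z.1.2 - z.1.1) :=
      ((hρc.comp continuous_snd).measurable.mul
        (measurable_sameCell (by fun_prop) (by fun_prop))).stronglyMeasurable
    have h2 := (h.integral_prod_right' (ν := volume.restrict (Ioc a b))).measurable
    simp only [Function.uncurry_def, hL_def, cellMass, intervalIntegral.integral_of_le hab]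
    exact h2
  -- the linearised lower bound in one direction
  set G : ℝ → ℝ → ℝ := fun c x => Real.pi ^ 2 * ρ x ^ 3 *
    (3 * tau ^ 2 * minor |Real.sin (2 * Θ x - c)| -
      2 * tau ^ 3 * (|Real.sin (2 * Θ x - c)| * L c x) -
      4 * tau ^ 3 * δ * |Real.sin (2 * Θ x - c)|) with hG_def
  have hGm : Measurable (Function.uncurry G) := by
    simp only [Function.uncurry_def, hG_def]
    have hs : Measurable fun p : ℝ × ℝ => |Real.sin (2 * Θ p.2 - p.1)| :=
      (by fun_prop : Continuous fun p : ℝ × ℝ => |Real.sin (2 * Θ p.2 - p.1)|).measurable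
    exact ((by fun_prop : Continuous fun p : ℝ × ℝ => Real.pi ^ 2 * ρ p.2 ^ 3).measurable).mul
      (((continuous_minor.measurable.comp hs).const_mul _ |>.sub ((hs.mul hLm).const_mul _)).sub
        (hs.const_mul _))
  obtain ⟨Mρ, hMρ⟩ := isCompact_Icc.exists_bound_of_continuousOn (s := Icc a b) hρc.continuousOn
  obtain ⟨Mm, hMm⟩ :=
    isCompact_Icc.exists_bound_of_continuousOn (s := Icc (0 : ℝ) 1) continuous_minor.continuousOn
  have hs01 : ∀ u, |Real.sin u| ∈ Icc (0 : ℝ) 1 := fun u =>
    ⟨abs_nonneg _, Real.abs_sin_le_one u⟩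
  have htau : 0 < tau := by norm_num [tau]
  have hGb : ∀ c : ℝ, ∀ x ∈ Icc a b, |G c x| ≤ Real.pi ^ 2 * Mρ ^ 3 *
      (3 * tau ^ 2 * Mm + 2 * tau ^ 3 * R + 4 * tau ^ 3 * δ) := by
    intro c x hx
    have h1 : ρ x ≤ Mρ := (le_abs_self _).trans (hMρ x hx)
    have h2 := hMm _ (hs01 (2 * Θ x - c))
    have h3 := hL0 c x
    have h4 := hs01 (2 * Θ x - c)
    have h5 : |Real.sin (2 * Θ x - c)| * L c x ≤ R :=
      (mul_le_of_le_one_left h3.1 h4.2).trans h3.2
    simp only [hG_def, abs_mul, abs_of_pos (show 0 < Real.pi ^ 2 by positivity),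
      abs_of_pos (pow_pos (hpos x) 3)]
    refine mul_le_mul (mul_le_mul_of_nonneg_left (pow_le_pow_left₀ (hpos x).le h1 3)
      (by positivity)) ?_ (abs_nonneg _)
      (mul_nonneg (by positivity) (pow_nonneg ((hpos x).le.trans h1) 3))
    rw [Real.norm_eq_abs, abs_le] at h2
    have e1 := mul_le_mul_of_nonneg_left h2.1 (show 0 ≤ 3 * tau ^ 2 by positivity)
    have e2 := mul_le_mul_of_nonneg_left h2.2 (show 0 ≤ 3 * tau ^ 2 by positivity)
    have e3 := mul_le_mul_of_nonneg_left h5 (show 0 ≤ 2 * tau ^ 3 by positivity)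
    have e4 := mul_le_mul_of_nonneg_left h4.2 (show 0 ≤ 4 * tau ^ 3 * δ by positivity)
    have e5 : 0 ≤ 2 * tau ^ 3 * (|Real.sin (2 * Θ x - c)| * L c x) := by
      have := h3.1
      positivity
    have e6 : 0 ≤ 4 * tau ^ 3 * δ * |Real.sin (2 * Θ x - c)| := by positivity
    rw [abs_le]
    constructor <;> nlinarith
  obtain ⟨hswap, hGc, -⟩ := swap_bdd Real.pi_pos.le hab hGm fun c _ => hGb c
  have hper : ∀ c, ∫ x in a..b, G c x ≤
      (∫ x in a..b, f' c x ^ 2 / ρ x) + (f c a ^ 2 + f c b ^ 2) / δ := by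
    intro c
    have hf'c : Continuous (f' c) := by simp only [hf'_def]; fun_prop
    obtain ⟨hi, hle⟩ := cells_le hab hδ hρc hpos (g := fun y => 2 * Θ y - c) (by fun_prop)
      (fun x y h => by linarith [monotone_angle hvc a h]) (hf c) hf'c
      (fun x k hk => by simp only [hf_def, hk, Real.sin_int_mul_pi, mul_zero])
    refine le_trans (integral_mono_on hab ?_ hi fun x hx => ?_) hle
    · refine IntervalIntegrable.mono_fun' (g := fun _ => Real.pi ^ 2 * Mρ ^ 3 *
        (3 * tau ^ 2 * Mm + 2 * tau ^ 3 * R + 4 * tau ^ 3 * δ)) intervalIntegrable_const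
        (hGm.comp measurable_prodMk_left).aestronglyMeasurable ?_
      rw [uIoc_of_le hab]
      exact (ae_restrict_mem measurableSet_Ioc).mono fun x hx => hGb c x (Ioc_subset_Icc_self hx)
    · have hl := hL0 c x
      have h := linearised (hs01 (2 * Θ x - c)).1 (hs01 _).2
        (show 0 < L c x + 2 * δ by linarith)
      calc G c x = Real.pi ^ 2 * ρ x ^ 3 * (3 * tau ^ 2 * minor |Real.sin (2 * Θ x - c)| -
            2 * tau ^ 3 * |Real.sin (2 * Θ x - c)| * (L c x + 2 * δ)) := by
            simp only [hG_def]; ring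
        _ ≤ Real.pi ^ 2 * ρ x ^ 3 *
            (|Real.sin (2 * Θ x - c)| ^ 2 / (L c x + 2 * δ) ^ 2) :=
          mul_le_mul_of_nonneg_left h (by have := hpos x; positivity)
        _ = _ := by simp only [hf_def, hL_def, sq_abs]; ring
  -- average over directions
  have hcont : Continuous (Function.uncurry fun c x => f' c x ^ 2 / ρ x) := by
    simp only [Function.uncurry_def, hf'_def]
    exact (by fun_prop : Continuous fun p : ℝ × ℝ => (ρd p.2 * Real.sin (2 * Θ p.2 - p.1) +
      2 * ρ p.2 * v p.2 * Real.cos (2 * Θ p.2 - p.1)) ^ 2).div₀ (hρc.comp continuous_snd)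
        fun p => (hpos p.2).ne'
  have hKswap : ∫ c in (0 : ℝ)..Real.pi, ∫ x in a..b, f' c x ^ 2 / ρ x =
      ∫ x in a..b, ∫ c in (0 : ℝ)..Real.pi, f' c x ^ 2 / ρ x :=
    intervalIntegral_intervalIntegral_swap
      ((hcont.continuousOn.integrableOn_compact (isCompact_uIcc.prod isCompact_uIcc)).mono_set
        (prod_mono uIoc_subset_uIcc uIoc_subset_uIcc))
  have hKin : ∀ x, ∫ c in (0 : ℝ)..Real.pi, f' c x ^ 2 / ρ x =
      2 * Real.pi * ∑ i, ψd i x ^ 2 := by
    intro x
    simp only [hf'_def, intervalIntegral.integral_div, integral_sq_trig]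
    have hs := speed_sq (ψd := ψd) (hpos x)
    have hne := (hpos x).ne'
    simp only [hρ_def, hρd_def, hv_def] at hne ⊢
    field_simp at hs ⊢
    linear_combination (1 : ℝ) * hs
  have hLavg : ∀ x, ∫ c in (0 : ℝ)..Real.pi, |Real.sin (2 * Θ x - c)| * L c x ≤ 2 * B := by
    intro x
    set F : ℝ → ℝ → ℝ := fun c y =>
      ρ y * (|Real.sin (2 * Θ x - c)| * sameCell (2 * Θ y - c) (2 * Θ x - c)) with hF_def
    have hFm : Measurable (Function.uncurry F) := by
      simp only [Function.uncurry_def, hF_def]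
      exact (hρc.comp continuous_snd).measurable.mul
        (((by fun_prop : Continuous fun p : ℝ × ℝ => |Real.sin (2 * Θ x - p.1)|).measurable).mul
          (measurable_sameCell (by fun_prop) (by fun_prop)))
    obtain ⟨hs, -, -⟩ := swap_bdd Real.pi_pos.le hab hFm (M := Mρ) fun c _ y hy => by
      simp only [hF_def, abs_mul, abs_abs, abs_of_nonneg (sameCell_nonneg _ _)]
      refine (mul_le_of_le_one_right (abs_nonneg _) ?_).trans (hMρ y hy)
      exact mul_le_one₀ (Real.abs_sin_le_one _) (sameCell_nonneg _ _) (sameCell_le_one _ _)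
    calc ∫ c in (0 : ℝ)..Real.pi, |Real.sin (2 * Θ x - c)| * L c x
        = ∫ c in (0 : ℝ)..Real.pi, ∫ y in a..b, F c y := by
          refine integral_congr fun c _ => ?_
          simp only [hL_def, cellMass, hF_def, ← intervalIntegral.integral_const_mul]
          exact integral_congr fun y _ => by ring
      _ = ∫ y in a..b, ρ y * window (2 * (Θ y - Θ x)) := by
          rw [hs]
          refine integral_congr fun y _ => ?_
          simp only [hF_def, intervalIntegral.integral_const_mul]
          rw [← integral_sameCell (2 * Θ x) (2 * (Θ y - Θ x))]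
          congr 1
          exact integral_congr fun c _ => by
            rw [show 2 * Θ x + 2 * (Θ y - Θ x) - c = 2 * Θ y - c by ring]
      _ ≤ 2 * B := window_mass_le hψ hψd hpos hab hB x
  have hGavg : ∀ x, Real.pi ^ 2 * (3 * tau ^ 2 * (182 / 100) - 4 * tau ^ 3 * (B + 2 * δ)) *
      ρ x ^ 3 ≤ ∫ c in (0 : ℝ)..Real.pi, G c x := by
    intro x
    have i1 : IntervalIntegrable (fun c => 3 * tau ^ 2 * minor |Real.sin (2 * Θ x - c)|)
        volume 0 Real.pi := (by fun_prop : Continuous _).intervalIntegrable _ _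
    have i2 : IntervalIntegrable (fun c => 2 * tau ^ 3 * (|Real.sin (2 * Θ x - c)| * L c x))
        volume 0 Real.pi := by
      refine IntervalIntegrable.mono_fun' (g := fun _ => 2 * tau ^ 3 * R) intervalIntegrable_const
        ?_ (Filter.Eventually.of_forall fun c => ?_)
      · exact (((by fun_prop : Continuous fun c => |Real.sin (2 * Θ x - c)|).measurable.mul
          (hLm.comp measurable_prodMk_right)).const_mul _).aestronglyMeasurable
      · have h3 := hL0 c x
        simp only [Real.norm_eq_abs, abs_mul, abs_abs, abs_of_nonneg h3.1,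
          abs_of_pos (show 0 < 2 * tau ^ 3 by positivity)]
        exact mul_le_mul_of_nonneg_left
          ((mul_le_of_le_one_left h3.1 (Real.abs_sin_le_one _)).trans h3.2) (by positivity)
    have i3 : IntervalIntegrable (fun c => 4 * tau ^ 3 * δ * |Real.sin (2 * Θ x - c)|)
        volume 0 Real.pi := (by fun_prop : Continuous _).intervalIntegrable _ _
    simp only [hG_def, intervalIntegral.integral_const_mul]
    rw [intervalIntegral.integral_sub (i1.sub i2) i3, intervalIntegral.integral_sub i1 i2,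
      intervalIntegral.integral_const_mul, intervalIntegral.integral_const_mul,
      intervalIntegral.integral_const_mul, integral_abs_sin_sub _ minor,
      integral_abs_sin_sub _ fun s => s]
    simp only [integral_sin, Real.cos_zero, Real.cos_pi]
    refine le_of_eq_of_le (b := Real.pi ^ 2 * ρ x ^ 3 *
      (3 * tau ^ 2 * (182 / 100) - 4 * tau ^ 3 * (B + 2 * δ))) (by ring)
      (mul_le_mul_of_nonneg_left ?_ (by have := hpos x; positivity))
    have e1 := mul_le_mul_of_nonneg_left integral_minor_sin (show 0 ≤ 3 * tau ^ 2 by positivity)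
    have e2 := mul_le_mul_of_nonneg_left (hLavg x) (show 0 ≤ 2 * tau ^ 3 by positivity)
    linarith
  have hbd : ∀ c, (f c a ^ 2 + f c b ^ 2) / δ ≤ (ρ a ^ 2 + ρ b ^ 2) / δ := fun c => by
    have h : ∀ x, f c x ^ 2 ≤ ρ x ^ 2 := fun x => by
      simp only [hf_def, mul_pow]
      exact mul_le_of_le_one_right (sq_nonneg _) (Real.sin_sq_le_one _)
    exact div_le_div_of_nonneg_right (add_le_add (h a) (h b)) hδ.le
  have hKi : IntervalIntegrable (fun c => ∫ x in a..b, f' c x ^ 2 / ρ x) volume 0 Real.pi :=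
    (intervalIntegral.continuous_parametric_intervalIntegral_of_continuous'
      hcont a b).intervalIntegrable _ _
  calc Real.pi ^ 2 * (3 * tau ^ 2 * (182 / 100) - 4 * tau ^ 3 * (B + 2 * δ)) *
        ∫ x in a..b, ρ x ^ 3
      = ∫ x in a..b, Real.pi ^ 2 * (3 * tau ^ 2 * (182 / 100) - 4 * tau ^ 3 * (B + 2 * δ)) *
          ρ x ^ 3 := (intervalIntegral.integral_const_mul _ _).symm
    _ ≤ ∫ x in a..b, ∫ c in (0 : ℝ)..Real.pi, G c x :=
        integral_mono_on hab ((by fun_prop : Continuous _).intervalIntegrable _ _)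
          (swap_bdd Real.pi_pos.le hab hGm fun c _ => hGb c).2.2 fun x _ => hGavg x
    _ = ∫ c in (0 : ℝ)..Real.pi, ∫ x in a..b, G c x := hswap.symm
    _ ≤ ∫ c in (0 : ℝ)..Real.pi,
          ((∫ x in a..b, f' c x ^ 2 / ρ x) + (ρ a ^ 2 + ρ b ^ 2) / δ) :=
        integral_mono_on Real.pi_pos.le hGc (hKi.add intervalIntegrable_const)
          fun c _ => (hper c).trans (add_le_add le_rfl (hbd c))
    _ = _ := by
        rw [intervalIntegral.integral_add hKi intervalIntegrable_const, hKswap,
          intervalIntegral.integral_const, smul_eq_mul, sub_zero]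
        simp only [hKin, intervalIntegral.integral_const_mul]
        ring

end Vale.Agent.P371
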