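import Vale.Agent.P371.SharpProfile

/-!
The pointwise calibration inequality: the derivative of
`G = Σ_{ij} P (s_i + s_j) w_i w_j` along the flow plus the kinetic energy dominates `|ψ|^6`.
-/

namespace Vale.Agent.P371.Sharp

open Finset RealInnerProductSpace

variable {E : Type*} [NormedAddCommGroup E] [InnerProductSpace ℝ E]

/-- The moments `⟨ψ, T^k ψ⟩`. -/
noncomputable def mom (T : E →L[ℝ] E) (p : E) (k : ℕ) : ℝ := ⟪p, (T ^ k) p⟫

/-- The derivative of the `k`-th moment when `p` moves by `d` and `T` by `c p pᵀ`. -/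
noncomputable def momD (T : E →L[ℝ] E) (p d : E) (c : ℝ) (k : ℕ) : ℝ :=
  2 * ⟪d, (T ^ k) p⟫ + c * ∑ l ∈ range k, mom T p l * mom T p (k - 1 - l)

/-- The derivative of the calibration. -/
noncomputable def calD (a : ℕ → ℝ) (N : ℕ) (T : E →L[ℝ] E) (p d : E) (c : ℝ) : ℝ :=
  ∑ n ∈ range N, ∑ k ∈ range (n + 1), a n * n.choose k *
    (momD T p d c k * mom T p (n - k) + mom T p k * momD T p d c (n - k))

theorem calD_eq (a : ℕ → ℝ) (N : ℕ) (T : E →L[ℝ] E) (p d : E) (c : ℝ) :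
    calD a N T p d c = ∑ n ∈ range N, ∑ k ∈ range (n + 1),
      2 * (a n * n.choose k) * (momD T p d c k * mom T p (n - k)) := by
  refine sum_congr rfl fun n _ => ?_
  simp only [mul_add, sum_add_distrib]
  have : ∑ k ∈ range (n + 1), a n * n.choose k * (mom T p k * momD T p d c (n - k)) =
      ∑ k ∈ range (n + 1), a n * n.choose k * (momD T p d c k * mom T p (n - k)) := by
    rw [← sum_range_reflect]
    refine sum_congr rfl fun k hk => ?_
    have hk' : k ≤ n := by simp at hk; omega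
    rw [show n + 1 - 1 - k = n - k by omega, Nat.choose_symm hk', Nat.sub_sub_self hk']
    ring
  rw [this, ← sum_add_distrib]
  exact sum_congr rfl fun k _ => by ring

theorem trilin {ι : Type*} [Fintype ι] (f g h : ι → ℝ) :
    (∑ i, f i) * (∑ i, g i) * (∑ i, h i) = ∑ i, ∑ j, ∑ m, f i * g m * h j := by
  rw [sum_mul_sum, sum_mul]
  refine sum_congr rfl fun i _ => ?_
  rw [sum_mul]
  simp only [mul_sum]
  rw [sum_comm]

variable [FiniteDimensional ℝ E]

/-- The calibration inequality at a point. -/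
theorem point {T : E →L[ℝ] E} (hT : (T : E →ₗ[ℝ] E).IsSymmetric) {lo hi : ℝ}
    (hlo : ∀ z, lo * ‖z‖ ^ 2 ≤ ⟪z, T z⟫) (hhi : ∀ z, ⟪z, T z⟫ ≤ hi * ‖z‖ ^ 2)
    (a : ℕ → ℝ) (N : ℕ) {κ : ℝ}
    (hκ : ∀ r ∈ Set.Icc lo hi, ∀ t ∈ Set.Icc lo hi, ∀ u ∈ Set.Icc lo hi, κ ≤ 2 * dd a N r t u -
      4 * (∑ n ∈ range N, a n * (r + u) ^ n) * (∑ n ∈ range N, a n * (t + u) ^ n))
    (p d : E) (c : ℝ) :
    c ^ 2 * κ * (‖p‖ ^ 2) ^ 3 ≤ ‖d‖ ^ 2 + c * calD a N T p d c := by
  classical
  obtain ⟨b, hb⟩ : ∃ b, b = hT.eigenvectorBasis rfl := ⟨_, rfl⟩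
  obtain ⟨s, hs⟩ : ∃ s, s = hT.eigenvalues rfl := ⟨_, rfl⟩
  have hTb : ∀ i, T (b i) = s i • b i := fun i => by
    rw [hb, hs]
    exact hT.apply_eigenvectorBasis rfl i
  have hmem : ∀ i, s i ∈ Set.Icc lo hi := fun i => by
    have e : ⟪b i, T (b i)⟫ = s i := by
      rw [hTb, inner_smul_right, real_inner_self_eq_norm_sq, b.orthonormal.1 i]
      simp
    have h1 := hlo (b i)
    have h2 := hhi (b i)
    rw [e, b.orthonormal.1 i, one_pow, mul_one] at h1 h2
    exact ⟨h1, h2⟩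
  have hpow : ∀ (k : ℕ) (i) (z : E), ⟪b i, (T ^ k) z⟫ = s i ^ k * ⟪b i, z⟫ := by
    intro k i
    induction k with
    | zero => intro z; simp
    | succ k ih =>
      intro z
      rw [pow_succ, show (T ^ k * T) z = (T ^ k) (T z) from rfl, ih, pow_succ, show ⟪b i, T z⟫ = ⟪T (b i), z⟫ from (hT _ _).symm, hTb,
        real_inner_smul_left]
      ring
  obtain ⟨w, hw⟩ : ∃ w : Fin (Module.finrank ℝ E) → ℝ, w = fun i => ⟪b i, p⟫ ^ 2 := ⟨_, rfl⟩
  have hmom : ∀ k, mom T p k = ∑ i, s i ^ k * w i := fun k => by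
    rw [mom, ← b.sum_inner_mul_inner p ((T ^ k) p)]
    refine sum_congr rfl fun i _ => ?_
    rw [hpow, hw]
    dsimp only
    rw [real_inner_comm p (b i)]
    ring
  have hρ : ‖p‖ ^ 2 = ∑ i, w i := by
    rw [← real_inner_self_eq_norm_sq, show ⟪p, p⟫ = mom T p 0 by simp [mom], hmom]
    simp
  obtain ⟨P, hP⟩ : ∃ P : ℝ → ℝ, P = fun x => ∑ n ∈ range N, a n * x ^ n := ⟨_, rfl⟩
  obtain ⟨v, hv⟩ : ∃ v : E, v = ∑ n ∈ range N, ∑ k ∈ range (n + 1),
      (a n * n.choose k * mom T p (n - k)) • (T ^ k) p := ⟨_, rfl⟩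
  have hvb : ∀ i, ⟪b i, v⟫ = (∑ j, P (s i + s j) * w j) * ⟪b i, p⟫ := fun i => by
    rw [hv, inner_sum, hP, sum_mul]
    simp only [inner_sum, inner_smul_right, hpow, hmom, mul_sum, sum_mul, eval_add_expand]
    rw [sum_comm]
    refine sum_congr rfl fun n _ => ?_
    rw [sum_comm]
    exact sum_congr rfl fun j _ => sum_congr rfl fun k _ => by ring
  have hvn : ‖v‖ ^ 2 = ∑ i, ∑ j, ∑ k, P (s i + s j) * P (s k + s j) * (w i * w j * w k) := by
    rw [← real_inner_self_eq_norm_sq, ← b.sum_inner_mul_inner v v, sum_comm]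
    refine sum_congr rfl fun j _ => ?_
    rw [real_inner_comm, hvb, hw]
    simp only [sum_mul, mul_sum]
    rw [sum_comm]
    refine sum_congr rfl fun i _ => sum_congr rfl fun k _ => ?_
    rw [add_comm (s j) (s i), add_comm (s j) (s k)]
    ring
  have hdot : ∀ n, n ∈ range N → ∀ k ∈ range (n + 1),
      2 * (a n * n.choose k) * (momD T p d c k * mom T p (n - k)) =
        4 * ⟪d, (a n * n.choose k * mom T p (n - k)) • (T ^ k) p⟫ +
        2 * c * ∑ i, ∑ j, ∑ m, a n * n.choose k *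
          ((∑ l ∈ range k, s i ^ l * s m ^ (k - 1 - l)) * s j ^ (n - k)) *
            (w i * w j * w m) := by
    intro n _ k _
    have e : (∑ l ∈ range k, mom T p l * mom T p (k - 1 - l)) * mom T p (n - k) =
        ∑ i, ∑ j, ∑ m, ((∑ l ∈ range k, s i ^ l * s m ^ (k - 1 - l)) * s j ^ (n - k)) *
          (w i * w j * w m) := by
      rw [sum_mul]
      simp only [hmom, trilin]
      rw [sum_comm]
      refine sum_congr rfl fun i _ => ?_
      rw [sum_comm]
      refine sum_congr rfl fun j _ => ?_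
      rw [sum_comm]
      refine sum_congr rfl fun m _ => ?_
      simp only [sum_mul]
      exact sum_congr rfl fun l _ => by ring
    have e' : ∑ i, ∑ j, ∑ m, a n * n.choose k *
          ((∑ l ∈ range k, s i ^ l * s m ^ (k - 1 - l)) * s j ^ (n - k)) * (w i * w j * w m) =
        a n * n.choose k *
          ((∑ l ∈ range k, mom T p l * mom T p (k - 1 - l)) * mom T p (n - k)) := by
      rw [e]
      simp only [mul_sum, mul_assoc]
    rw [e', inner_smul_right, momD]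
    ring
  have hD : calD a N T p d c = 4 * ⟪d, v⟫ +
      2 * c * ∑ i, ∑ j, ∑ m, dd a N (s i) (s m) (s j) * (w i * w j * w m) := by
    rw [calD_eq, sum_congr rfl fun n hn => sum_congr rfl (hdot n hn)]
    simp only [sum_add_distrib, ← mul_sum, ← inner_sum, ← hv]
    congr 2
    simp only [dd, sum_mul]
    rw [sum_congr rfl fun n (_ : n ∈ range N) => sum_comm, sum_comm]
    refine sum_congr rfl fun i _ => ?_
    rw [sum_congr rfl fun n (_ : n ∈ range N) => sum_comm, sum_comm]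
    refine sum_congr rfl fun j _ => ?_
    rw [sum_congr rfl fun n (_ : n ∈ range N) => sum_comm, sum_comm]
  have hsq : 0 ≤ ‖d‖ ^ 2 + 4 * c * ⟪d, v⟫ + 4 * c ^ 2 * ‖v‖ ^ 2 := by
    have h := sq_nonneg ‖d + (2 * c) • v‖
    rw [norm_add_sq_real, inner_smul_right, norm_smul, mul_pow, Real.norm_eq_abs, sq_abs] at h
    linarith
  have hsum : κ * (‖p‖ ^ 2) ^ 3 ≤
      2 * (∑ i, ∑ j, ∑ m, dd a N (s i) (s m) (s j) * (w i * w j * w m)) - 4 * ‖v‖ ^ 2 := by
    rw [hvn, hρ, show (∑ i, w i) ^ 3 = (∑ i, w i) * (∑ i, w i) * (∑ i, w i) by ring, sum_mul_sum,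
      sum_mul]
    simp only [sum_mul, mul_sum, ← sum_sub_distrib]
    refine sum_le_sum fun i _ => sum_le_sum fun j _ => sum_le_sum fun m _ => ?_
    have hw0 : 0 ≤ w i * w j * w m := by rw [hw]; positivity
    have := mul_le_mul_of_nonneg_right (hκ _ (hmem i) _ (hmem m) _ (hmem j)) hw0
    simp only [hP] at *
    linarith
  rw [hD]
  nlinarith [mul_le_mul_of_nonneg_left hsum (sq_nonneg c)]

end Vale.Agent.P371.Sharp
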