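import Vale.Agent.P371.QuarterProfile
import Vale.Agent.P371.SharpCalib

/-!
The pointwise inequality for the calibration at exponent `5/4`.
-/

namespace Vale.Agent.P371.Quarter

open Finset RealInnerProductSpace
open Vale.Agent.P371.Sharp (mom momD)

section Weights

variable {κ : Type*} [Fintype κ]

theorem sum_sum_sq {q : κ → ℝ} (hq1 : ∑ i, q i = 1) (a : κ → ℝ) :
    ∑ i, ∑ j, q i * q j * (a j - a i) ^ 2 =
      2 * (∑ i, q i * a i ^ 2) - 2 * (∑ i, q i * a i) ^ 2 := by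
  have e : ∀ i j, q i * q j * (a j - a i) ^ 2 =
      q i * (q j * a j ^ 2) - 2 * ((q i * a i) * (q j * a j)) + (q i * a i ^ 2) * q j :=
    fun i j => by ring
  simp only [e, sum_add_distrib, sum_sub_distrib, ← mul_sum]
  simp only [← sum_mul, hq1]
  rw [one_mul, mul_one, sq (∑ i, q i * a i)]
  ring

/-- The averaged inequality: single and pair inequalities together. -/
theorem avg_le {q : κ → ℝ} (hq : ∀ i, 0 ≤ q i) (hq1 : ∑ i, q i = 1) (z : κ → ℝ) :
    amp ≤ (∑ i, q i * (cw * z i ^ 4)) + (∑ i, ∑ j, q i * q j * sl (z i) (z j)) -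
      ∑ i, q i * (phi (z i) + ∑ j, q j * del (z j)) ^ 2 := by
  have h1 : amp ≤ ∑ i, q i * (cw * z i ^ 4 + phid (z i) - (phi (z i) + del (z i)) ^ 2) := by
    calc amp = ∑ i, q i * amp := by rw [← sum_mul, hq1, one_mul]
      _ ≤ _ := sum_le_sum fun i _ => mul_le_mul_of_nonneg_left (single (z i)) (hq i)
  have h2 : ∑ i, ∑ j, q i * q j * ((phid (z i) + phid (z j)) / 2) ≤
      ∑ i, ∑ j, q i * q j * (sl (z i) (z j) + 1 / 2 *
        ((phi (z j) + del (z j) - (phi (z i) + del (z i))) ^ 2 - (phi (z j) - phi (z i)) ^ 2)) :=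
    sum_le_sum fun i _ => sum_le_sum fun j _ =>
      mul_le_mul_of_nonneg_left (by linarith [pair_sl (z i) (z j)]) (mul_nonneg (hq i) (hq j))
  have e1 : ∑ i, ∑ j, q i * q j * ((phid (z i) + phid (z j)) / 2) = ∑ i, q i * phid (z i) := by
    have e : ∀ i j, q i * q j * ((phid (z i) + phid (z j)) / 2) =
        1 / 2 * ((q i * phid (z i)) * q j) + 1 / 2 * (q i * (q j * phid (z j))) :=
      fun i j => by ring
    simp only [e, sum_add_distrib, ← mul_sum]
    simp only [← sum_mul, hq1]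
    ring
  have e2 : ∑ i, ∑ j, q i * q j * (sl (z i) (z j) + 1 / 2 *
        ((phi (z j) + del (z j) - (phi (z i) + del (z i))) ^ 2 - (phi (z j) - phi (z i)) ^ 2)) =
      (∑ i, ∑ j, q i * q j * sl (z i) (z j)) +
        1 / 2 * (∑ i, ∑ j, q i * q j * (phi (z j) + del (z j) - (phi (z i) + del (z i))) ^ 2) -
        1 / 2 * (∑ i, ∑ j, q i * q j * (phi (z j) - phi (z i)) ^ 2) := by
    simp only [mul_sum]
    rw [← sum_add_distrib, ← sum_sub_distrib]
    refine sum_congr rfl fun i _ => ?_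
    rw [← sum_add_distrib, ← sum_sub_distrib]
    exact sum_congr rfl fun j _ => by ring
  rw [e1, e2, sum_sum_sq hq1 fun i => phi (z i) + del (z i),
    sum_sum_sq hq1 fun i => phi (z i)] at h2
  obtain ⟨M, hM⟩ : ∃ M, M = ∑ j, q j * del (z j) := ⟨_, rfl⟩
  have e3 : ∑ i, q i * (phi (z i) + M) ^ 2 =
      (∑ i, q i * phi (z i) ^ 2) + 2 * M * (∑ i, q i * phi (z i)) + M ^ 2 := by
    have e : ∀ i, q i * (phi (z i) + M) ^ 2 =
        q i * phi (z i) ^ 2 + 2 * M * (q i * phi (z i)) + q i * M ^ 2 := fun i => by ring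
    simp only [e, sum_add_distrib, ← mul_sum]
    rw [← sum_mul, hq1, one_mul]
  have e4 : ∑ i, q i * (phi (z i) + del (z i)) = (∑ i, q i * phi (z i)) + M := by
    rw [hM, ← sum_add_distrib]
    exact sum_congr rfl fun i _ => by ring
  simp only [mul_sub, mul_add, sum_sub_distrib, sum_add_distrib] at h1
  rw [← hM, e3]
  rw [e4] at h2
  linarith

/-- The averaged inequality with part of the weight at the origin. -/
theorem phantom_le {p : κ → ℝ} {p0 : ℝ} (hp : ∀ i, 0 ≤ p i) (hp0 : 0 ≤ p0)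
    (h1 : p0 + ∑ i, p i = 1) (z : κ → ℝ) :
    amp - 2 * p0 * (∑ i, p i * (amp * (1 + |z i|))) - p0 ^ 2 * amp ≤
      (∑ i, p i * (cw * z i ^ 4)) + (∑ i, ∑ j, p i * p j * sl (z i) (z j)) -
        ∑ i, p i * (phi (z i) + ∑ j, p j * del (z j)) ^ 2 := by
  have h := avg_le (κ := Option κ) (q := fun o => o.elim p0 p)
    (by rintro (_ | i) <;> simp [hp0, hp]) (by simpa [Fintype.sum_option] using h1)
    (fun o => o.elim 0 z)
  have z1 : phi 0 = 0 := by simp [phi]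
  have z2 : del 0 = 0 := by simp [del, phi]
  have z3 : sl 0 0 = amp := by simp [sl, phid]
  simp only [Fintype.sum_option, Option.elim, z1, z2, z3, mul_zero, zero_add,
    zero_pow (by norm_num : (4 : ℕ) ≠ 0), sum_add_distrib] at h
  have h3 : ∑ j, p0 * p j * sl 0 (z j) ≤ p0 * ∑ i, p i * (amp * (1 + |z i|)) := by
    rw [mul_sum]
    refine sum_le_sum fun i _ => ?_
    rw [mul_assoc]
    exact mul_le_mul_of_nonneg_left
      (mul_le_mul_of_nonneg_left (sl_zero_le (z i)).1 (hp i)) hp0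
  have h4 : ∑ i, p i * p0 * sl (z i) 0 ≤ p0 * ∑ i, p i * (amp * (1 + |z i|)) := by
    rw [mul_sum]
    refine sum_le_sum fun i _ => ?_
    rw [mul_comm (p i) p0, mul_assoc]
    exact mul_le_mul_of_nonneg_left
      (mul_le_mul_of_nonneg_left (sl_zero_le (z i)).2 (hp i)) hp0
  have h5 : 0 ≤ p0 * (∑ j, p j * del (z j)) ^ 2 := by positivity
  linarith

/-- The averaged inequality for approximate profiles. -/
theorem approx_le {p : κ → ℝ} {p0 e Z : ℝ} (hp : ∀ i, 0 ≤ p i) (hp0 : 0 ≤ p0)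
    (h1 : p0 + ∑ i, p i = 1) (he0 : 0 ≤ e) (he1 : e ≤ 1) (hZ : 0 ≤ Z) (z : κ → ℝ)
    (hz : ∀ i, |z i| ≤ Z) (f g : κ → ℝ) (s : κ → κ → ℝ) (hf : ∀ i, |f i - phi (z i)| ≤ e)
    (hg : ∀ i, |g i - del (z i)| ≤ e) (hs : ∀ i j, |s i j - sl (z i) (z j)| ≤ e) :
    amp - 2 * p0 * (∑ i, p i * (amp * (1 + |z i|))) - p0 ^ 2 * amp -
        e * (1 + 2 * (2 * (amp * Z * (2 + Z)) + 2)) ≤
      (∑ i, p i * (cw * z i ^ 4)) + (∑ i, ∑ j, p i * p j * s i j) -
        ∑ i, p i * (f i + ∑ j, p j * g j) ^ 2 := by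
  have hS : ∑ i, p i ≤ 1 := by linarith
  have hS0 : 0 ≤ ∑ i, p i := sum_nonneg fun i _ => hp i
  have hA : ∑ i, ∑ j, p i * p j * sl (z i) (z j) ≤ (∑ i, ∑ j, p i * p j * s i j) + e := by
    have : ∑ i, ∑ j, p i * p j * sl (z i) (z j) ≤ ∑ i, ∑ j, p i * p j * (s i j + e) :=
      sum_le_sum fun i _ => sum_le_sum fun j _ => mul_le_mul_of_nonneg_left
        (by linarith [(abs_le.1 (hs i j)).1]) (mul_nonneg (hp i) (hp j))
    refine this.trans ?_
    simp only [mul_add, sum_add_distrib, ← sum_mul, ← mul_sum]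
    have h2 : (∑ i, p i) * (∑ i, p i) ≤ 1 := mul_le_one₀ hS hS0 hS
    linarith [mul_le_mul_of_nonneg_right h2 he0]
  obtain ⟨B, hB⟩ : ∃ B, B = amp * Z * (2 + Z) := ⟨_, rfl⟩
  have ha : 0 ≤ amp := by norm_num [amp]
  have hgm : |(∑ j, p j * g j) - ∑ j, p j * del (z j)| ≤ e := by
    rw [← sum_sub_distrib]
    refine (abs_sum_le_sum_abs _ _).trans ?_
    calc ∑ j, |p j * g j - p j * del (z j)| ≤ ∑ j, p j * e := sum_le_sum fun j _ => by
          rw [← mul_sub, abs_mul, abs_of_nonneg (hp j)]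
          exact mul_le_mul_of_nonneg_left (hg j) (hp j)
      _ ≤ e := by rw [← sum_mul]; exact mul_le_of_le_one_left he0 hS
  have hM : |∑ j, p j * del (z j)| ≤ amp * Z := by
    refine (abs_sum_le_sum_abs _ _).trans ?_
    calc ∑ j, |p j * del (z j)| ≤ ∑ j, p j * (amp * Z) := sum_le_sum fun j _ => by
          rw [abs_mul, abs_of_nonneg (hp j)]
          exact mul_le_mul_of_nonneg_left
            ((abs_del_le _).trans (mul_le_mul_of_nonneg_left (hz j) ha)) (hp j)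
      _ ≤ amp * Z := by rw [← sum_mul]; exact mul_le_of_le_one_left (by positivity) hS
  have hB0 : 0 ≤ B := hB ▸ by positivity
  have hC : ∑ i, p i * (f i + ∑ j, p j * g j) ^ 2 ≤
      (∑ i, p i * (phi (z i) + ∑ j, p j * del (z j)) ^ 2) + e * (2 * (2 * B + 2)) := by
    have : ∀ i, (f i + ∑ j, p j * g j) ^ 2 ≤
        (phi (z i) + ∑ j, p j * del (z j)) ^ 2 + e * (2 * (2 * B + 2)) := fun i => by
      obtain ⟨u, hu⟩ : ∃ u, u = phi (z i) + ∑ j, p j * del (z j) := ⟨_, rfl⟩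
      obtain ⟨v, hv⟩ : ∃ v, v = f i + ∑ j, p j * g j := ⟨_, rfl⟩
      have h3 : |u| ≤ B := by
        rw [hu]
        refine (abs_add_le _ _).trans ((add_le_add (abs_phi_le _) hM).trans ?_)
        have := mul_le_mul (mul_le_mul_of_nonneg_left (hz i) ha) (by linarith [hz i] : 1 + |z i| ≤ 1 + Z)
          (by positivity) (by positivity)
        rw [hB]
        linarith
      have h4 : |v - u| ≤ 2 * e := by
        rw [hu, hv, add_sub_add_comm]
        refine (abs_add_le _ _).trans ?_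
        linarith [hf i]
      rw [← hu, ← hv]
      nlinarith [abs_le.1 h3, abs_le.1 h4]
    calc ∑ i, p i * (f i + ∑ j, p j * g j) ^ 2
        ≤ ∑ i, p i * ((phi (z i) + ∑ j, p j * del (z j)) ^ 2 + e * (2 * (2 * B + 2))) :=
          sum_le_sum fun i _ => mul_le_mul_of_nonneg_left (this i) (hp i)
      _ ≤ _ := by
          simp only [mul_add (p _), sum_add_distrib, ← sum_mul]
          exact add_le_add le_rfl (mul_le_of_le_one_left (by positivity) hS)
  rw [← hB]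
  linarith [phantom_le hp hp0 h1 z]

end Weights

variable {E : Type*} [NormedAddCommGroup E] [InnerProductSpace ℝ E]

/-- The exponent of the density in front of the `n`-th moment. -/
noncomputable def expo (n : ℕ) : ℝ := (2 - n) / 3

/-- The derivative of the calibration. -/
noncomputable def calQ (a : ℕ → ℝ) (N : ℕ) (ε : ℝ) (T : E →L[ℝ] E) (p d : E) : ℝ :=
  cw * mom T p 4 + ∑ n ∈ range N, a n * ((ε + ‖p‖ ^ 2) ^ expo n * momD T p d 1 n +
    expo n * (ε + ‖p‖ ^ 2) ^ (expo n - 1) * (2 * ⟪p, d⟫) * mom T p n)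

variable [FiniteDimensional ℝ E]

/-- The calibration inequality at a point. -/
theorem point {T : E →L[ℝ] E} (hT : (T : E →ₗ[ℝ] E).IsSymmetric) {M R ε e Z : ℝ}
    (hM : ∀ z, |⟪z, T z⟫| ≤ M * ‖z‖ ^ 2) (hM0 : 0 ≤ M) (hε : 0 < ε)
    (hZ : M ≤ Z * ε ^ (1 / 3 : ℝ)) (he0 : 0 ≤ e) (he1 : e ≤ 1) (a : ℕ → ℝ) (N : ℕ)
    (happ : ∀ x ∈ Set.Icc (-Z) Z, |pval a N x - phi x| ≤ e ∧
      |(2 * pval a N x - pzd a N x) / 3 - del x| ≤ e ∧
        ∀ y ∈ Set.Icc (-Z) Z, |pdd a N x y - sl x y| ≤ e)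
    (p d : E) (hR : ‖p‖ ^ 2 ≤ R) :
    amp * (‖p‖ ^ 2) ^ (7 / 3 : ℝ) -
        (2 * ε * R * (amp * ((ε + R) ^ (1 / 3 : ℝ) + M)) + ε ^ 2 * (amp * (ε + R) ^ (1 / 3 : ℝ)) +
          e * (1 + 2 * (2 * (amp * Z * (2 + Z)) + 2)) * (ε + R) ^ (7 / 3 : ℝ)) ≤
      ‖d‖ ^ 2 + calQ a N ε T p d := by
  classical
  obtain ⟨b, hb⟩ : ∃ b, b = hT.eigenvectorBasis rfl := ⟨_, rfl⟩
  obtain ⟨s, hs⟩ : ∃ s, s = hT.eigenvalues rfl := ⟨_, rfl⟩
  have hTb : ∀ i, T (b i) = s i • b i := fun i => by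
    rw [hb, hs]
    exact hT.apply_eigenvectorBasis rfl i
  have hsM : ∀ i, |s i| ≤ M := fun i => by
    have h1 := hM (b i)
    rw [hTb, inner_smul_right, real_inner_self_eq_norm_sq, b.orthonormal.1 i] at h1
    simpa using h1
  have hpow : ∀ (k : ℕ) (i) (z : E), ⟪b i, (T ^ k) z⟫ = s i ^ k * ⟪b i, z⟫ := by
    intro k i
    induction k with
    | zero => intro z; simp
    | succ k ih =>
      intro z
      rw [pow_succ, show (T ^ k * T) z = (T ^ k) (T z) from rfl, ih, pow_succ,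
        show ⟪b i, T z⟫ = ⟪T (b i), z⟫ from (hT _ _).symm, hTb, real_inner_smul_left]
      ring
  obtain ⟨w, hw⟩ : ∃ w : Fin (Module.finrank ℝ E) → ℝ, w = fun i => ⟪b i, p⟫ ^ 2 := ⟨_, rfl⟩
  have hw0 : ∀ i, 0 ≤ w i := fun i => by rw [hw]; positivity
  have hmom : ∀ k, mom T p k = ∑ i, s i ^ k * w i := fun k => by
    rw [mom, ← b.sum_inner_mul_inner p ((T ^ k) p)]
    refine sum_congr rfl fun i _ => ?_
    rw [hpow, hw]
    dsimp only
    rw [real_inner_comm p (b i)]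
    ring
  have hρ : ‖p‖ ^ 2 = ∑ i, w i := by
    rw [← real_inner_self_eq_norm_sq, show ⟪p, p⟫ = mom T p 0 by simp [mom], hmom]
    simp
  obtain ⟨σ, hσ⟩ : ∃ σ, σ = ε + ‖p‖ ^ 2 := ⟨_, rfl⟩
  have hσ0 : 0 < σ := by rw [hσ]; positivity
  obtain ⟨t, ht⟩ : ∃ t, t = σ ^ (1 / 3 : ℝ) := ⟨_, rfl⟩
  have ht0 : 0 < t := ht ▸ Real.rpow_pos_of_pos hσ0 _
  have ht3 : t ^ 3 = σ := by
    rw [ht, ← Real.rpow_natCast, ← Real.rpow_mul hσ0.le]; norm_num
  have hexp : ∀ n : ℕ, σ ^ expo n = t ^ 2 / t ^ n := fun n => by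
    rw [ht, ← Real.rpow_natCast _ 2, ← Real.rpow_natCast _ n, ← Real.rpow_mul hσ0.le,
      ← Real.rpow_mul hσ0.le, ← Real.rpow_sub hσ0]
    congr 1
    rw [expo]; push_cast; ring
  obtain ⟨z, hz⟩ : ∃ z : Fin (Module.finrank ℝ E) → ℝ, z = fun i => s i / t := ⟨_, rfl⟩
  have hsz : ∀ i, s i = t * z i := fun i => by rw [hz]; field_simp
  have hzZ : ∀ i, |z i| ≤ Z := fun i => by
    rw [hz]
    dsimp only
    rw [abs_div, abs_of_pos ht0, div_le_iff₀ ht0]
    have hZ0 : 0 ≤ Z := nonneg_of_mul_nonneg_left (hM0.trans hZ) (Real.rpow_pos_of_pos hε _)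
    have hεt : ε ^ (1 / 3 : ℝ) ≤ t := by
      rw [ht]; exact Real.rpow_le_rpow hε.le (by rw [hσ]; linarith [sq_nonneg ‖p‖]) (by norm_num)
    exact ((hsM i).trans hZ).trans (mul_le_mul_of_nonneg_left hεt hZ0)
  have hzmem : ∀ i, z i ∈ Set.Icc (-Z) Z := fun i => abs_le.1 (hzZ i)
  obtain ⟨m, hm⟩ : ∃ m, m = ∑ j, w j / σ * ((2 * pval a N (z j) - pzd a N (z j)) / 3) := ⟨_, rfl⟩
  obtain ⟨v, hv⟩ : ∃ v : E, v = ∑ n ∈ range N,
      ((a n * σ ^ expo n) • (T ^ n) p + (a n * expo n * σ ^ (expo n - 1) * mom T p n) • p) :=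
    ⟨_, rfl⟩
  have hvb : ∀ i, ⟪b i, v⟫ = t ^ 2 * (pval a N (z i) + m) * ⟪b i, p⟫ := fun i => by
    have e1 : ∑ n ∈ range N, a n * σ ^ expo n * s i ^ n = t ^ 2 * pval a N (z i) := by
      rw [pval, mul_sum]
      refine sum_congr rfl fun n _ => ?_
      rw [hexp, hsz, mul_pow]
      field_simp
    have e2 : ∑ n ∈ range N, a n * expo n * σ ^ (expo n - 1) * mom T p n = t ^ 2 * m := by
      rw [hm]
      simp only [hmom, mul_sum]
      rw [sum_comm]
      refine sum_congr rfl fun j _ => ?_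
      rw [pval, pzd, mul_sum, ← sum_sub_distrib, sum_div, mul_sum, mul_sum]
      refine sum_congr rfl fun n _ => ?_
      rw [Real.rpow_sub_one hσ0.ne', hexp, hsz, mul_pow, expo]
      field_simp
    rw [hv]
    simp only [inner_sum, inner_add_right, inner_smul_right, hpow]
    rw [sum_add_distrib, ← sum_mul, e2,
      show ∑ n ∈ range N, a n * σ ^ expo n * (s i ^ n * ⟪b i, p⟫) =
        (∑ n ∈ range N, a n * σ ^ expo n * s i ^ n) * ⟪b i, p⟫ by
        rw [sum_mul]; exact sum_congr rfl fun n _ => by ring, e1]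
    ring
  have hvn : ‖v‖ ^ 2 = t ^ 4 * ∑ i, w i * (pval a N (z i) + m) ^ 2 := by
    rw [← real_inner_self_eq_norm_sq, ← b.sum_inner_mul_inner v v, mul_sum]
    refine sum_congr rfl fun i _ => ?_
    rw [real_inner_comm, hvb, hw]
    ring
  have hq : calQ a N ε T p d = 2 * ⟪d, v⟫ + cw * (∑ i, s i ^ 4 * w i) +
      t * ∑ i, ∑ j, w i * w j * pdd a N (z i) (z j) := by
    have e3 : ∀ n, ∑ i, ∑ j, w i * w j * (t ^ 2 / t ^ n * ∑ l ∈ range n,
        s i ^ l * s j ^ (n - 1 - l)) =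
        t ^ 2 / t ^ n * ∑ l ∈ range n, mom T p l * mom T p (n - 1 - l) := fun n => by
      simp only [hmom, sum_mul_sum]
      simp only [mul_sum]
      rw [sum_congr rfl fun i (_ : i ∈ (univ : Finset (Fin (Module.finrank ℝ E)))) => sum_comm,
        sum_comm]
      exact sum_congr rfl fun l _ => sum_congr rfl fun i _ => sum_congr rfl fun j _ => by ring
    have e4 : t * ∑ i, ∑ j, w i * w j * pdd a N (z i) (z j) =
        ∑ n ∈ range N, a n * (t ^ 2 / t ^ n * ∑ l ∈ range n, mom T p l * mom T p (n - 1 - l)) := by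
      simp only [← e3, pdd, mul_sum (range N), mul_sum (univ : Finset (Fin (Module.finrank ℝ E)))]
      rw [sum_congr rfl fun i (_ : i ∈ (univ : Finset (Fin (Module.finrank ℝ E)))) => sum_comm,
        sum_comm]
      refine sum_congr rfl fun n _ => sum_congr rfl fun i _ => sum_congr rfl fun j _ => ?_
      simp only [mul_sum]
      refine sum_congr rfl fun l hl => ?_
      rw [mem_range] at hl
      obtain ⟨k, hk⟩ : ∃ k, n = l + k + 1 := ⟨n - 1 - l, by omega⟩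
      rw [show n - 1 - l = k by omega, hsz, hsz, mul_pow, mul_pow, hk, pow_succ t (l + k), pow_add]
      field_simp
    rw [calQ, hmom 4, e4, hv, inner_sum, mul_sum (range N) _ (2 : ℝ), ← hσ]
    rw [show ∑ n ∈ range N, a n * (σ ^ expo n * momD T p d 1 n +
        expo n * σ ^ (expo n - 1) * (2 * ⟪p, d⟫) * mom T p n) =
      ∑ n ∈ range N, (2 * ⟪d, (a n * σ ^ expo n) • (T ^ n) p +
        (a n * expo n * σ ^ (expo n - 1) * mom T p n) • p⟫ +
        a n * (t ^ 2 / t ^ n * ∑ l ∈ range n, mom T p l * mom T p (n - 1 - l))) from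
      sum_congr rfl fun n _ => by
        rw [momD, inner_add_right, inner_smul_right, inner_smul_right, ← hexp, real_inner_comm d p]
        ring, sum_add_distrib]
    ring
  have hsq : 0 ≤ ‖d‖ ^ 2 + 2 * ⟪d, v⟫ + ‖v‖ ^ 2 := by
    have h := sq_nonneg ‖d + v‖
    rw [norm_add_sq_real] at h
    linarith
  obtain ⟨R', hR'⟩ : ∃ R', R' = ε + R := ⟨_, rfl⟩
  have hσR : σ ≤ R' := by rw [hσ, hR']; linarith
  have hbr := approx_le (κ := Fin (Module.finrank ℝ E)) (p := fun i => w i / σ) (p0 := ε / σ)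
    (fun i => div_nonneg (hw0 i) hσ0.le) (div_nonneg hε.le hσ0.le)
    (by rw [← sum_div, ← add_div, ← hρ, ← hσ, div_self hσ0.ne']) he0 he1
    (nonneg_of_mul_nonneg_left (hM0.trans hZ) (Real.rpow_pos_of_pos hε _)) z hzZ
    (fun i => pval a N (z i)) (fun i => (2 * pval a N (z i) - pzd a N (z i)) / 3)
    (fun i j => pdd a N (z i) (z j)) (fun i => (happ _ (hzmem i)).1)
    (fun i => (happ _ (hzmem i)).2.1) (fun i j => (happ _ (hzmem i)).2.2 _ (hzmem j))
  simp only [← hm] at hbr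
  have h73 : σ ^ (7 / 3 : ℝ) = σ * t ^ 4 := by
    rw [ht, ← Real.rpow_natCast, ← Real.rpow_mul hσ0.le]
    nth_rw 2 [← Real.rpow_one σ]
    rw [← Real.rpow_add hσ0]; norm_num
  have hst : 0 ≤ σ * t ^ 4 := by positivity
  have hX := mul_le_mul_of_nonneg_left hbr hst
  have x1 : σ * t ^ 4 * (∑ i, w i / σ * (cw * z i ^ 4)) = cw * ∑ i, s i ^ 4 * w i := by
    simp only [mul_sum]
    refine sum_congr rfl fun i _ => ?_
    rw [hsz]
    field_simp
  have x2 : σ * t ^ 4 * (∑ i, ∑ j, w i / σ * (w j / σ) * pdd a N (z i) (z j)) =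
      t * ∑ i, ∑ j, w i * w j * pdd a N (z i) (z j) := by
    simp only [mul_sum]
    refine sum_congr rfl fun i _ => sum_congr rfl fun j _ => ?_
    rw [← ht3]
    field_simp
  have x3 : σ * t ^ 4 * (∑ i, w i / σ * (pval a N (z i) + m) ^ 2) = ‖v‖ ^ 2 := by
    rw [hvn]
    simp only [mul_sum]
    refine sum_congr rfl fun i _ => ?_
    field_simp
  have x4 : σ * t ^ 4 * (2 * (ε / σ) * ∑ i, w i / σ * (amp * (1 + |z i|))) ≤
      2 * ε * R * (amp * (R' ^ (1 / 3 : ℝ) + M)) := by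
    have hk : ∀ i, w i * (amp * (t * (1 + |z i|))) ≤ w i * (amp * (R' ^ (1 / 3 : ℝ) + M)) := by
      intro i
      refine mul_le_mul_of_nonneg_left (mul_le_mul_of_nonneg_left ?_ (by norm_num [amp])) (hw0 i)
      have h2 : t * |z i| ≤ M := by
        rw [hz]; dsimp only; rw [abs_div, abs_of_pos ht0, mul_div_cancel₀ _ ht0.ne']; exact hsM i
      have h3 : t ≤ R' ^ (1 / 3 : ℝ) := ht ▸ Real.rpow_le_rpow hσ0.le hσR (by norm_num)
      linarith
    calc σ * t ^ 4 * (2 * (ε / σ) * ∑ i, w i / σ * (amp * (1 + |z i|)))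
        = 2 * ε * ∑ i, w i * (amp * (t * (1 + |z i|))) := by
          simp only [mul_sum]
          refine sum_congr rfl fun i _ => ?_
          rw [← ht3]
          field_simp
      _ ≤ 2 * ε * ∑ i, w i * (amp * (R' ^ (1 / 3 : ℝ) + M)) :=
          mul_le_mul_of_nonneg_left (sum_le_sum fun i _ => hk i) (by linarith)
      _ ≤ _ := by
          rw [← sum_mul, ← hρ, ← mul_assoc]
          have : 0 ≤ amp * (R' ^ (1 / 3 : ℝ) + M) := mul_nonneg (by norm_num [amp])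
            (add_nonneg (Real.rpow_nonneg (hσ0.le.trans hσR) _) hM0)
          exact mul_le_mul_of_nonneg_right (mul_le_mul_of_nonneg_left hR (by linarith)) this
  have x5 : σ * t ^ 4 * ((ε / σ) ^ 2 * amp) ≤ ε ^ 2 * (amp * R' ^ (1 / 3 : ℝ)) := by
    calc σ * t ^ 4 * ((ε / σ) ^ 2 * amp) = ε ^ 2 * (amp * t) := by rw [← ht3]; field_simp
      _ ≤ _ := mul_le_mul_of_nonneg_left (mul_le_mul_of_nonneg_left
          (ht ▸ Real.rpow_le_rpow hσ0.le hσR (by norm_num)) (by norm_num [amp])) (sq_nonneg ε)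
  have x6 : σ * t ^ 4 * (e * (1 + 2 * (2 * (amp * Z * (2 + Z)) + 2))) ≤
      e * (1 + 2 * (2 * (amp * Z * (2 + Z)) + 2)) * R' ^ (7 / 3 : ℝ) := by
    rw [mul_comm, ← h73]
    refine mul_le_mul_of_nonneg_left (Real.rpow_le_rpow hσ0.le hσR (by norm_num))
      (mul_nonneg he0 ?_)
    have := nonneg_of_mul_nonneg_left (hM0.trans hZ) (Real.rpow_pos_of_pos hε _)
    unfold amp
    positivity
  have x7 : amp * (‖p‖ ^ 2) ^ (7 / 3 : ℝ) ≤ σ * t ^ 4 * amp := by
    rw [← h73, mul_comm (σ ^ (7 / 3 : ℝ))]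
    exact mul_le_mul_of_nonneg_left (Real.rpow_le_rpow (sq_nonneg _)
      (by rw [hσ]; linarith) (by norm_num)) (by norm_num [amp])
  rw [mul_sub, mul_sub, mul_sub, mul_sub,
    mul_add (σ * t ^ 4) (∑ i, w i / σ * (cw * z i ^ 4)), x1, x2, x3] at hX
  rw [← hR', hq]
  linarith

end Vale.Agent.P371.Quarter
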