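import Mathlib
import Vale.Agent.P371.Core

/-!
The kinetic inequality for real Bessel families and for complex orthonormal families.
-/

namespace Vale.Agent.P371

open MeasureTheory intervalIntegral Set Filter Topology ComplexConjugate

/-- The kinetic constant. -/
noncomputable def kin : ℝ := Real.pi * tau ^ 3

theorem kin_pos : 0 < kin := by unfold kin tau; positivity

variable {ι : Type*} [Fintype ι]

theorem kinetic_interval {ψ ψd : ι → ℝ → ℝ} (hψ : ∀ i x, HasDerivAt (ψ i) (ψd i x) x)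
    (hψd : ∀ i, Continuous (ψd i)) {a b : ℝ} (hab : a < b) (ha : ∀ i, ψ i a = 0)
    (hb : ∀ i, ψ i b = 0)
    (hB : ∀ v : ι → ℝ, ∫ y in a..b, (∑ i, v i * ψ i y) ^ 2 ≤ ∑ i, v i ^ 2) :
    kin * ∫ x in a..b, dens ψ x ^ 3 ≤ ∫ x in a..b, ∑ i, ψd i x ^ 2 := by
  have hc : ∀ i, Continuous (ψ i) := fun i =>
    continuous_iff_continuousAt.2 fun z => (hψ i z).continuousAt
  set T := ∫ x in a..b, ∑ i, ψd i x ^ 2 with hT
  set P := ∫ x in a..b, dens ψ x ^ 3 with hP
  have hmain : ∀ ε : ℝ, 0 < ε →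
      0 ≤ 3 * tau ^ 2 * (182 / 100) - 4 * tau ^ 3 * (1 + (b - a) * ε ^ 2 + 2 * ε) →
      Real.pi ^ 2 * (3 * tau ^ 2 * (182 / 100) - 4 * tau ^ 3 * (1 + (b - a) * ε ^ 2 + 2 * ε)) * P ≤
        2 * Real.pi * T + 2 * Real.pi * ε ^ 3 := by
    intro ε hε hco
    set Ψ : Option ι → ℝ → ℝ := fun o x => o.elim ε (fun i => ψ i x) with hΨ
    set Ψd : Option ι → ℝ → ℝ := fun o x => o.elim 0 (fun i => ψd i x) with hΨd
    have h1 : ∀ o x, HasDerivAt (Ψ o) (Ψd o x) x := by
      rintro (_ | i) x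
      · exact hasDerivAt_const x ε
      · exact hψ i x
    have h2 : ∀ o, Continuous (Ψd o) := by
      rintro (_ | i)
      · exact continuous_const
      · exact hψd i
    have hdens : ∀ x, dens Ψ x = ε ^ 2 + dens ψ x := fun x => by
      simp [dens, hΨ, Fintype.sum_option]
    have h3 : ∀ x, 0 < dens Ψ x := fun x => by
      rw [hdens]
      have : 0 ≤ dens ψ x := Finset.sum_nonneg fun i _ => sq_nonneg _
      positivity
    set m := (b - a) * ε ^ 2 with hm
    have hm0 : 0 < m := mul_pos (by linarith) (pow_pos hε 2)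
    have h4 : ∀ v : Option ι → ℝ,
        ∫ y in a..b, (∑ o, v o * Ψ o y) ^ 2 ≤ (1 + m) * ∑ o, v o ^ 2 := by
      intro v
      set g : ℝ → ℝ := fun y => ∑ i, v (some i) * ψ i y with hg
      have hgc : Continuous g := by simp only [hg]; fun_prop
      have hpt : ∀ y, (∑ o, v o * Ψ o y) ^ 2 ≤ (1 + m) * ((v none * ε) ^ 2 / m + g y ^ 2) := by
        intro y
        have he : ∑ o, v o * Ψ o y = v none * ε + g y := by simp [hΨ, hg, Fintype.sum_option]
        rw [he]
        have : (1 + m) * ((v none * ε) ^ 2 / m + g y ^ 2) - (v none * ε + g y) ^ 2 =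
            (v none * ε - m * g y) ^ 2 / m := by field_simp; ring
        linarith [div_nonneg (sq_nonneg (v none * ε - m * g y)) hm0.le]
      have hsum : Continuous fun y => (∑ o, v o * Ψ o y) ^ 2 :=
        (continuous_finsetSum _ fun o _ => continuous_const.mul (by
          cases o
          · exact continuous_const
          · exact hc _)).pow 2
      refine (integral_mono_on hab.le (hsum.intervalIntegrable _ _)
        ((by fun_prop : Continuous fun y => (1 + m) * ((v none * ε) ^ 2 / m + g y ^ 2)).intervalIntegrable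
          _ _) fun y _ => hpt y).trans ?_
      rw [intervalIntegral.integral_const_mul, intervalIntegral.integral_add intervalIntegrable_const
        ((by fun_prop : Continuous fun y => g y ^ 2).intervalIntegrable _ _), intervalIntegral.integral_const, smul_eq_mul,
        Fintype.sum_option]
      refine mul_le_mul_of_nonneg_left (add_le_add (le_of_eq ?_) (hB fun i => v (some i)))
        (by linarith)
      rw [hm]
      have hba : b - a ≠ 0 := (sub_pos.2 hab).ne'
      field_simp [hba, hε.ne']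
    have h := core h1 h2 h3 hab.le hε h4
    have hTeq : ∫ x in a..b, ∑ o, Ψd o x ^ 2 = T := by simp [hT, hΨd, Fintype.sum_option]
    have hPle : P ≤ ∫ x in a..b, dens Ψ x ^ 3 := by
      refine integral_mono_on hab.le (((continuous_dens hc).pow 3).intervalIntegrable _ _)
        (((continuous_dens fun o => ?_).pow 3).intervalIntegrable _ _) fun x _ => ?_
      · exact continuous_iff_continuousAt.2 fun z => (h1 o z).continuousAt
      · rw [hdens]
        exact pow_le_pow_left₀ (Finset.sum_nonneg fun i _ => sq_nonneg _)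
          (by linarith [sq_nonneg ε]) 3
    have ha' : dens Ψ a = ε ^ 2 := by rw [hdens]; simp [dens, ha]
    have hb' : dens Ψ b = ε ^ 2 := by rw [hdens]; simp [dens, hb]
    rw [hTeq, ha', hb'] at h
    have hbd : Real.pi * ((ε ^ 2) ^ 2 + (ε ^ 2) ^ 2) / ε = 2 * Real.pi * ε ^ 3 := by
      field_simp; ring
    rw [hbd] at h
    exact le_trans (mul_le_mul_of_nonneg_left hPle (mul_nonneg (sq_nonneg _) hco)) h
  have hlim : Real.pi ^ 2 * (3 * tau ^ 2 * (182 / 100) - 4 * tau ^ 3 * (1 + (b - a) * 0 ^ 2 + 2 * 0))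
      * P ≤ 2 * Real.pi * T + 2 * Real.pi * (0 : ℝ) ^ 3 := by
    refine le_of_tendsto_of_tendsto (b := 𝓝[>] (0 : ℝ))
      (f := fun ε => Real.pi ^ 2 *
        (3 * tau ^ 2 * (182 / 100) - 4 * tau ^ 3 * (1 + (b - a) * ε ^ 2 + 2 * ε)) * P)
      (g := fun ε => 2 * Real.pi * T + 2 * Real.pi * ε ^ 3) ?_ ?_ ?_
    · exact ((by fun_prop : Continuous _).tendsto 0).mono_left nhdsWithin_le_nhds
    · exact ((by fun_prop : Continuous _).tendsto 0).mono_left nhdsWithin_le_nhds
    · have hev : ∀ᶠ ε in 𝓝 (0 : ℝ),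
          0 < 3 * tau ^ 2 * (182 / 100) - 4 * tau ^ 3 * (1 + (b - a) * ε ^ 2 + 2 * ε) := by
        refine ((by fun_prop : Continuous _).tendsto 0).eventually_const_lt ?_
        norm_num [tau]
      filter_upwards [self_mem_nhdsWithin, nhdsWithin_le_nhds hev] with ε hε hco
      exact hmain ε hε hco.le
  unfold kin
  refine le_of_mul_le_mul_left (a := 2 * Real.pi) ?_ (by positivity)
  refine le_trans (le_of_eq ?_) (by simpa using hlim)
  simp only [tau]
  ring

theorem kinetic_real {ψ ψd : ι → ℝ → ℝ} (hψ : ∀ i x, HasDerivAt (ψ i) (ψd i x) x)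
    (hψd : ∀ i, Continuous (ψd i)) (hsupp : ∀ i, HasCompactSupport (ψ i))
    (hB : ∀ v : ι → ℝ, ∫ y, (∑ i, v i * ψ i y) ^ 2 ≤ ∑ i, v i ^ 2) :
    kin * ∫ x, dens ψ x ^ 3 ≤ ∫ x, ∑ i, ψd i x ^ 2 := by
  obtain ⟨r, hr⟩ := (isBounded_iff_forall_norm_le.1
    (isCompact_iUnion fun i => (hsupp i)).isBounded)
  set R := |r| + 1 with hR
  have hout : ∀ i x, x ∉ Ioo (-R) R → x ∉ tsupport (ψ i) := by
    intro i x hx hmem
    have := hr x (mem_iUnion.2 ⟨i, hmem⟩)
    rw [Real.norm_eq_abs, abs_le] at this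
    exact hx ⟨by linarith [le_abs_self r], by linarith [le_abs_self r]⟩
  have hzero : ∀ i x, x ∉ Ioo (-R) R → ψ i x = 0 := fun i x hx =>
    image_eq_zero_of_notMem_tsupport (hout i x hx)
  have hdzero : ∀ i x, x ∉ Ioo (-R) R → ψd i x = 0 := fun i x hx => by
    have h : deriv (ψ i) x = 0 := Function.notMem_support.1 fun h =>
      hout i x hx (support_deriv_subset h)
    rwa [(hψ i x).deriv] at h
  have heq : ∀ F : ℝ → ℝ, (∀ x, x ∉ Ioo (-R) R → F x = 0) → ∫ x, F x = ∫ x in -R..R, F x :=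
    fun F hF => (intervalIntegral.integral_eq_integral_of_support_subset fun x hx =>
      Ioo_subset_Ioc_self (by_contra fun h => hx (hF x h))).symm
  rw [heq _ (fun x hx => by simp [dens, hzero _ x hx]), heq _ (fun x hx => by simp [hdzero _ x hx])]
  refine kinetic_interval hψ hψd (by linarith [abs_nonneg r])
    (fun i => hzero i _ fun h => lt_irrefl _ h.1) (fun i => hzero i _ fun h => lt_irrefl _ h.2)
    fun v => ?_
  rw [← heq _ (fun x hx => by simp [hzero _ x hx])]
  exact hB v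

theorem integral_norm_sq_sum {u : ι → ℝ → ℂ} (hu : ∀ j, Continuous (u j))
    (hsupp : ∀ j, HasCompactSupport (u j))
    (horth : ∀ j k, j ≠ k → ∫ x, conj (u j x) * u k x = 0)
    (hnorm : ∀ j, ∫ x, ‖u j x‖ ^ 2 = 1) (z : ι → ℂ) :
    Integrable (fun y => ‖∑ j, z j * u j y‖ ^ 2) ∧
      ∫ y, ‖∑ j, z j * u j y‖ ^ 2 = ∑ j, ‖z j‖ ^ 2 := by
  have hint : ∀ j k, Integrable fun y => conj (u j y) * u k y := fun j k =>
    ((Complex.continuous_conj.comp (hu j)).mul (hu k)).integrable_of_hasCompactSupport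
      (hsupp k).mul_left
  have hSsupp : HasCompactSupport fun y => ‖∑ j, z j * u j y‖ ^ 2 := by
    refine HasCompactSupport.intro (isCompact_iUnion fun j => hsupp j) fun x hx => ?_
    simp only [mem_iUnion, not_exists] at hx
    rw [Finset.sum_eq_zero fun j _ => by rw [image_eq_zero_of_notMem_tsupport (hx j), mul_zero]]
    simp
  refine ⟨Continuous.integrable_of_hasCompactSupport (by fun_prop) hSsupp, ?_⟩
  have he : ∀ y, ((‖∑ j, z j * u j y‖ ^ 2 : ℝ) : ℂ) =
      ∑ j, ∑ k, conj (z j) * z k * (conj (u j y) * u k y) := fun y => by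
    rw [Complex.ofReal_pow, ← Complex.conj_mul', map_sum, Finset.sum_mul_sum]
    simp only [map_mul]
    exact Finset.sum_congr rfl fun j _ => Finset.sum_congr rfl fun k _ => by ring
  have hC : (∫ y, ((‖∑ j, z j * u j y‖ ^ 2 : ℝ) : ℂ)) = ((∑ j, ‖z j‖ ^ 2 : ℝ) : ℂ) := by
    simp only [he]
    rw [integral_finsetSum _ fun j _ => integrable_finsetSum _ fun k _ => (hint j k).const_mul _,
      Complex.ofReal_sum]
    refine Finset.sum_congr rfl fun j _ => ?_
    rw [integral_finsetSum _ fun k _ => (hint j k).const_mul _]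
    simp only [MeasureTheory.integral_const_mul]
    rw [Finset.sum_eq_single j (fun k _ hk => by rw [horth j k (Ne.symm hk), mul_zero])
      fun h => absurd (Finset.mem_univ j) h]
    have h11 : ∫ y, conj (u j y) * u j y = 1 := by
      simp only [Complex.conj_mul', ← Complex.ofReal_pow]
      rw [integral_complex_ofReal, hnorm j, Complex.ofReal_one]
    rw [h11, mul_one, Complex.conj_mul', Complex.ofReal_pow]
  rwa [integral_complex_ofReal, Complex.ofReal_inj] at hC

/-- The kinetic inequality for a complex orthonormal family. -/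
theorem kinetic_complex {u : ι → ℝ → ℂ} (hu : ∀ j, ContDiff ℝ 1 (u j))
    (hsupp : ∀ j, HasCompactSupport (u j))
    (horth : ∀ j k, j ≠ k → ∫ x, conj (u j x) * u k x = 0)
    (hnorm : ∀ j, ∫ x, ‖u j x‖ ^ 2 = 1) :
    kin * ∫ x, (∑ j, ‖u j x‖ ^ 2) ^ 3 ≤ ∫ x, ∑ j, ‖deriv (u j) x‖ ^ 2 := by
  have hd : ∀ j x, HasDerivAt (u j) (deriv (u j) x) x := fun j x =>
    ((hu j).differentiable one_ne_zero x).hasDerivAt
  have hdc : ∀ j, Continuous (deriv (u j)) := fun j => (hu j).continuous_deriv le_rfl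
  set ψ : ι ⊕ ι → ℝ → ℝ := Sum.elim (fun j x => (u j x).re) fun j x => (u j x).im with hψ
  set ψd : ι ⊕ ι → ℝ → ℝ :=
    Sum.elim (fun j x => (deriv (u j) x).re) fun j x => (deriv (u j) x).im with hψd
  have h1 : ∀ i x, HasDerivAt (ψ i) (ψd i x) x := by
    rintro (j | j) x
    · exact (Complex.reCLM.hasFDerivAt.comp_hasDerivAt x (hd j x)).congr_deriv rfl
    · exact (Complex.imCLM.hasFDerivAt.comp_hasDerivAt x (hd j x)).congr_deriv rfl
  have h2 : ∀ i, Continuous (ψd i) := by
    rintro (j | j)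
    · exact Complex.continuous_re.comp (hdc j)
    · exact Complex.continuous_im.comp (hdc j)
  have h3 : ∀ i, HasCompactSupport (ψ i) := by
    rintro (j | j)
    · exact (hsupp j).comp_left (g := Complex.re) rfl
    · exact (hsupp j).comp_left (g := Complex.im) rfl
  have h4 : ∀ v : ι ⊕ ι → ℝ, ∫ y, (∑ i, v i * ψ i y) ^ 2 ≤ ∑ i, v i ^ 2 := by
    intro v
    obtain ⟨hSi, hS⟩ := integral_norm_sq_sum (fun j => (hu j).continuous) hsupp horth hnorm
      fun j => (⟨v (.inl j), -v (.inr j)⟩ : ℂ)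
    have hre : ∀ y, ∑ i, v i * ψ i y =
        (∑ j, (⟨v (.inl j), -v (.inr j)⟩ : ℂ) * u j y).re := fun y => by
      simp [hψ, Fintype.sum_sum_type, ← Finset.sum_add_distrib, Complex.re_sum, Complex.mul_re,
        sub_neg_eq_add]
    refine (integral_mono_of_nonneg (.of_forall fun y => sq_nonneg _) hSi
      (.of_forall fun y => ?_)).trans (le_of_eq (hS.trans ?_))
    · simp only [hre, Complex.sq_norm, Complex.normSq_apply, ← pow_two]
      exact le_add_of_nonneg_right (sq_nonneg _)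
    · simp [Fintype.sum_sum_type, ← Finset.sum_add_distrib, Complex.sq_norm,
        Complex.normSq_apply, ← pow_two]
  have h := kinetic_real h1 h2 h3 h4
  have e1 : ∀ x, dens ψ x = ∑ j, ‖u j x‖ ^ 2 := fun x => by
    simp [dens, hψ, Fintype.sum_sum_type, ← Finset.sum_add_distrib, Complex.sq_norm,
      Complex.normSq_apply, ← pow_two]
  have e2 : ∀ x, ∑ i, ψd i x ^ 2 = ∑ j, ‖deriv (u j) x‖ ^ 2 := fun x => by
    simp [hψd, Fintype.sum_sum_type, ← Finset.sum_add_distrib, Complex.sq_norm,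
      Complex.normSq_apply, ← pow_two]
  simpa only [e1, e2] using h

end Vale.Agent.P371
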