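import Mathlib
import Vale.Agent.P371.Kinetic

/-!
From the kinetic inequality to eigenvalue moments.
-/

namespace Vale.Agent.P371

open MeasureTheory Set ComplexConjugate ENNReal ProbabilityTheory

/-- The scaled beta integral. -/
theorem lintegral_rpow_mul_pos {α q w : ℝ} (hα : 0 < α) (hq : 0 < q) :
    ∫⁻ t in Ioi (0 : ℝ), ENNReal.ofReal (t ^ (α - 1) * max 0 (w - t) ^ q) =
      ENNReal.ofReal (max 0 w ^ (α + q) * beta α (q + 1)) := by
  rcases le_or_gt w 0 with hw | hw
  · rw [setLIntegral_eq_zero measurableSet_Ioi, max_eq_left hw,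
      Real.zero_rpow (by linarith : α + q ≠ 0), zero_mul, ENNReal.ofReal_zero]
    intro t (ht : 0 < t)
    simp [max_eq_left (by linarith : w - t ≤ 0), Real.zero_rpow hq.ne']
  · rw [max_eq_right hw.le]
    have hb := beta_pos hα (by linarith : 0 < q + 1)
    have key : ∀ t, (Ioi (0 : ℝ)).indicator
        (fun t => ENNReal.ofReal (t ^ (α - 1) * max 0 (w - t) ^ q)) t =
        ENNReal.ofReal (w ^ (α + q) * beta α (q + 1) / w) * betaPDF α (q + 1) (w⁻¹ * t) := by
      intro t
      rcases le_or_gt t 0 with ht | ht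
      · rw [indicator_of_notMem (fun h : t ∈ Ioi (0 : ℝ) => not_lt.2 ht h),
          betaPDF_eq_zero_of_nonpos (mul_nonpos_of_nonneg_of_nonpos (by positivity) ht), mul_zero]
      rw [indicator_of_mem (mem_Ioi.2 ht)]
      rcases le_or_gt w t with htw | htw
      · rw [max_eq_left (by linarith), Real.zero_rpow hq.ne', mul_zero, ENNReal.ofReal_zero,
          betaPDF_eq_zero_of_one_le (by rw [inv_mul_eq_div, le_div_iff₀ hw]; linarith), mul_zero]
      · rw [max_eq_right (by linarith), betaPDF_of_pos_lt_one (by positivity)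
          (by rw [inv_mul_eq_div, div_lt_one hw]; exact htw), ← ENNReal.ofReal_mul (by positivity)]
        congr 1
        have h1 : (1 : ℝ) - w⁻¹ * t = (w - t) / w := by field_simp
        have hwt : 0 ≤ w - t := by linarith
        rw [h1, inv_mul_eq_div, add_sub_cancel_right, Real.div_rpow ht.le hw.le,
          Real.div_rpow hwt hw.le, Real.rpow_sub_one hw.ne', Real.rpow_add hw]
        field_simp
    rw [← lintegral_indicator measurableSet_Ioi]
    simp only [key]
    have hm : Measurable fun t => betaPDF α (q + 1) t :=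
      (measurable_betaPDFReal α (q + 1)).ennreal_ofReal
    rw [lintegral_const_mul _ (show Measurable fun t => betaPDF α (q + 1) (w⁻¹ * t) from hm.comp (measurable_const_mul _)),
      ← lintegral_map hm (measurable_const_mul w⁻¹), Real.map_volume_mul_left (inv_ne_zero hw.ne'),
      lintegral_smul_measure, lintegral_betaPDF_eq_one hα (by linarith), smul_eq_mul, mul_one,
      inv_inv, abs_of_pos hw, ← ENNReal.ofReal_mul (by positivity)]
    congr 1
    field_simp

/-- Young's inequality with the kinetic constant. -/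
theorem young {w r : ℝ} (hw : 0 ≤ w) (hr : 0 ≤ r) :
    w * r - kin * r ^ 3 ≤ 2 / (3 * Real.sqrt (3 * kin)) * w ^ (3 / 2 : ℝ) := by
  have hK := kin_pos
  rw [show w ^ (3 / 2 : ℝ) = Real.sqrt w ^ 3 by
    rw [Real.sqrt_eq_rpow, ← Real.rpow_natCast, ← Real.rpow_mul hw]; norm_num]
  set u := Real.sqrt w
  have hu : u ^ 2 = w := Real.sq_sqrt hw
  set k := Real.sqrt (3 * kin)
  have hk : k ^ 2 = 3 * kin := Real.sq_sqrt (by positivity)
  have hk0 : 0 < k := Real.sqrt_pos.2 (by positivity)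
  have hu0 : 0 ≤ u := Real.sqrt_nonneg w
  rw [← hu, show kin = k ^ 2 / 3 by linarith]
  refine le_of_mul_le_mul_left ?_ hk0
  rw [show k * (2 / (3 * k) * u ^ 3) = 2 / 3 * u ^ 3 by field_simp]
  nlinarith [mul_nonneg (sq_nonneg (k * r - u)) (by positivity : 0 ≤ k * r + 2 * u)]

theorem sqrt_kin_le : Real.pi ≤ 1179 / 1000 * Real.sqrt (3 * kin) := by
  have h : Real.pi / (1179 / 1000) ≤ Real.sqrt (3 * kin) := by
    refine Real.le_sqrt_of_sq_le ?_
    unfold kin tau
    nlinarith [Real.pi_lt_d6, Real.pi_pos]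
  rw [div_le_iff₀ (by norm_num)] at h
  linarith

/-- The constant at exponent one, written with the semiclassical value `2 / (3 π)`. -/
theorem young' {w r : ℝ} (hw : 0 ≤ w) (hr : 0 ≤ r) :
    w * r - kin * r ^ 3 ≤ 1179 / 1000 * (2 / (3 * Real.pi)) * w ^ (3 / 2 : ℝ) := by
  refine (young hw hr).trans (mul_le_mul_of_nonneg_right ?_ (Real.rpow_nonneg hw _))
  have := sqrt_kin_le
  have hk0 : 0 < Real.sqrt (3 * kin) := Real.sqrt_pos.2 (by have := kin_pos; positivity)
  rw [← mul_div_assoc, div_le_div_iff₀ (by positivity) (by positivity)]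
  nlinarith

/-- The energy of a trial function in the potential `-V`. -/
noncomputable def energy (V : ℝ → ℝ) (u : ℝ → ℂ) : ℝ :=
  (∫ x, V x * ‖u x‖ ^ 2) - ∫ x, ‖deriv u x‖ ^ 2

variable {ι : Type*} [Fintype ι]

theorem rpow_trick {V : ℝ} (hV : 0 ≤ V) {p : ℝ} (hp : 1 ≤ p) : V ≤ 1 + V ^ p := by
  rcases le_or_gt V 1 with h | h
  · have := Real.rpow_nonneg hV p
    linarith
  · have := Real.self_le_rpow_of_one_le h.le hp
    linarith

theorem integrable_pot_mul {V : ℝ → ℝ} {p : ℝ} (hp : 1 ≤ p) (hVm : Measurable V)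
    (hV0 : ∀ x, 0 ≤ V x) (hVi : Integrable fun x => V x ^ p) {g : ℝ → ℝ} (hg : Continuous g)
    (hgs : HasCompactSupport g) : Integrable fun x => V x * g x := by
  obtain ⟨M, hM⟩ := hg.bounded_above_of_compact_support hgs
  have h1 : Integrable fun x => |g x| :=
    hg.abs.integrable_of_hasCompactSupport (hgs.comp_left (g := fun t : ℝ => |t|) abs_zero)
  refine Integrable.mono' (h1.add (hVi.const_mul M)) (hVm.mul hg.measurable).aestronglyMeasurable
    (.of_forall fun x => ?_)
  simp only [norm_mul, Real.norm_eq_abs, abs_of_nonneg (hV0 x), Pi.add_apply]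
  have h2 := mul_le_mul_of_nonneg_right (rpow_trick (hV0 x) hp) (abs_nonneg (g x))
  have h3 := mul_le_mul_of_nonneg_right (hM x) (Real.rpow_nonneg (hV0 x) p)
  rw [Real.norm_eq_abs] at h3
  nlinarith

theorem integrable_cube {f : ℝ → ℝ} (hc : Continuous f) (hs : HasCompactSupport f) :
    Integrable fun x => f x ^ 3 :=
  Continuous.integrable_of_hasCompactSupport (f := fun x => f x ^ 3) (by fun_prop)
    (HasCompactSupport.intro hs fun x hx => by
      rw [image_eq_zero_of_notMem_tsupport hx, zero_pow (by norm_num : (3 : ℕ) ≠ 0)])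

omit [Fintype ι] in
theorem integrable_deriv_sq {u : ι → ℝ → ℂ} (hu : ∀ j, ContDiff ℝ 1 (u j))
    (hsupp : ∀ j, HasCompactSupport (u j)) (j : ι) :
    Integrable fun x => ‖deriv (u j) x‖ ^ 2 := by
  have h1 : Continuous fun x => ‖deriv (u j) x‖ ^ 2 :=
    Continuous.pow (Continuous.norm ((hu j).continuous_deriv le_rfl)) 2
  have h2 : HasCompactSupport (deriv (u j)) := HasCompactSupport.deriv (hsupp j)
  exact h1.integrable_of_hasCompactSupport (h2.comp_left (g := fun z : ℂ => ‖z‖ ^ 2) (by simp))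

theorem sum_energy_le {V : ℝ → ℝ} (hVm : Measurable V) (hV0 : ∀ x, 0 ≤ V x)
    (hVi : Integrable fun x => V x ^ (3 / 2 : ℝ)) {u : ι → ℝ → ℂ}
    (hu : ∀ j, ContDiff ℝ 1 (u j)) (hsupp : ∀ j, HasCompactSupport (u j))
    (horth : ∀ j k, j ≠ k → ∫ x, conj (u j x) * u k x = 0)
    (hnorm : ∀ j, ∫ x, ‖u j x‖ ^ 2 = 1) :
    ∑ j, energy V (u j) ≤ 1179 / 1000 * (2 / (3 * Real.pi)) * ∫ x, V x ^ (3 / 2 : ℝ) := by
  have hp : (1 : ℝ) ≤ 3 / 2 := by norm_num
  have hc : ∀ j, Continuous (u j) := fun j => (hu j).continuous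
  have hρc : Continuous fun x => ∑ j, ‖u j x‖ ^ 2 :=
    continuous_finsetSum _ fun j _ => (hc j).norm.pow 2
  have hρs : HasCompactSupport fun x => ∑ j, ‖u j x‖ ^ 2 := by
    refine HasCompactSupport.intro (isCompact_iUnion fun j => hsupp j) fun x hx => ?_
    simp only [mem_iUnion, not_exists] at hx
    exact Finset.sum_eq_zero fun j _ => by simp [image_eq_zero_of_notMem_tsupport (hx j)]
  have hn : ∀ j, HasCompactSupport fun x => ‖u j x‖ ^ 2 := fun j =>
    (hsupp j).comp_left (g := fun z : ℂ => ‖z‖ ^ 2) (by simp)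
  have hi : ∀ j, Integrable fun x => V x * ‖u j x‖ ^ 2 := fun j =>
    integrable_pot_mul hp hVm hV0 hVi (g := fun x => ‖u j x‖ ^ 2) ((hc j).norm.pow 2) (hn j)
  have hdi : ∀ j, Integrable fun x => ‖deriv (u j) x‖ ^ 2 := integrable_deriv_sq hu hsupp
  have hρ3 : Integrable fun x => (∑ j, ‖u j x‖ ^ 2) ^ 3 := integrable_cube hρc hρs
  have hK := kinetic_complex hu hsupp horth hnorm
  rw [integral_finsetSum _ fun j _ => hdi j] at hK
  simp only [energy, Finset.sum_sub_distrib]
  rw [← integral_finsetSum _ fun j _ => hi j]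
  simp only [← Finset.mul_sum]
  have hVρ := integrable_pot_mul hp hVm hV0 hVi hρc hρs
  refine le_trans (sub_le_sub_left hK _) ?_
  rw [← MeasureTheory.integral_const_mul, ← MeasureTheory.integral_const_mul,
    ← integral_sub hVρ (hρ3.const_mul _)]
  exact integral_mono (hVρ.sub (hρ3.const_mul _)) (hVi.const_mul _) fun x =>
    young' (hV0 x) (Finset.sum_nonneg fun j _ => sq_nonneg _)

theorem sum_pos_energy_le {V : ℝ → ℝ} (hVm : Measurable V) (hV0 : ∀ x, 0 ≤ V x)
    (hVi : Integrable fun x => V x ^ (3 / 2 : ℝ)) {u : ι → ℝ → ℂ}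
    (hu : ∀ j, ContDiff ℝ 1 (u j)) (hsupp : ∀ j, HasCompactSupport (u j))
    (horth : ∀ j k, j ≠ k → ∫ x, conj (u j x) * u k x = 0)
    (hnorm : ∀ j, ∫ x, ‖u j x‖ ^ 2 = 1) :
    ∑ j, max 0 (energy V (u j)) ≤
      1179 / 1000 * (2 / (3 * Real.pi)) * ∫ x, V x ^ (3 / 2 : ℝ) := by
  classical
  have h := sum_energy_le hVm hV0 hVi (u := fun j : {j : ι // 0 < energy V (u j)} => u j)
    (fun j => hu j) (fun j => hsupp j) (fun j k hjk => horth j k fun he => hjk (Subtype.ext he))
    fun j => hnorm j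
  refine le_trans (le_of_eq ?_) h
  rw [← Finset.sum_subtype (Finset.univ.filter fun j => 0 < energy V (u j)) (by simp)
    (fun j => energy V (u j)), Finset.sum_filter]
  refine Finset.sum_congr rfl fun j _ => ?_
  split_ifs with hj
  · exact max_eq_right hj.le
  · exact max_eq_left (not_lt.1 hj)

theorem sum_shifted_le {W : ℝ → ℝ} {γ : ℝ} (hγ : 1 ≤ γ) (hWm : Measurable W) (hW0 : ∀ x, 0 ≤ W x)
    (hWi : Integrable fun x => W x ^ (γ + 1 / 2)) {u : ι → ℝ → ℂ}
    (hu : ∀ j, ContDiff ℝ 1 (u j)) (hsupp : ∀ j, HasCompactSupport (u j))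
    (horth : ∀ j k, j ≠ k → ∫ x, conj (u j x) * u k x = 0)
    (hnorm : ∀ j, ∫ x, ‖u j x‖ ^ 2 = 1) {t : ℝ} (ht : 0 < t) :
    ∑ j, max 0 (energy W (u j) - t) ≤
      1179 / 1000 * (2 / (3 * Real.pi)) * ∫ x, max 0 (W x - t) ^ (3 / 2 : ℝ) ∧
    Integrable fun x => max 0 (W x - t) ^ (3 / 2 : ℝ) := by
  have hVm : Measurable fun x => max 0 (W x - t) := measurable_const.max (hWm.sub_const t)
  have hVi : Integrable fun x => max 0 (W x - t) ^ (3 / 2 : ℝ) := by
    refine (hWi.const_mul (t ^ (1 - γ))).mono' (hVm.pow_const _).aestronglyMeasurable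
      (.of_forall fun x => ?_)
    rw [Real.norm_eq_abs, abs_of_nonneg (Real.rpow_nonneg (le_max_left _ _) _)]
    rcases le_or_gt (W x) t with hx | hx
    · rw [max_eq_left (by linarith), Real.zero_rpow (by norm_num)]
      exact mul_nonneg (Real.rpow_nonneg ht.le _) (Real.rpow_nonneg (hW0 x) _)
    · rw [max_eq_right (by linarith)]
      have hWx : 0 < W x := ht.trans hx
      calc (W x - t) ^ (3 / 2 : ℝ) ≤ W x ^ (3 / 2 : ℝ) :=
            Real.rpow_le_rpow (by linarith) (by linarith) (by norm_num)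
        _ = W x ^ (1 - γ) * W x ^ (γ + 1 / 2) := by rw [← Real.rpow_add hWx]; congr 1; ring
        _ ≤ t ^ (1 - γ) * W x ^ (γ + 1 / 2) := mul_le_mul_of_nonneg_right
            (Real.rpow_le_rpow_of_nonpos ht hx.le (by linarith)) (Real.rpow_nonneg hWx.le _)
  refine ⟨?_, hVi⟩
  refine le_trans (Finset.sum_le_sum fun j _ => max_le_max le_rfl ?_)
    (sum_pos_energy_le hVm (fun x => le_max_left _ _) hVi hu hsupp horth hnorm)
  have hn : HasCompactSupport fun x => ‖u j x‖ ^ 2 :=
    (hsupp j).comp_left (g := fun z : ℂ => ‖z‖ ^ 2) (by simp)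
  have hgc : Continuous fun x => ‖u j x‖ ^ 2 := (hu j).continuous.norm.pow 2
  have hni : Integrable fun x => ‖u j x‖ ^ 2 := hgc.integrable_of_hasCompactSupport hn
  have hi1 := integrable_pot_mul (by linarith : 1 ≤ γ + 1 / 2) hWm hW0 hWi hgc hn
  have hi2 := integrable_pot_mul (by norm_num : (1 : ℝ) ≤ 3 / 2) hVm (fun x => le_max_left _ _) hVi
    hgc hn
  simp only [energy]
  have h : ∫ x, (W x * ‖u j x‖ ^ 2 - t * ‖u j x‖ ^ 2) ≤
      ∫ x, max 0 (W x - t) * ‖u j x‖ ^ 2 :=
    integral_mono (hi1.sub (hni.const_mul t)) hi2 fun x => by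
      show W x * ‖u j x‖ ^ 2 - t * ‖u j x‖ ^ 2 ≤ max 0 (W x - t) * ‖u j x‖ ^ 2
      rw [← sub_mul]
      exact mul_le_mul_of_nonneg_right (le_max_right _ _) (sq_nonneg _)
  rw [integral_sub hi1 (hni.const_mul t), MeasureTheory.integral_const_mul, hnorm j] at h
  linarith

end Vale.Agent.P371
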