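import Vale.Agent.P371.QuarterKinetic
import Vale.Agent.P371.Lifting

/-!
Eigenvalue moments of order at least `5/4` from the kinetic inequality at exponent `5/4`.
-/

namespace Vale.Agent.P371.Quarter

open MeasureTheory Set ComplexConjugate

/-- The constant of Young's inequality. -/
noncomputable def yc : ℝ := 4 / 7 * (3 / (7 * amp)) ^ (3 / 4 : ℝ)

/-- The constant at exponent `5/4`. -/
noncomputable def cst : ℝ := 5 / 4 * (cw / 16) ^ (1 / 4 : ℝ) * yc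

theorem young {w r : ℝ} (hw : 0 ≤ w) (hr : 0 ≤ r) :
    w * r - amp * r ^ (7 / 3 : ℝ) ≤ yc * w ^ (7 / 4 : ℝ) := by
  obtain ⟨k, hk⟩ : ∃ k, k = 7 * amp / 3 := ⟨_, rfl⟩
  have hk0 : 0 < k := by rw [hk]; norm_num [amp]
  have hs : 0 < k ^ (3 / 7 : ℝ) := Real.rpow_pos_of_pos hk0 _
  have h := Real.young_inequality_of_nonneg (a := w / k ^ (3 / 7 : ℝ)) (b := r * k ^ (3 / 7 : ℝ))
    (div_nonneg hw hs.le) (mul_nonneg hr hs.le)
    (show (7 / 4 : ℝ).HolderConjugate (7 / 3) by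
      rw [Real.holderConjugate_iff]; norm_num)
  rw [Real.div_rpow hw hs.le, Real.mul_rpow hr hs.le, ← Real.rpow_mul hk0.le,
    ← Real.rpow_mul hk0.le] at h
  norm_num at h
  have e : w / k ^ (3 / 7 : ℝ) * (r * k ^ (3 / 7 : ℝ)) = w * r := by field_simp
  rw [e] at h
  have e2 : (3 / (7 * amp)) ^ (3 / 4 : ℝ) = 1 / k ^ (3 / 4 : ℝ) := by
    rw [show 3 / (7 * amp) = k⁻¹ by rw [hk]; field_simp, Real.inv_rpow hk0.le, one_div]
  have e4 : r ^ (7 / 3 : ℝ) * k / (7 / 3) = amp * r ^ (7 / 3 : ℝ) := by rw [hk]; ring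
  rw [yc, e2]
  calc w * r - amp * r ^ (7 / 3 : ℝ) ≤ w ^ (7 / 4 : ℝ) / k ^ (3 / 4 : ℝ) / (7 / 4) := by linarith
    _ = _ := by ring

theorem yc_pos : 0 < yc := by unfold yc amp; positivity

theorem cst_pos : 0 < cst := by
  have := yc_pos
  unfold cst cw
  positivity

variable {ι : Type*} [Fintype ι]

theorem moment_quarter {V : ℝ → ℝ} (hVm : Measurable V) (hV0 : ∀ x, 0 ≤ V x)
    (hVi : Integrable fun x => V x ^ (7 / 4 : ℝ)) {u : ι → ℝ → ℂ}
    (hu : ∀ j, ContDiff ℝ 1 (u j)) (hsupp : ∀ j, HasCompactSupport (u j))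
    (horth : ∀ j k, j ≠ k → ∫ x, conj (u j x) * u k x = 0)
    (hnorm : ∀ j, ∫ x, ‖u j x‖ ^ 2 = 1) :
    ∑ j, max 0 (energy V (u j)) ^ (5 / 4 : ℝ) ≤ cst * ∫ x, V x ^ (7 / 4 : ℝ) := by
  have hcw : 0 < cw := by norm_num [cw]
  obtain ⟨m, hm⟩ : ∃ m, m = (16 / cw) ^ (1 / 4 : ℝ) := ⟨_, rfl⟩
  have hm0 : 0 < m := hm ▸ Real.rpow_pos_of_pos (by positivity) _
  have hm4 : m ^ 4 = 16 / cw := by
    rw [hm, ← Real.rpow_natCast, ← Real.rpow_mul (by positivity)]; norm_num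
  obtain ⟨ν, hν⟩ : ∃ ν : ι → ℝ, ν = fun j => m * max 0 (energy V (u j)) ^ (1 / 4 : ℝ) := ⟨_, rfl⟩
  have hν0 : ∀ j, 0 ≤ ν j := fun j => by
    rw [hν]; exact mul_nonneg hm0.le (Real.rpow_nonneg (le_max_left _ _) _)
  have hterm : ∀ j, ν j * energy V (u j) - cw / 80 * ν j ^ 5 =
      4 / 5 * m * max 0 (energy V (u j)) ^ (5 / 4 : ℝ) := fun j => by
    rcases le_or_gt (energy V (u j)) 0 with h | h
    · simp [hν, max_eq_left h,
        Real.zero_rpow (by norm_num : (5 / 4 : ℝ) ≠ 0)]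
    · rw [hν]
      dsimp only
      rw [max_eq_right h.le]
      obtain ⟨y, hy⟩ : ∃ y, y = energy V (u j) ^ (1 / 4 : ℝ) := ⟨_, rfl⟩
      have hy4 : y ^ 4 = energy V (u j) := by
        rw [hy, ← Real.rpow_natCast, ← Real.rpow_mul h.le]; norm_num
      have hy5 : energy V (u j) ^ (5 / 4 : ℝ) = y ^ 5 := by
        rw [hy, ← Real.rpow_natCast, ← Real.rpow_mul h.le]; norm_num
      rw [← hy, hy5, ← hy4]
      have hmc : cw * m ^ 4 = 16 := by rw [hm4]; field_simp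
      linear_combination (-(m * y ^ 5) / 80) * hmc
  have hc : ∀ j, Continuous (u j) := fun j => (hu j).continuous
  have hρc : Continuous fun x => ∑ j, ν j * ‖u j x‖ ^ 2 :=
    continuous_finsetSum _ fun j _ => continuous_const.mul ((hc j).norm.pow 2)
  have hρs : HasCompactSupport fun x => ∑ j, ν j * ‖u j x‖ ^ 2 := by
    refine HasCompactSupport.intro (isCompact_iUnion fun j => hsupp j) fun x hx => ?_
    simp only [mem_iUnion, not_exists] at hx
    exact Finset.sum_eq_zero fun j _ => by simp [image_eq_zero_of_notMem_tsupport (hx j)]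
  have hn : ∀ j, HasCompactSupport fun x => ‖u j x‖ ^ 2 := fun j =>
    (hsupp j).comp_left (g := fun z : ℂ => ‖z‖ ^ 2) (by simp)
  have hp : (1 : ℝ) ≤ 7 / 4 := by norm_num
  have hi : ∀ j, Integrable fun x => V x * ‖u j x‖ ^ 2 := fun j =>
    integrable_pot_mul hp hVm hV0 hVi (g := fun x => ‖u j x‖ ^ 2) ((hc j).norm.pow 2) (hn j)
  have hdi : ∀ j, Integrable fun x => ‖deriv (u j) x‖ ^ 2 := integrable_deriv_sq hu hsupp
  have hρ7 : Integrable fun x => (∑ j, ν j * ‖u j x‖ ^ 2) ^ (7 / 3 : ℝ) :=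
    (hρc.rpow_const fun _ => Or.inr (by norm_num)).integrable_of_hasCompactSupport
      (hρs.comp_left (g := fun t : ℝ => t ^ (7 / 3 : ℝ)) (by norm_num))
  have hK := kinetic_complex hu hsupp horth hnorm hν0
  rw [integral_finsetSum _ fun j _ => (hdi j).const_mul (ν j)] at hK
  simp only [MeasureTheory.integral_const_mul] at hK
  have hVρ : Integrable fun x => V x * ∑ j, ν j * ‖u j x‖ ^ 2 :=
    integrable_pot_mul hp hVm hV0 hVi hρc hρs
  have hmain : ∑ j, (ν j * energy V (u j) - cw / 80 * ν j ^ 5) ≤ yc * ∫ x, V x ^ (7 / 4 : ℝ) := by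
    have e : ∑ j, ν j * ∫ x, V x * ‖u j x‖ ^ 2 = ∫ x, V x * ∑ j, ν j * ‖u j x‖ ^ 2 := by
      simp only [← MeasureTheory.integral_const_mul]
      rw [← integral_finsetSum _ fun j _ => (hi j).const_mul _]
      refine integral_congr_ae (.of_forall fun x => ?_)
      simp only [Finset.mul_sum]
      exact Finset.sum_congr rfl fun j _ => by ring
    simp only [energy, mul_sub, Finset.sum_sub_distrib, e, ← Finset.mul_sum]
    have h2 : (∫ x, V x * ∑ j, ν j * ‖u j x‖ ^ 2) -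
        amp * ∫ x, (∑ j, ν j * ‖u j x‖ ^ 2) ^ (7 / 3 : ℝ) ≤ yc * ∫ x, V x ^ (7 / 4 : ℝ) := by
      rw [← MeasureTheory.integral_const_mul, ← MeasureTheory.integral_const_mul,
        ← integral_sub hVρ (hρ7.const_mul _)]
      exact integral_mono (hVρ.sub (hρ7.const_mul _)) (hVi.const_mul _) fun x =>
        young (hV0 x) (Finset.sum_nonneg fun j _ => mul_nonneg (hν0 j) (sq_nonneg _))
    linarith
  simp only [hterm, ← Finset.mul_sum] at hmain
  have hmc : 4 / 5 * m * cst = yc := by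
    rw [cst, hm, show cw / 16 = (16 / cw)⁻¹ by rw [inv_div], Real.inv_rpow (by positivity)]
    have := (Real.rpow_pos_of_pos (by positivity : 0 < 16 / cw) (1 / 4)).ne'
    field_simp
  refine le_of_mul_le_mul_left ?_ (by positivity : 0 < 4 / 5 * m)
  rw [← mul_assoc, hmc]
  exact hmain

theorem moment_shifted {W : ℝ → ℝ} {γ : ℝ} (hγ : 5 / 4 ≤ γ) (hWm : Measurable W)
    (hW0 : ∀ x, 0 ≤ W x) (hWi : Integrable fun x => W x ^ (γ + 1 / 2)) {u : ι → ℝ → ℂ}
    (hu : ∀ j, ContDiff ℝ 1 (u j)) (hsupp : ∀ j, HasCompactSupport (u j))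
    (horth : ∀ j k, j ≠ k → ∫ x, conj (u j x) * u k x = 0)
    (hnorm : ∀ j, ∫ x, ‖u j x‖ ^ 2 = 1) {t : ℝ} (ht : 0 < t) :
    ∑ j, max 0 (energy W (u j) - t) ^ (5 / 4 : ℝ) ≤ cst * ∫ x, max 0 (W x - t) ^ (7 / 4 : ℝ) ∧
    Integrable fun x => max 0 (W x - t) ^ (7 / 4 : ℝ) := by
  have hVm : Measurable fun x => max 0 (W x - t) := measurable_const.max (hWm.sub_const t)
  have hVi : Integrable fun x => max 0 (W x - t) ^ (7 / 4 : ℝ) := by
    refine (hWi.const_mul (t ^ (5 / 4 - γ))).mono' (hVm.pow_const _).aestronglyMeasurable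
      (.of_forall fun x => ?_)
    rw [Real.norm_eq_abs, abs_of_nonneg (Real.rpow_nonneg (le_max_left _ _) _)]
    rcases le_or_gt (W x) t with hx | hx
    · rw [max_eq_left (by linarith), Real.zero_rpow (by norm_num)]
      exact mul_nonneg (Real.rpow_nonneg ht.le _) (Real.rpow_nonneg (hW0 x) _)
    · rw [max_eq_right (by linarith)]
      have hWx : 0 < W x := ht.trans hx
      calc (W x - t) ^ (7 / 4 : ℝ) ≤ W x ^ (7 / 4 : ℝ) :=
            Real.rpow_le_rpow (by linarith) (by linarith) (by norm_num)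
        _ = W x ^ (5 / 4 - γ) * W x ^ (γ + 1 / 2) := by rw [← Real.rpow_add hWx]; congr 1; ring
        _ ≤ t ^ (5 / 4 - γ) * W x ^ (γ + 1 / 2) := mul_le_mul_of_nonneg_right
            (Real.rpow_le_rpow_of_nonpos ht hx.le (by linarith)) (Real.rpow_nonneg hWx.le _)
  refine ⟨le_trans (Finset.sum_le_sum fun j _ => ?_)
    (moment_quarter hVm (fun x => le_max_left _ _) hVi hu hsupp horth hnorm), hVi⟩
  refine Real.rpow_le_rpow (le_max_left _ _) (max_le_max le_rfl ?_) (by norm_num)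
  have hn : HasCompactSupport fun x => ‖u j x‖ ^ 2 :=
    (hsupp j).comp_left (g := fun z : ℂ => ‖z‖ ^ 2) (by simp)
  have hgc : Continuous fun x => ‖u j x‖ ^ 2 := (hu j).continuous.norm.pow 2
  have hni : Integrable fun x => ‖u j x‖ ^ 2 := hgc.integrable_of_hasCompactSupport hn
  have hi1 := integrable_pot_mul (by linarith : 1 ≤ γ + 1 / 2) hWm hW0 hWi hgc hn
  have hi2 := integrable_pot_mul (by norm_num : (1 : ℝ) ≤ 7 / 4) hVm (fun x => le_max_left _ _) hVi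
    hgc hn
  simp only [energy]
  have h : ∫ x, (W x * ‖u j x‖ ^ 2 - t * ‖u j x‖ ^ 2) ≤
      ∫ x, max 0 (W x - t) * ‖u j x‖ ^ 2 :=
    integral_mono (hi1.sub (hni.const_mul t)) hi2 fun x => by
      show W x * ‖u j x‖ ^ 2 - t * ‖u j x‖ ^ 2 ≤ max 0 (W x - t) * ‖u j x‖ ^ 2
      rw [← sub_mul]
      exact mul_le_mul_of_nonneg_right (le_max_right _ _) (sq_nonneg _)
  rw [integral_sub hi1 (hni.const_mul t), MeasureTheory.integral_const_mul, hnorm j] at h
  linarith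

/-- Integrating the shifted inequality against `t ^ (γ - 9/4)`. -/
theorem lifted {W : ℝ → ℝ} {γ : ℝ} (hγ : 5 / 4 < γ) (hWm : Measurable W)
    (hW0 : ∀ x, 0 ≤ W x) (hWi : Integrable fun x => W x ^ (γ + 1 / 2)) {u : ι → ℝ → ℂ}
    (hu : ∀ j, ContDiff ℝ 1 (u j)) (hsupp : ∀ j, HasCompactSupport (u j))
    (horth : ∀ j k, j ≠ k → ∫ x, conj (u j x) * u k x = 0)
    (hnorm : ∀ j, ∫ x, ‖u j x‖ ^ 2 = 1) :
    (∑ j, max 0 (energy W (u j)) ^ γ) * ProbabilityTheory.beta (γ - 5 / 4) (9 / 4) ≤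
      cst * (ProbabilityTheory.beta (γ - 5 / 4) (11 / 4) * ∫ x, W x ^ (γ + 1 / 2)) := by
  have hC0 := cst_pos.le
  have hS0 : ∀ x, 0 ≤ W x ^ (γ + 1 / 2) := fun x => Real.rpow_nonneg (hW0 x) _
  have hα : 0 < γ - 5 / 4 := by linarith
  have hb1 := ProbabilityTheory.beta_pos hα (by norm_num : (0 : ℝ) < 9 / 4)
  have hb2 := ProbabilityTheory.beta_pos hα (by norm_num : (0 : ℝ) < 11 / 4)
  have h2 : ∀ w : ℝ, ∫⁻ t in Ioi (0 : ℝ),
      ENNReal.ofReal (t ^ (γ - 5 / 4 - 1) * max 0 (w - t) ^ (5 / 4 : ℝ)) =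
      ENNReal.ofReal (max 0 w ^ γ * ProbabilityTheory.beta (γ - 5 / 4) (9 / 4)) := fun w => by
    rw [lintegral_rpow_mul_pos hα (by norm_num : (0 : ℝ) < 5 / 4), sub_add_cancel]
    norm_num
  have h5 : ∀ x : ℝ, ∫⁻ t in Ioi (0 : ℝ),
      ENNReal.ofReal (t ^ (γ - 5 / 4 - 1) * max 0 (W x - t) ^ (7 / 4 : ℝ)) =
      ENNReal.ofReal (W x ^ (γ + 1 / 2) * ProbabilityTheory.beta (γ - 5 / 4) (11 / 4)) := fun x => by
    rw [lintegral_rpow_mul_pos hα (by norm_num : (0 : ℝ) < 7 / 4), max_eq_right (hW0 x),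
      show γ - 5 / 4 + 7 / 4 = γ + 1 / 2 by ring]
    norm_num
  have hm : Measurable (Function.uncurry fun t x =>
      ENNReal.ofReal (t ^ (γ - 5 / 4 - 1) * max 0 (W x - t) ^ (7 / 4 : ℝ))) :=
    ((measurable_fst.pow_const (γ - 5 / 4 - 1)).mul
      ((measurable_const.max ((hWm.comp measurable_snd).sub measurable_fst)).pow_const _)).ennreal_ofReal
  have key : ENNReal.ofReal ((∑ j, max 0 (energy W (u j)) ^ γ) *
      ProbabilityTheory.beta (γ - 5 / 4) (9 / 4)) ≤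
      ENNReal.ofReal (cst * (ProbabilityTheory.beta (γ - 5 / 4) (11 / 4) *
        ∫ x, W x ^ (γ + 1 / 2))) :=
    calc ENNReal.ofReal ((∑ j, max 0 (energy W (u j)) ^ γ) *
          ProbabilityTheory.beta (γ - 5 / 4) (9 / 4))
        = ∑ j, ∫⁻ t in Ioi (0 : ℝ),
            ENNReal.ofReal (t ^ (γ - 5 / 4 - 1) * max 0 (energy W (u j) - t) ^ (5 / 4 : ℝ)) := by
          simp only [h2]
          rw [Finset.sum_mul, ENNReal.ofReal_sum_of_nonneg fun j _ =>
            mul_nonneg (Real.rpow_nonneg (le_max_left _ _) _) hb1.le]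
      _ = ∫⁻ t in Ioi (0 : ℝ), ∑ j,
            ENNReal.ofReal (t ^ (γ - 5 / 4 - 1) * max 0 (energy W (u j) - t) ^ (5 / 4 : ℝ)) :=
          (lintegral_finsetSum _ fun j _ => by fun_prop).symm
      _ ≤ ∫⁻ t in Ioi (0 : ℝ), ENNReal.ofReal cst *
            ∫⁻ x, ENNReal.ofReal (t ^ (γ - 5 / 4 - 1) * max 0 (W x - t) ^ (7 / 4 : ℝ)) := by
          refine setLIntegral_mono' measurableSet_Ioi fun t (ht : 0 < t) => ?_
          obtain ⟨hle, hi⟩ := moment_shifted hγ.le hWm hW0 hWi hu hsupp horth hnorm ht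
          have hpos : 0 ≤ t ^ (γ - 5 / 4 - 1) := Real.rpow_nonneg ht.le _
          rw [← ofReal_integral_eq_lintegral_ofReal (hi.const_mul _)
              (.of_forall fun x => mul_nonneg hpos (Real.rpow_nonneg (le_max_left _ _) _)),
            ← ENNReal.ofReal_mul hC0,
            ← ENNReal.ofReal_sum_of_nonneg fun j _ => mul_nonneg hpos
              (Real.rpow_nonneg (le_max_left _ _) _),
            ← Finset.mul_sum, MeasureTheory.integral_const_mul]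
          exact ENNReal.ofReal_le_ofReal
            (le_of_le_of_eq (mul_le_mul_of_nonneg_left hle hpos) (by ring))
      _ = ENNReal.ofReal cst * ∫⁻ x, ∫⁻ t in Ioi (0 : ℝ),
            ENNReal.ofReal (t ^ (γ - 5 / 4 - 1) * max 0 (W x - t) ^ (7 / 4 : ℝ)) := by
          rw [lintegral_const_mul' _ _ ENNReal.ofReal_ne_top,
            lintegral_lintegral_swap hm.aemeasurable]
      _ = _ := by
          simp only [h5]
          rw [← ofReal_integral_eq_lintegral_ofReal (hWi.mul_const _)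
              (.of_forall fun x => mul_nonneg (hS0 x) hb2.le),
            ← ENNReal.ofReal_mul hC0, MeasureTheory.integral_mul_const,
            mul_comm _ (ProbabilityTheory.beta _ _)]
  exact (ENNReal.ofReal_le_ofReal_iff (mul_nonneg hC0 (mul_nonneg hb2.le
    (integral_nonneg hS0)))).1 key

theorem gamma_shift {a : ℝ} (ha : 0 < a) :
    ∀ n : ℕ, Real.Gamma (a + n) = (∏ i ∈ Finset.range n, (a + i)) * Real.Gamma a := by
  intro n
  induction n with
  | zero => simp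
  | succ n ih =>
    rw [Finset.prod_range_succ, show a + ((n + 1 : ℕ) : ℝ) = a + n + 1 by push_cast; ring,
      Real.Gamma_add_one (by positivity), ih]
    ring

theorem gamma_half_le {y : ℝ} (hy : 0 < y) :
    Real.Gamma (y + 1 / 2) ≤ Real.sqrt y * Real.Gamma y := by
  have h := Real.Gamma_mul_add_mul_le_rpow_Gamma_mul_rpow_Gamma hy (by linarith : 0 < y + 1)
    (by norm_num : (0 : ℝ) < 1 / 2) (by norm_num : (0 : ℝ) < 1 / 2) (by norm_num)
  rw [show 1 / 2 * y + 1 / 2 * (y + 1) = y + 1 / 2 by ring, Real.Gamma_add_one hy.ne',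
    Real.mul_rpow hy.le (Real.Gamma_pos_of_pos hy).le] at h
  refine h.trans (le_of_eq ?_)
  rw [← Real.sqrt_eq_rpow, ← Real.sqrt_eq_rpow,
    mul_comm (Real.sqrt y) (Real.sqrt (Real.Gamma y)), ← mul_assoc,
    Real.mul_self_sqrt (Real.Gamma_pos_of_pos hy).le, mul_comm]

/-- The numerator and denominator products at step `n`. -/
def prodUp (n : ℕ) : ℕ := (Finset.range n).prod fun i => 11 + 4 * i

/-- The denominator products. -/
def prodDown (n : ℕ) : ℕ := (Finset.range n).prod fun i => 9 + 4 * i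

theorem prod_eq (n : ℕ) : (∏ i ∈ Finset.range n, ((11 / 4 : ℝ) + i)) = (prodUp n : ℝ) / 4 ^ n ∧
    (∏ i ∈ Finset.range n, ((9 / 4 : ℝ) + i)) = (prodDown n : ℝ) / 4 ^ n := by
  induction n with
  | zero => simp [prodUp, prodDown]
  | succ n ih =>
    unfold prodUp prodDown at ih ⊢
    rw [Finset.prod_range_succ, Finset.prod_range_succ, Finset.prod_range_succ,
      Finset.prod_range_succ, ih.1, ih.2]
    constructor <;> (push_cast; field_simp; ring)

theorem numeric : 625 * 221 * 27 * 32 ^ 3 * 31416 ^ 2 * 25 ^ 4 * 609 ^ 2 * prodDown 150 ^ 4 ≤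
    2401 * 2000 * 343 * 13 ^ 3 * 10000 ^ 2 * 27 ^ 4 * 16 * prodUp 150 ^ 4 := by
  decide +kernel

theorem cst_le : cst ≤ 27 / 25 *
    (Real.Gamma (9 / 4) / (2 * Real.sqrt Real.pi * Real.Gamma (11 / 4))) := by
  have hA := Real.Gamma_pos_of_pos (by norm_num : (0 : ℝ) < 9 / 4)
  have hB := Real.Gamma_pos_of_pos (by norm_num : (0 : ℝ) < 11 / 4)
  have hy := gamma_half_le (y := 9 / 4 + (150 : ℕ)) (by norm_num)
  rw [show (9 / 4 : ℝ) + (150 : ℕ) + 1 / 2 = 11 / 4 + (150 : ℕ) by push_cast; ring,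
    gamma_shift (by norm_num : (0 : ℝ) < 11 / 4), gamma_shift (by norm_num : (0 : ℝ) < 9 / 4),
    (prod_eq 150).1, (prod_eq 150).2] at hy
  obtain ⟨U, hU⟩ : ∃ U : ℝ, U = (prodUp 150 : ℝ) := ⟨_, rfl⟩
  obtain ⟨D, hD⟩ : ∃ D : ℝ, D = (prodDown 150 : ℝ) := ⟨_, rfl⟩
  have hU0 : 0 < U := by
    rw [hU]; exact Nat.cast_pos.2 (Finset.prod_pos fun i _ => by omega)
  have hD0 : 0 < D := by
    rw [hD]; exact Nat.cast_pos.2 (Finset.prod_pos fun i _ => by omega)
  rw [← hU, ← hD] at hy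
  obtain ⟨s, hs⟩ : ∃ s, s = Real.sqrt (9 / 4 + (150 : ℕ)) := ⟨_, rfl⟩
  rw [← hs] at hy
  have hs0 : 0 < s := hs ▸ Real.sqrt_pos.2 (by norm_num)
  have hs2 : s ^ 2 = 609 / 4 := by rw [hs, Real.sq_sqrt (by norm_num)]; norm_num
  have h4 : (0 : ℝ) < 4 ^ 150 := by positivity
  obtain ⟨q, hq⟩ : ∃ q : ℝ, q = 4 ^ 150 := ⟨_, rfl⟩
  rw [← hq] at hy h4
  have hR : U / (D * s) ≤ Real.Gamma (9 / 4) / Real.Gamma (11 / 4) := by
    rw [div_le_div_iff₀ (by positivity) hB]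
    have := mul_le_mul_of_nonneg_right hy h4.le
    field_simp at this
    linarith
  obtain ⟨sp, hsp⟩ : ∃ sp, sp = Real.sqrt Real.pi := ⟨_, rfl⟩
  have hsp0 : 0 < sp := hsp ▸ Real.sqrt_pos.2 Real.pi_pos
  have hsp2 : sp ^ 2 = Real.pi := hsp ▸ Real.sq_sqrt Real.pi_pos.le
  rw [← hsp]
  refine le_trans ?_ (le_of_le_of_eq
    (mul_le_mul_of_nonneg_left hR (by positivity : (0 : ℝ) ≤ 27 / 25 / (2 * sp))) (by ring))
  refine le_of_pow_le_pow_left₀ (n := 4) (by norm_num) (by positivity) ?_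
  have e1 : ((cw / 16) ^ (1 / 4 : ℝ)) ^ 4 = cw / 16 := by
    rw [← Real.rpow_natCast, ← Real.rpow_mul (by norm_num [cw])]; norm_num
  have e2 : ((3 / (7 * amp)) ^ (3 / 4 : ℝ)) ^ 4 = (3 / (7 * amp)) ^ 3 := by
    rw [← Real.rpow_natCast, ← Real.rpow_mul (by norm_num [amp])]; norm_num
  rw [cst, yc, mul_pow, mul_pow, mul_pow, e1, e2, cw, amp, mul_pow,
    div_pow (27 / 25 : ℝ) (2 * sp), div_pow U (D * s), mul_pow D s, show s ^ 4 = (s ^ 2) ^ 2 by ring,
    hs2, show (2 * sp) ^ 4 = 16 * (sp ^ 2) ^ 2 by ring, hsp2]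
  have hpi : Real.pi ^ 2 ≤ (31416 / 10000) ^ 2 :=
    pow_le_pow_left₀ Real.pi_pos.le (by linarith [Real.pi_lt_d4]) 2
  have hnum : (625 * 221 * 27 * 32 ^ 3 * 31416 ^ 2 * 25 ^ 4 * 609 ^ 2 : ℝ) * D ^ 4 ≤
      2401 * 2000 * 343 * 13 ^ 3 * 10000 ^ 2 * 27 ^ 4 * 16 * U ^ 4 := by
    rw [hU, hD]; exact_mod_cast numeric
  have hl : (5 / 4 : ℝ) ^ 4 * (221 / 2000 / 16) * ((4 / 7) ^ 4 * (3 / (7 * (13 / 32))) ^ 3) *
      (16 * (31416 / 10000) ^ 2 * (D ^ 4 * (609 / 4) ^ 2)) ≤ (27 / 25) ^ 4 * U ^ 4 := by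
    nlinarith [hnum]
  rw [div_mul_div_comm, le_div_iff₀ (by positivity)]
  refine le_trans ?_ hl
  rw [show (16 : ℝ) * Real.pi ^ 2 * (D ^ 4 * (609 / 4) ^ 2) =
    (16 * (D ^ 4 * (609 / 4) ^ 2)) * Real.pi ^ 2 by ring]
  refine (mul_le_mul_of_nonneg_left (mul_le_mul_of_nonneg_left hpi (by positivity))
    (by positivity)).trans (le_of_eq (by ring))

/-- Moments of order at least `5/4`. -/
theorem moment (γ : ℝ) (hγ : 5 / 4 ≤ γ) {W : ℝ → ℝ} (hWm : Measurable W) (hW0 : ∀ x, 0 ≤ W x)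
    (hWi : Integrable fun x => W x ^ (γ + 1 / 2)) {u : ι → ℝ → ℂ}
    (hu : ∀ j, ContDiff ℝ 1 (u j)) (hsupp : ∀ j, HasCompactSupport (u j))
    (horth : ∀ j k, j ≠ k → ∫ x, conj (u j x) * u k x = 0)
    (hnorm : ∀ j, ∫ x, ‖u j x‖ ^ 2 = 1) :
    ∑ j, max 0 (energy W (u j)) ^ γ ≤
      27 / 25 * (Real.Gamma (γ + 1) / (2 * Real.sqrt Real.pi * Real.Gamma (γ + 3 / 2))) *
        ∫ x, W x ^ (γ + 1 / 2) := by
  have hI : 0 ≤ ∫ x, W x ^ (γ + 1 / 2) := integral_nonneg fun x => Real.rpow_nonneg (hW0 x) _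
  rcases eq_or_lt_of_le hγ with h | h
  · subst h
    norm_num at hWi hI ⊢
    have h0 := moment_quarter hWm hW0 hWi hu hsupp horth hnorm
    have h1 := cst_le
    norm_num at h1
    exact h0.trans (mul_le_mul_of_nonneg_right h1 hI)
  · have hα : 0 < γ - 5 / 4 := by linarith
    have hb1 := ProbabilityTheory.beta_pos hα (by norm_num : (0 : ℝ) < 9 / 4)
    have hb2 := ProbabilityTheory.beta_pos hα (by norm_num : (0 : ℝ) < 11 / 4)
    have key := (lifted h hWm hW0 hWi hu hsupp horth hnorm).trans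
      (mul_le_mul_of_nonneg_right cst_le (mul_nonneg hb2.le hI))
    refine le_of_mul_le_mul_right (key.trans (le_of_eq ?_)) hb1
    simp only [ProbabilityTheory.beta, show γ - 5 / 4 + 9 / 4 = γ + 1 by ring,
      show γ - 5 / 4 + 11 / 4 = γ + 3 / 2 by ring]
    have h1 := (Real.Gamma_pos_of_pos (by linarith : 0 < γ + 1)).ne'
    have h2 := (Real.Gamma_pos_of_pos (by linarith : 0 < γ + 3 / 2)).ne'
    have h3 := (Real.Gamma_pos_of_pos hα).ne'
    have h4 := (Real.Gamma_pos_of_pos (by norm_num : (0 : ℝ) < 9 / 4)).ne'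
    have h5 := (Real.Gamma_pos_of_pos (by norm_num : (0 : ℝ) < 11 / 4)).ne'
    field_simp

end Vale.Agent.P371.Quarter
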