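import Vale.Agent.P371.SharpCalib

/-!
The sharp kinetic inequality for families obeying Bessel's inequality: the calibration is
integrated along the accumulated Gram matrix.
-/

namespace Vale.Agent.P371.Sharp

open MeasureTheory intervalIntegral Finset RealInnerProductSpace Real Filter Topology

variable {E : Type*} [NormedAddCommGroup E] [InnerProductSpace ℝ E]

theorem inner_pow_symm {T : E →L[ℝ] E} (hT : ∀ u v, ⟪T u, v⟫ = ⟪u, T v⟫) :
    ∀ (k : ℕ) (u v : E), ⟪(T ^ k) u, v⟫ = ⟪u, (T ^ k) v⟫ := by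
  intro k
  induction k with
  | zero => intro u v; simp
  | succ k ih =>
    intro u v
    calc ⟪(T ^ (k + 1)) u, v⟫ = ⟪(T ^ k) (T u), v⟫ := by rw [pow_succ]; rfl
      _ = ⟪u, T ((T ^ k) v)⟫ := by rw [ih, hT]
      _ = ⟪u, (T ^ (k + 1)) v⟫ := by rw [pow_succ']; rfl

/-- The rank one map `p pᵀ`. -/
noncomputable def outer (p : E) : E →L[ℝ] E := InnerProductSpace.rankOne ℝ p p

theorem outer_apply (p z : E) : outer p z = ⟪p, z⟫ • p := rfl

theorem continuous_outer {f : ℝ → E} (hf : Continuous f) : Continuous fun x => outer (f x) := by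
  exact (InnerProductSpace.rankOne ℝ (E := E) (F := E)).continuous₂.comp (hf.prodMk hf)

variable {f fd : ℝ → E} {T : ℝ → E →L[ℝ] E} {c : ℝ}

theorem hasDerivAt_pow_apply (hf : ∀ x, HasDerivAt f (fd x) x)
    (hT : ∀ x, HasDerivAt T (c • outer (f x)) x) (k : ℕ) (x : ℝ) :
    HasDerivAt (fun y => (T y ^ k) (f y)) ((T x ^ k) (fd x) +
      c • ∑ l ∈ range k, mom (T x) (f x) (k - 1 - l) • (T x ^ l) (f x)) x := by
  induction k with
  | zero => simpa using hf x
  | succ k ih =>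
    have h := (hT x).clm_apply ih
    have e : (fun y => (T y ^ (k + 1)) (f y)) = fun y => T y ((T y ^ k) (f y)) := by
      funext y; rw [pow_succ']; rfl
    rw [e]
    refine h.congr_deriv ?_
    rw [smul_apply, outer_apply, map_add, map_smul, map_sum, sum_range_succ',
      pow_succ', pow_zero, one_apply_eq_self,
      show ⟪f x, (T x ^ k) (f x)⟫ = mom (T x) (f x) k from rfl, Nat.add_sub_cancel, Nat.sub_zero,
      smul_add, show (T x * T x ^ k) (fd x) = T x ((T x ^ k) (fd x)) from rfl]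
    have e' : ∑ l ∈ range k, T x (mom (T x) (f x) (k - 1 - l) • (T x ^ l) (f x)) =
        ∑ l ∈ range k, mom (T x) (f x) (k - (l + 1)) • (T x ^ (l + 1)) (f x) := by
      refine sum_congr rfl fun l _ => ?_
      rw [map_smul, show k - (l + 1) = k - 1 - l by omega, pow_succ']
      rfl
    rw [e']
    abel

theorem hasDerivAt_mom (hf : ∀ x, HasDerivAt f (fd x) x)
    (hT : ∀ x, HasDerivAt T (c • outer (f x)) x)
    (hs : ∀ x u v, ⟪T x u, v⟫ = ⟪u, T x v⟫) (k : ℕ) (x : ℝ) :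
    HasDerivAt (fun y => mom (T y) (f y) k) (momD (T x) (f x) (fd x) c k) x := by
  have h := (hf x).inner ℝ (hasDerivAt_pow_apply hf hT k x)
  refine h.congr_deriv ?_
  rw [momD, inner_add_right, inner_smul_right, inner_sum,
    show ⟪f x, (T x ^ k) (fd x)⟫ = ⟪fd x, (T x ^ k) (f x)⟫ by
      rw [← inner_pow_symm (hs x), real_inner_comm]]
  have e : ∀ l, ⟪f x, mom (T x) (f x) (k - 1 - l) • (T x ^ l) (f x)⟫ =
      mom (T x) (f x) l * mom (T x) (f x) (k - 1 - l) := fun l => by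
    rw [inner_smul_right, mom, mom, mul_comm]
  simp only [e]
  ring

theorem continuous_calD (a : ℕ → ℝ) (N : ℕ) {g : ℝ → E} (hf : Continuous f) (hg : Continuous g)
    (hT : Continuous T) : Continuous fun x => calD a N (T x) (f x) (g x) c := by
  unfold calD momD mom
  fun_prop

/-- The inequality for one interval, polynomial and compression. -/
theorem kinetic_step [FiniteDimensional ℝ E] (hf : ∀ x, HasDerivAt f (fd x) x)
    (hfd : Continuous fd) {a b : ℝ} (hab : a ≤ b) (ha : f a = 0) (hb : f b = 0)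
    (hB : ∀ z, ∫ y in a..b, ⟪f y, z⟫ ^ 2 ≤ ‖z‖ ^ 2) {δ : ℝ} (hδ : 0 < δ) (hδ1 : δ < 1 / 2)
    {κ : ℝ} (hκ : κ < π ^ 2 / 4) :
    (1 - 2 * δ) ^ 2 * κ * ∫ x in a..b, (‖f x‖ ^ 2) ^ 3 ≤ ∫ x in a..b, ‖fd x‖ ^ 2 := by
  obtain ⟨co, N, hco⟩ := exists_calib hδ hδ1 hκ
  have hfc : Continuous f := continuous_iff_continuousAt.2 fun x => (hf x).continuousAt
  have hoc := continuous_outer hfc
  obtain ⟨c, hc⟩ : ∃ c, c = 1 - 2 * δ := ⟨_, rfl⟩
  obtain ⟨T, hTdef⟩ : ∃ T : ℝ → E →L[ℝ] E,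
      T = fun x => δ • (1 : E →L[ℝ] E) + c • ∫ y in a..x, outer (f y) := ⟨_, rfl⟩
  have hT : ∀ x, HasDerivAt T (c • outer (f x)) x := fun x => by
    rw [hTdef]
    exact ((integral_hasDerivAt_right (hoc.intervalIntegrable _ _)
      hoc.stronglyMeasurable.stronglyMeasurableAtFilter hoc.continuousAt).const_smul c).const_add _
  have hTc : Continuous T := continuous_iff_continuousAt.2 fun x => (hT x).continuousAt
  have hbil : ∀ x u v, ⟪u, T x v⟫ =
      δ * ⟪u, v⟫ + c * ∫ y in a..x, ⟪f y, u⟫ * ⟪f y, v⟫ := fun x u v => by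
    rw [hTdef]
    simp only [add_apply, smul_apply,
      one_apply_eq_self, inner_add_right, inner_smul_right]
    congr 2
    have h := ((innerSL ℝ u).comp (ContinuousLinearMap.apply ℝ E v)).intervalIntegral_comp_comm
      (hoc.intervalIntegrable (μ := volume) a x)
    simp only [ContinuousLinearMap.comp_apply, ContinuousLinearMap.apply_apply,
      innerSL_apply_apply, outer_apply, inner_smul_right] at h
    rw [← h]
    refine intervalIntegral.integral_congr fun y _ => ?_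
    simp only [real_inner_comm u (f y)]
    ring
  have hs : ∀ x u v, ⟪T x u, v⟫ = ⟪u, T x v⟫ := fun x u v => by
    rw [real_inner_comm, hbil, hbil, real_inner_comm u v]
    simp only [mul_comm ⟪f _, v⟫]
  have hpos : ∀ x ∈ Set.Icc a b, ∀ z, δ * ‖z‖ ^ 2 ≤ ⟪z, T x z⟫ ∧
      ⟪z, T x z⟫ ≤ (1 - δ) * ‖z‖ ^ 2 := fun x hx z => by
    rw [hbil, real_inner_self_eq_norm_sq]
    simp only [← pow_two]
    have hgc : Continuous fun y => ⟪f y, z⟫ ^ 2 := by fun_prop
    have h0 : 0 ≤ ∫ y in a..x, ⟪f y, z⟫ ^ 2 := integral_nonneg hx.1 fun y _ => sq_nonneg _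
    have h1 : ∫ y in a..x, ⟪f y, z⟫ ^ 2 ≤ ‖z‖ ^ 2 := by
      have h2 : 0 ≤ ∫ y in x..b, ⟪f y, z⟫ ^ 2 := integral_nonneg hx.2 fun y _ => sq_nonneg _
      have h3 := integral_add_adjacent_intervals (hgc.intervalIntegrable (μ := volume) a x)
        (hgc.intervalIntegrable x b)
      linarith [hB z]
    have hc0 : 0 ≤ c := by linarith
    constructor
    · nlinarith [mul_nonneg hc0 h0]
    · nlinarith [mul_le_mul_of_nonneg_left h1 hc0]
  obtain ⟨G, hG⟩ : ∃ G : ℝ → ℝ, G = fun x => ∑ n ∈ range N, ∑ k ∈ range (n + 1),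
      co n * n.choose k * (mom (T x) (f x) k * mom (T x) (f x) (n - k)) := ⟨_, rfl⟩
  have hGd : ∀ x, HasDerivAt G (calD co N (T x) (f x) (fd x) c) x := fun x => by
    rw [hG]
    exact HasDerivAt.fun_sum fun n _ => HasDerivAt.fun_sum fun k _ =>
      ((hasDerivAt_mom hf hT hs k x).mul (hasDerivAt_mom hf hT hs (n - k) x)).const_mul _
  have hDc : Continuous fun x => calD co N (T x) (f x) (fd x) c := continuous_calD co N hfc hfd hTc
  have hG0 : ∀ x, f x = 0 → G x = 0 := fun x hx => by rw [hG]; simp [mom, hx]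
  have hint : ∫ x in a..b, calD co N (T x) (f x) (fd x) c = 0 := by
    rw [integral_eq_sub_of_hasDerivAt (fun x _ => hGd x) (hDc.intervalIntegrable _ _), hG0 b hb,
      hG0 a ha, sub_zero]
  have hi1 : Continuous fun x => c ^ 2 * κ * (‖f x‖ ^ 2) ^ 3 := by fun_prop
  have hi2 : Continuous fun x => ‖fd x‖ ^ 2 := by fun_prop
  have hi3 : Continuous fun x => c * calD co N (T x) (f x) (fd x) c := continuous_const.mul hDc
  have h := integral_mono_on hab (hi1.intervalIntegrable (μ := volume) _ _)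
    ((hi2.add hi3).intervalIntegrable _ _) fun x hx =>
      point (T := T x) (fun u v => hs x u v) (fun z => (hpos x hx z).1) (fun z => (hpos x hx z).2)
        co N hco (f x) (fd x) c
  simp only [Pi.add_apply] at h
  rw [intervalIntegral.integral_add (hi2.intervalIntegrable _ _) (hi3.intervalIntegrable _ _),
    intervalIntegral.integral_const_mul, intervalIntegral.integral_const_mul, hint, mul_zero,
    add_zero] at h
  rwa [hc] at h

/-- The sharp kinetic inequality on an interval. -/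
theorem kinetic_vec [FiniteDimensional ℝ E] (hf : ∀ x, HasDerivAt f (fd x) x)
    (hfd : Continuous fd) {a b : ℝ} (hab : a ≤ b) (ha : f a = 0) (hb : f b = 0)
    (hB : ∀ z, ∫ y in a..b, ⟪f y, z⟫ ^ 2 ≤ ‖z‖ ^ 2) :
    π ^ 2 / 4 * ∫ x in a..b, (‖f x‖ ^ 2) ^ 3 ≤ ∫ x in a..b, ‖fd x‖ ^ 2 := by
  have hlim : Tendsto (fun d => (1 - 2 * d) ^ 2 * (π ^ 2 / 4 - d) *
      ∫ x in a..b, (‖f x‖ ^ 2) ^ 3) (𝓝[>] (0 : ℝ))
      (𝓝 (π ^ 2 / 4 * ∫ x in a..b, (‖f x‖ ^ 2) ^ 3)) := by
    refine Tendsto.mono_left ?_ nhdsWithin_le_nhds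
    have h : Continuous fun d : ℝ => (1 - 2 * d) ^ 2 * (π ^ 2 / 4 - d) *
      ∫ x in a..b, (‖f x‖ ^ 2) ^ 3 := by fun_prop
    simpa using h.tendsto 0
  refine le_of_tendsto hlim ?_
  filter_upwards [Ioo_mem_nhdsGT (by norm_num : (0 : ℝ) < 1 / 2)] with d hd
  exact kinetic_step hf hfd hab ha hb hB hd.1 hd.2 (sub_lt_self _ hd.1)

end Vale.Agent.P371.Sharp
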