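import Vale.Agent.P371.LeftIntegrals

/-!
Moments of order between one half and one for matrix potentials.
-/

namespace Vale.Agent.P371.Left

open MeasureTheory Set Function
open scoped ComplexOrder
open Vale.Agent.P371.Sharp (measurable_sum_eigen)

variable {m n : ℕ} {W : ℝ → Matrix (Fin m) (Fin m) ℂ}

theorem layer_fubini (hW : ∀ x, (W x).PosSemidef) (hWm : ∀ a b, Measurable fun x => W x a b)
    {ψ : ℝ → ℝ → ℝ} (hψ : Continuous (uncurry ψ)) {α : ℝ → ℝ} (hα : Measurable α) {K p : ℝ}
    (hi : Integrable fun x => ∑ i, (hW x).isHermitian.eigenvalues i ^ p)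
    (hint : ∀ w, 0 ≤ w → IntegrableOn (fun t => α t * ψ t w) (Ioi 0) ∧
      ∫ t in Ioi (0 : ℝ), α t * ψ t w = K * w ^ p)
    (hpos : ∀ t, 0 < t → ∀ w, 0 ≤ w → 0 ≤ α t * ψ t w) :
    IntegrableOn (fun t => α t * ∫ x, ∑ i, ψ t ((hW x).isHermitian.eigenvalues i)) (Ioi 0) ∧
      ∫ t in Ioi (0 : ℝ), α t * ∫ x, ∑ i, ψ t ((hW x).isHermitian.eigenvalues i) =
        K * ∫ x, ∑ i, (hW x).isHermitian.eigenvalues i ^ p := by
  obtain ⟨G, hG⟩ : ∃ G : ℝ → ℝ → ℝ, G = fun x t =>
      α t * ∑ i, ψ t ((hW x).isHermitian.eigenvalues i) := ⟨_, rfl⟩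
  have hm : Measurable (uncurry G) := by
    rw [hG]
    exact (hα.comp measurable_snd).mul ((measurable_uncurry_of_continuous_of_measurable
      (u := fun t x => ∑ i, ψ t ((hW x).isHermitian.eigenvalues i))
      (fun x => continuous_finsetSum _ fun i _ => hψ.comp (continuous_id.prodMk continuous_const))
      fun t => measurable_sum_eigen (fun x => (hW x).isHermitian) hWm
        (hψ.comp (continuous_const.prodMk continuous_id))).comp measurable_swap)
  have hw : ∀ x i, 0 ≤ (hW x).isHermitian.eigenvalues i := fun x i => (hW x).eigenvalues_nonneg i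
  have hx : ∀ x, IntegrableOn (G x) (Ioi 0) ∧
      ∫ t in Ioi (0 : ℝ), G x t = K * ∑ i, (hW x).isHermitian.eigenvalues i ^ p := fun x => by
    simp only [hG, Finset.mul_sum]
    refine ⟨integrable_finsetSum _ fun i _ => (hint _ (hw x i)).1, ?_⟩
    rw [integral_finsetSum _ fun i _ => (hint _ (hw x i)).1]
    exact Finset.sum_congr rfl fun i _ => (hint _ (hw x i)).2
  have hn : ∀ x, ∫ t in Ioi (0 : ℝ), ‖G x t‖ = K * ∑ i, (hW x).isHermitian.eigenvalues i ^ p :=
    fun x => by
      rw [← (hx x).2]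
      refine setIntegral_congr_fun measurableSet_Ioi fun t ht => Real.norm_of_nonneg ?_
      simp only [hG, Finset.mul_sum]
      exact Finset.sum_nonneg fun i _ => hpos t ht _ (hw x i)
  have hI : Integrable (uncurry G) (volume.prod (volume.restrict (Ioi 0))) := by
    refine (integrable_prod_iff hm.aestronglyMeasurable).2 ⟨.of_forall fun x => (hx x).1, ?_⟩
    simp only [uncurry_apply_pair, hn]
    exact hi.const_mul K
  have e : ∀ t, ∫ x, G x t = α t * ∫ x, ∑ i, ψ t ((hW x).isHermitian.eigenvalues i) := fun t => by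
    simp only [hG, MeasureTheory.integral_const_mul]
  have h1 := hI.integral_prod_right
  simp only [uncurry_apply_pair, e] at h1
  refine ⟨h1, ?_⟩
  simp only [← e]
  rw [← integral_integral_swap hI]
  simp only [fun x => (hx x).2, MeasureTheory.integral_const_mul]

/-- The constant delivered by the splitting, as a function of the two free parameters. -/
noncomputable def bound (γ th c : ℝ) : ℝ :=
  γ * (1 - γ) * (4 / (3 * Real.sqrt 3 * Real.pi) / Real.sqrt th * c ^ (1 - γ) *
      (1 / (γ + 1 / 2) + 1 / (1 - γ)) +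
    c ^ (1 / 2 - γ) / Real.sqrt (1 - th) * (1 / (γ - 1 / 2) - 1 / (γ + 1 / 2)))

theorem moment_below_pos {γ th c : ℝ} (hγ : 1 / 2 < γ) (hγ1 : γ < 1) (hth : 0 < th) (hth1 : th < 1)
    (hc : 0 < c) (hW : ∀ x, (W x).PosSemidef) (hWm : ∀ a b, Measurable fun x => W x a b)
    (hi : Integrable fun x => ∑ i, (hW x).isHermitian.eigenvalues i ^ (γ + 1 / 2))
    {u : Fin n → ℝ → Fin m → ℂ} (hu : ∀ j a, ContDiff ℝ 1 fun x => u j x a)
    (hus : ∀ j a, HasCompactSupport fun x => u j x a) (hL : gram (fun _ => 1) u = 1)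
    (lam : Fin n → ℝ) (hlam : ∀ j, 0 ≤ lam j)
    (hE : gram W u - gram (fun _ => 1) (dfam u) = Matrix.diagonal fun i => (lam i : ℂ)) :
    ∑ j, lam j ^ γ ≤
      bound γ th c * ∫ x, ∑ i, (hW x).isHermitian.eigenvalues i ^ (γ + 1 / 2) := by
  obtain ⟨p, hp⟩ : ∃ p, p = γ + 1 / 2 := ⟨_, rfl⟩
  rw [← hp] at hi ⊢
  have hp1 : 1 ≤ p := by linarith
  have hp2 : p ≤ 3 / 2 := by linarith
  have hw : ∀ x i, 0 ≤ (hW x).isHermitian.eigenvalues i := fun x i => (hW x).eigenvalues_nonneg i
  have hA := layer_fubini hW hWm (ψ := fun t w => (min w (c * t)) ^ (3 / 2 : ℝ))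
    (Continuous.rpow_const (continuous_snd.min (continuous_const.mul continuous_fst))
      fun _ => Or.inr (by norm_num))
    (α := fun t => t ^ (γ - 2)) (by fun_prop) (p := p)
    (K := c ^ (1 - γ) * (1 / (γ + 1 / 2) + 1 / (1 - γ))) hi
    (fun w hw0 => by
      obtain ⟨h1, h2⟩ := min_pow_integral (k := 3 / 2) hγ1 (by linarith) hw0 hc
      refine ⟨h1, h2.trans ?_⟩
      rw [hp, show γ - 1 + 3 / 2 = γ + 1 / 2 by ring]
      ring)
    fun t ht w hw0 => mul_nonneg (Real.rpow_nonneg ht.le _)
      (Real.rpow_nonneg (le_min hw0 (mul_pos hc ht).le) _)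
  have hB := layer_fubini hW hWm (ψ := fun t w => max 0 (w - c * t))
    (continuous_const.max (continuous_snd.sub (continuous_const.mul continuous_fst)))
    (α := fun t => t ^ (γ - 3 / 2)) (by fun_prop) (p := p)
    (K := c ^ (1 / 2 - γ) * (1 / (γ - 1 / 2) - 1 / (γ + 1 / 2))) hi
    (fun w hw0 => by
      obtain ⟨h1, h2⟩ := max_integral hγ hw0 hc
      refine ⟨h1, h2.trans ?_⟩
      rw [hp]
      ring)
    fun t ht w _ => mul_nonneg (Real.rpow_nonneg ht.le _) (le_max_left _ _)
  have hb1 : ∀ t, 0 < t → Integrable fun x =>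
      ∑ i, (min ((hW x).isHermitian.eigenvalues i) (c * t)) ^ (3 / 2 : ℝ) := fun t ht => by
    refine (hi.const_mul ((c * t) ^ (3 / 2 - p))).mono'
      (measurable_sum_eigen (fun x => (hW x).isHermitian) hWm
        (Continuous.rpow_const (continuous_id.min continuous_const)
          fun _ => Or.inr (by norm_num))).aestronglyMeasurable (.of_forall fun x => ?_)
    rw [Real.norm_of_nonneg (Finset.sum_nonneg fun i _ => Real.rpow_nonneg
      (le_min (hw x i) (mul_pos hc ht).le) _), Finset.mul_sum]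
    refine Finset.sum_le_sum fun i _ => ?_
    rcases (le_min (hw x i) (mul_pos hc ht).le).eq_or_lt with h | h
    · rw [← h, Real.zero_rpow (by norm_num)]
      exact mul_nonneg (Real.rpow_nonneg (mul_pos hc ht).le _) (Real.rpow_nonneg (hw x i) _)
    · rw [show (3 / 2 : ℝ) = 3 / 2 - p + p by ring, Real.rpow_add h]
      ring_nf
      exact mul_le_mul (Real.rpow_le_rpow h.le (min_le_right _ _) (by linarith))
        (Real.rpow_le_rpow h.le (min_le_left _ _) (by linarith)) (Real.rpow_nonneg h.le _)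
        (Real.rpow_nonneg (mul_pos hc ht).le _)
  have hb2 : ∀ t, 0 < t → Integrable fun x =>
      ∑ i, max 0 ((hW x).isHermitian.eigenvalues i - c * t) := fun t ht => by
    refine (hi.const_mul ((c * t) ^ (1 - p))).mono'
      (measurable_sum_eigen (fun x => (hW x).isHermitian) hWm
        (continuous_const.max (continuous_id.sub continuous_const))).aestronglyMeasurable
      (.of_forall fun x => ?_)
    rw [Real.norm_of_nonneg (Finset.sum_nonneg fun i _ => le_max_left _ _), Finset.mul_sum]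
    refine Finset.sum_le_sum fun i _ => ?_
    obtain ⟨w, hwd⟩ : ∃ w, w = (hW x).isHermitian.eigenvalues i := ⟨_, rfl⟩
    have hw0 : 0 ≤ w := hwd ▸ hw x i
    rw [← hwd]
    rcases le_or_gt w (c * t) with h | h
    · rw [max_eq_left (by linarith)]
      exact mul_nonneg (Real.rpow_nonneg (mul_pos hc ht).le _) (Real.rpow_nonneg hw0 _)
    · have hwp : 0 < w := (mul_pos hc ht).trans h
      calc max 0 (w - c * t) ≤ w := max_le hw0 (by linarith [mul_pos hc ht])
        _ = w ^ (1 - p) * w ^ p := by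
          rw [← Real.rpow_add hwp, sub_add_cancel, Real.rpow_one]
        _ ≤ _ := mul_le_mul_of_nonneg_right
          (Real.rpow_le_rpow_of_nonpos (mul_pos hc ht) h.le (by linarith)) (Real.rpow_nonneg hw0 _)
  have hgi : ∀ x, ∀ t, 0 < t → ∑ i, min ((hW x).isHermitian.eigenvalues i) (c * t) ≤
      (m : ℝ) + ∑ i, (hW x).isHermitian.eigenvalues i ^ p := fun x t _ => by
    calc _ ≤ ∑ i, (1 + (hW x).isHermitian.eigenvalues i ^ p) := Finset.sum_le_sum fun i _ => by
          refine (min_le_left _ _).trans ?_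
          rcases le_or_gt ((hW x).isHermitian.eigenvalues i) 1 with h | h
          · linarith [Real.rpow_nonneg (hw x i) p]
          · linarith [Real.self_le_rpow_of_one_le h.le hp1]
      _ = _ := by rw [Finset.sum_add_distrib]; simp
  have key : ∀ t ∈ Ioi (0 : ℝ), ∑ j, t ^ (γ - 2) * min (lam j) t ≤
      4 / (3 * Real.sqrt 3 * Real.pi) / Real.sqrt th * (t ^ (γ - 2) *
          ∫ x, ∑ i, (min ((hW x).isHermitian.eigenvalues i) (c * t)) ^ (3 / 2 : ℝ)) +
        1 / Real.sqrt (1 - th) * (t ^ (γ - 3 / 2) *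
          ∫ x, ∑ i, max 0 ((hW x).isHermitian.eigenvalues i - c * t)) := fun t (ht : 0 < t) => by
    have h := split_le (f1 := fun w => min w (c * t)) (f2 := fun w => max 0 (w - c * t))
      (fun x => (hW x).isHermitian) hWm (by fun_prop) (by fun_prop)
      (fun w => by
        rcases le_or_gt w (c * t) with h | h
        · rw [min_eq_left h, max_eq_left (by linarith), add_zero]
        · rw [min_eq_right h.le, max_eq_right (by linarith), add_sub_cancel])
      (fun x i => le_min (hw x i) (mul_pos hc ht).le) (fun x i => le_max_left _ _)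
      (g := fun x => ∑ i, (hW x).isHermitian.eigenvalues i ^ p) (K := m) hi
      (fun x => Finset.sum_nonneg fun i _ => Real.rpow_nonneg (hw x i) _)
      (fun x => hgi x t ht) (hb1 t ht) (hb2 t ht) hu hus hL lam hE hth hth1 ht
    rw [← Finset.mul_sum]
    refine (mul_le_mul_of_nonneg_left h (Real.rpow_nonneg ht.le _)).trans (le_of_eq ?_)
    rw [show γ - 3 / 2 = γ - 2 + 1 / 2 by ring, Real.rpow_add ht, ← Real.sqrt_eq_rpow]
    ring
  have hlay : ∀ j, IntegrableOn (fun t => t ^ (γ - 2) * min (lam j) t) (Ioi 0) ∧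
      ∫ t in Ioi (0 : ℝ), t ^ (γ - 2) * min (lam j) t = lam j ^ γ * (1 / γ + 1 / (1 - γ)) := fun j => by
    simpa using min_pow_integral (k := 1) hγ1 (by linarith) (hlam j) one_pos
  have hR := (hA.1.const_mul (4 / (3 * Real.sqrt 3 * Real.pi) / Real.sqrt th)).add
    (hB.1.const_mul (1 / Real.sqrt (1 - th)))
  have h := setIntegral_mono_on (integrable_finsetSum _ fun j _ => (hlay j).1) hR measurableSet_Ioi key
  simp only [Pi.add_apply] at h
  rw [integral_finsetSum _ fun j _ => (hlay j).1,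
    integral_add (hA.1.const_mul _) (hB.1.const_mul _), MeasureTheory.integral_const_mul,
    MeasureTheory.integral_const_mul, hA.2, hB.2,
    Finset.sum_congr rfl fun j _ => (hlay j).2, ← Finset.sum_mul] at h
  have hγ' : γ * (1 - γ) * (1 / γ + 1 / (1 - γ)) = 1 := by
    have : γ ≠ 0 := by linarith
    have : 1 - γ ≠ 0 := by linarith
    field_simp
    ring
  calc ∑ j, lam j ^ γ = γ * (1 - γ) * ((∑ j, lam j ^ γ) * (1 / γ + 1 / (1 - γ))) := by
        rw [mul_left_comm, hγ', mul_one]
    _ ≤ _ := mul_le_mul_of_nonneg_left h (mul_nonneg (by linarith) (by linarith))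
    _ = _ := by rw [bound]; ring

/-- The bound for every family diagonalising the form on its span. -/
theorem moment_below {γ th c : ℝ} (hγ : 1 / 2 < γ) (hγ1 : γ < 1) (hth : 0 < th) (hth1 : th < 1)
    (hc : 0 < c) (hW : ∀ x, (W x).PosSemidef) (hWm : ∀ a b, Measurable fun x => W x a b)
    (hi : Integrable fun x => ∑ i, (hW x).isHermitian.eigenvalues i ^ (γ + 1 / 2))
    {u : Fin n → ℝ → Fin m → ℂ} (hu : ∀ j a, ContDiff ℝ 1 fun x => u j x a)
    (hus : ∀ j a, HasCompactSupport fun x => u j x a) (hL : gram (fun _ => 1) u = 1)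
    (lam : Fin n → ℝ)
    (hE : gram W u - gram (fun _ => 1) (dfam u) = Matrix.diagonal fun i => (lam i : ℂ)) :
    ∑ j, max 0 (lam j) ^ γ ≤
      bound γ th c * ∫ x, ∑ i, (hW x).isHermitian.eigenvalues i ^ (γ + 1 / 2) := by
  obtain ⟨S, hS⟩ : ∃ S : Finset (Fin n), S = Finset.univ.filter fun i => 0 < lam i := ⟨_, rfl⟩
  obtain ⟨e, he⟩ : ∃ e : Fin S.card ↪ Fin n, e = (S.equivFin.symm.toEmbedding).trans
      (Embedding.subtype _) := ⟨_, rfl⟩
  have hmem : ∀ i, 0 < lam (e i) := fun i => by
    have h : ∀ q ∈ S, 0 < lam q := fun q hq => by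
      rw [hS] at hq
      exact (Finset.mem_filter.1 hq).2
    rw [he]
    exact h _ (S.equivFin.symm i).2
  have hg : ∀ (M : ℝ → Matrix (Fin m) (Fin m) ℂ) (z : Fin n → ℝ → Fin m → ℂ),
      gram M (fun i => z (e i)) = (gram M z).submatrix e e := fun M z => rfl
  have h := moment_below_pos hγ hγ1 hth hth1 hc hW hWm hi (u := fun i => u (e i))
    (fun j a => hu _ a) (fun j a => hus _ a) (by rw [hg, hL, Matrix.submatrix_one e e.injective])
    (fun i => lam (e i)) (fun i => (hmem i).le)
    (by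
      rw [show dfam (fun i => u (e i)) = fun i => dfam u (e i) from rfl, hg, hg]
      have h5 := congrArg (fun M => Matrix.submatrix M e e) hE
      simpa [Matrix.submatrix_sub, Matrix.submatrix_diagonal _ _ e.injective, Function.comp_def]
        using h5)
  refine le_trans (le_of_eq ?_) h
  calc ∑ j, max 0 (lam j) ^ γ = ∑ j ∈ S, lam j ^ γ := by
        rw [hS, Finset.sum_filter]
        refine Finset.sum_congr rfl fun j _ => ?_
        split_ifs with h0
        · rw [max_eq_right h0.le]
        · rw [max_eq_left (not_lt.1 h0), Real.zero_rpow (by linarith)]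
    _ = _ := by
        rw [← Finset.sum_coe_sort S fun j => lam j ^ γ, ← S.equivFin.symm.sum_comp, he]
        rfl

end Vale.Agent.P371.Left
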