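import Vale.Agent.P371.MatrixLifting

/-!
Forms of spectral pieces of a matrix potential on finite families of vector-valued functions.
-/

namespace Vale.Agent.P371.Left

open MeasureTheory Set Filter Topology ComplexConjugate _root_.Matrix ComplexOrder
open Vale.Agent.P371.Sharp (cols cols_apply re_trace_cube diag_cube_le young_sharp energyM
  form_integrable measurable_sum_eigen trace_pow_eq)
open Vale.Agent.P371.Matrix (dens2 kinetic_matrix)

variable {m n l : ℕ}

/-- A function applied to a Hermitian matrix through its spectral decomposition. -/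
noncomputable def fmat {A : Matrix (Fin m) (Fin m) ℂ} (hA : A.IsHermitian) (f : ℝ → ℝ) :
    Matrix (Fin m) (Fin m) ℂ :=
  (hA.eigenvectorUnitary : Matrix (Fin m) (Fin m) ℂ) *
    diagonal (fun i => (f (hA.eigenvalues i) : ℂ)) *
    (hA.eigenvectorUnitary : Matrix (Fin m) (Fin m) ℂ)ᴴ

theorem fmat_id {A : Matrix (Fin m) (Fin m) ℂ} (hA : A.IsHermitian) :
    fmat hA (fun w => w) = A := by
  have := hA.spectral_theorem
  simpa [fmat, Unitary.conjStarAlgAut_apply, Matrix.star_eq_conjTranspose, Function.comp_def]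
    using this.symm

theorem fmat_add {A : Matrix (Fin m) (Fin m) ℂ} (hA : A.IsHermitian) (f g : ℝ → ℝ) :
    fmat hA (fun w => f w + g w) = fmat hA f + fmat hA g := by
  simp only [fmat]
  rw [← Matrix.add_mul, ← Matrix.mul_add, diagonal_add]
  simp only [Complex.ofReal_add]

theorem fmat_herm {A : Matrix (Fin m) (Fin m) ℂ} (hA : A.IsHermitian) (f : ℝ → ℝ) :
    (fmat hA f)ᴴ = fmat hA f := by
  simp [fmat, conjTranspose_mul, diagonal_conjTranspose, Matrix.mul_assoc, Pi.star_def]

theorem fmat_apply {A : Matrix (Fin m) (Fin m) ℂ} (hA : A.IsHermitian) (f : ℝ → ℝ) (a b : Fin m) :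
    fmat hA f a b = ∑ i, (hA.eigenvectorUnitary : Matrix (Fin m) (Fin m) ℂ) a i *
      (f (hA.eigenvalues i) : ℂ) * conj ((hA.eigenvectorUnitary : Matrix (Fin m) (Fin m) ℂ) b i) := by
  rw [fmat, Matrix.mul_apply]
  refine Finset.sum_congr rfl fun i _ => ?_
  rw [mul_diagonal, conjTranspose_apply, RCLike.star_def]

theorem entry_le_one {A : Matrix (Fin m) (Fin m) ℂ} (hA : A.IsHermitian) (a i : Fin m) :
    ‖(hA.eigenvectorUnitary : Matrix (Fin m) (Fin m) ℂ) a i‖ ≤ 1 :=
  entry_norm_bound_of_unitary hA.eigenvectorUnitary.2 a i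

theorem norm_fmat_le {A : Matrix (Fin m) (Fin m) ℂ} (hA : A.IsHermitian) (f : ℝ → ℝ) (a b : Fin m) :
    ‖fmat hA f a b‖ ≤ ∑ i, |f (hA.eigenvalues i)| := by
  rw [fmat_apply]
  refine (norm_sum_le _ _).trans (Finset.sum_le_sum fun i _ => ?_)
  rw [norm_mul, norm_mul, Complex.norm_real, Real.norm_eq_abs, RCLike.norm_conj]
  have h1 := entry_le_one hA a i
  have h2 := entry_le_one hA b i
  calc _ ≤ 1 * |f (hA.eigenvalues i)| * 1 := by gcongr
    _ = _ := by ring

theorem pow_eq_fmat {A : Matrix (Fin m) (Fin m) ℂ} (hA : A.IsHermitian) (k : ℕ) :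
    A ^ k = fmat hA (fun w => w ^ k) := by
  have hU : (hA.eigenvectorUnitary : Matrix (Fin m) (Fin m) ℂ)ᴴ *
      (hA.eigenvectorUnitary : Matrix (Fin m) (Fin m) ℂ) = 1 :=
    Unitary.coe_star_mul_self hA.eigenvectorUnitary
  induction k with
  | zero => simp [fmat, mul_eq_one_comm.mp hU]
  | succ k ih =>
    rw [pow_succ]
    rw [show A ^ k * A = fmat hA (fun w => w ^ k) * fmat hA (fun w => w) by rw [← ih, fmat_id]]
    simp only [fmat, Matrix.mul_assoc]
    rw [← Matrix.mul_assoc (hA.eigenvectorUnitary : Matrix (Fin m) (Fin m) ℂ)ᴴ, hU, Matrix.one_mul,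
      ← Matrix.mul_assoc (diagonal _) (diagonal _), diagonal_mul_diagonal]
    simp [pow_succ]

variable {W : ℝ → Matrix (Fin m) (Fin m) ℂ}

theorem measurable_fmat (hWh : ∀ x, (W x).IsHermitian) (hWm : ∀ a b, Measurable fun x => W x a b)
    {f : ℝ → ℝ} (hf : Continuous f) (a b : Fin m) : Measurable fun x => fmat (hWh x) f a b := by
  have hpow : ∀ (k : ℕ) a b, Measurable fun x => (W x ^ k) a b := by
    intro k
    induction k with
    | zero => intro a b; simp [pow_zero, Matrix.one_apply]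
    | succ k ih =>
      intro a b
      simp only [pow_succ, Matrix.mul_apply]
      exact Finset.measurable_sum _ fun c _ => (ih a c).mul (hWm c b)
  choose p hp using fun n : ℕ => exists_polynomial_near_of_continuousOn (-(n : ℝ)) n f
    hf.continuousOn (1 / ((n : ℝ) + 1)) (by positivity)
  have he : ∀ j x, fmat (hWh x) (fun w => (p j).eval w) a b =
      ∑ k ∈ Finset.range ((p j).natDegree + 1), ((p j).coeff k : ℂ) * (W x ^ k) a b := fun j x => by
    simp only [pow_eq_fmat (hWh x), fmat_apply, Finset.mul_sum]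
    rw [Finset.sum_comm]
    refine Finset.sum_congr rfl fun i _ => ?_
    rw [(p j).eval_eq_sum_range]
    push_cast
    rw [Finset.mul_sum, Finset.sum_mul]
    exact Finset.sum_congr rfl fun k _ => by ring
  refine measurable_of_tendsto_metrizable
    (f := fun j x => fmat (hWh x) (fun w => (p j).eval w) a b) (fun j => ?_)
    (tendsto_pi_nhds.2 fun x => ?_)
  · simp only [he]
    exact Finset.measurable_sum _ fun k _ => (hpow k a b).const_mul _
  simp only [fmat_apply]
  refine tendsto_finsetSum _ fun i _ => ((Complex.continuous_ofReal.tendsto _).comp ?_ |>.const_mul _).mul_const _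
  obtain ⟨n₀, hn₀⟩ := exists_nat_ge |(hWh x).eigenvalues i|
  refine tendsto_iff_dist_tendsto_zero.2 (squeeze_zero' (.of_forall fun n => dist_nonneg) ?_
    tendsto_one_div_add_atTop_nhds_zero_nat)
  filter_upwards [eventually_ge_atTop n₀] with n hn
  refine (hp n _ ?_).le
  exact abs_le.1 (hn₀.trans (Nat.cast_le.2 hn))

/-- The rotated family against a spectral piece. -/
theorem fmat_rotate {A : Matrix (Fin m) (Fin m) ℂ} (hA : A.IsHermitian) (f : ℝ → ℝ) {ι : Type*}
    [Fintype ι] (v : ι → Fin m → ℂ) :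
    ∑ j, (star (v j) ⬝ᵥ fmat hA f *ᵥ v j).re = ∑ i, f (hA.eigenvalues i) *
      ∑ j, ‖((hA.eigenvectorUnitary : Matrix (Fin m) (Fin m) ℂ)ᴴ * cols v) i j‖ ^ 2 := by
  set U : Matrix (Fin m) (Fin m) ℂ := (hA.eigenvectorUnitary : Matrix (Fin m) (Fin m) ℂ)
  set d : Matrix (Fin m) (Fin m) ℂ := diagonal fun i => (f (hA.eigenvalues i) : ℂ)
  set X := cols v with hX
  have h1 : ∀ j, star (v j) ⬝ᵥ fmat hA f *ᵥ v j = (Xᴴ * fmat hA f * X) j j := fun j => by
    simp only [hX, cols, Matrix.mul_apply, dotProduct, mulVec, Finset.mul_sum, Finset.sum_mul,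
      conjTranspose_apply, Matrix.of_apply, Pi.star_apply]
    rw [Finset.sum_comm]
    exact Finset.sum_congr rfl fun a _ => Finset.sum_congr rfl fun b _ => by ring
  have h2 : Xᴴ * fmat hA f * X = (Uᴴ * X)ᴴ * d * (Uᴴ * X) := by
    rw [conjTranspose_mul, conjTranspose_conjTranspose, fmat]
    simp only [Matrix.mul_assoc, U, d]
  simp only [h1, h2]
  have h3 : ∀ j, (((Uᴴ * X)ᴴ * d * (Uᴴ * X)) j j).re =
      ∑ i, f (hA.eigenvalues i) * ‖(Uᴴ * X) i j‖ ^ 2 := fun j => by
    rw [Matrix.mul_apply, Complex.re_sum]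
    refine Finset.sum_congr rfl fun i _ => ?_
    simp only [d, mul_diagonal, conjTranspose_apply, RCLike.star_def]
    rw [show conj ((Uᴴ * X) i j) * (f (hA.eigenvalues i) : ℂ) * (Uᴴ * X) i j =
      (f (hA.eigenvalues i) : ℂ) * ((Uᴴ * X) i j * conj ((Uᴴ * X) i j)) by ring, Complex.mul_conj,
      Complex.re_ofReal_mul, Complex.ofReal_re, Complex.normSq_eq_norm_sq]
  simp only [h3, Finset.mul_sum]
  exact Finset.sum_comm

theorem cube_rotate {A : Matrix (Fin m) (Fin m) ℂ} (hA : A.IsHermitian) {ι : Type*}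
    [Fintype ι] (v : ι → Fin m → ℂ) :
    ∑ i, (∑ j, ‖((hA.eigenvectorUnitary : Matrix (Fin m) (Fin m) ℂ)ᴴ * cols v) i j‖ ^ 2) ^ 3 ≤
      (∑ a, ∑ b, ∑ c, (∑ j, v j a * conj (v j b)) * (∑ j, v j b * conj (v j c)) *
        (∑ j, v j c * conj (v j a))).re := by
  set U : Matrix (Fin m) (Fin m) ℂ := (hA.eigenvectorUnitary : Matrix (Fin m) (Fin m) ℂ)
  have hU : Uᴴ * U = 1 := Unitary.coe_star_mul_self hA.eigenvectorUnitary
  have hU' : U * Uᴴ = 1 := mul_eq_one_comm.mp hU
  refine (Finset.sum_le_sum fun i _ => diag_cube_le (Uᴴ * cols v) i).trans (le_of_eq ?_)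
  have h := re_trace_cube (cols v * (cols v)ᴴ)
  simp only [cols_apply] at h
  rw [← h, ← Complex.re_sum]
  show (Matrix.trace _ : ℂ).re = _
  congr 1
  simp only [conjTranspose_mul, conjTranspose_conjTranspose, Matrix.mul_assoc]
  simp only [← Matrix.mul_assoc U, hU', Matrix.one_mul]
  rw [trace_mul_comm]
  simp only [Matrix.mul_assoc, hU', Matrix.mul_one]

/-- Linear combinations with the columns of a coefficient matrix. -/
noncomputable def comb (C : Matrix (Fin n) (Fin l) ℂ) (u : Fin n → ℝ → Fin m → ℂ) :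
    Fin l → ℝ → Fin m → ℂ :=
  fun i x a => ∑ j, C j i * u j x a

/-- Componentwise derivatives. -/
noncomputable def dfam (u : Fin n → ℝ → Fin m → ℂ) : Fin n → ℝ → Fin m → ℂ :=
  fun j x a => deriv (fun y => u j y a) x

/-- The matrix of a form on a family. -/
noncomputable def gram (M : ℝ → Matrix (Fin m) (Fin m) ℂ) (u : Fin n → ℝ → Fin m → ℂ) :
    Matrix (Fin n) (Fin n) ℂ :=
  Matrix.of fun i j => ∫ x, star (u i x) ⬝ᵥ M x *ᵥ u j x

theorem gram_comb {M : ℝ → Matrix (Fin m) (Fin m) ℂ} {u : Fin n → ℝ → Fin m → ℂ}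
    (hi : ∀ i j, Integrable fun x => star (u i x) ⬝ᵥ M x *ᵥ u j x)
    (C : Matrix (Fin n) (Fin l) ℂ) : gram M (comb C u) = Cᴴ * gram M u * C := by
  ext i j
  have e : ∀ x, star (comb C u i x) ⬝ᵥ M x *ᵥ comb C u j x =
      ∑ q, ∑ p, conj (C p i) * (star (u p x) ⬝ᵥ M x *ᵥ u q x) * C q j := fun x => by
    conv_rhs => rw [Finset.sum_comm]
    simp only [comb, dotProduct, mulVec, Pi.star_apply, RCLike.star_def, map_sum, map_mul,
      Finset.mul_sum, Finset.sum_mul]
    rw [Finset.sum_congr rfl fun a (_ : a ∈ (Finset.univ : Finset (Fin m))) => by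
      rw [Finset.sum_congr rfl fun b (_ : b ∈ (Finset.univ : Finset (Fin m))) => Finset.sum_comm]
      , Finset.sum_congr rfl fun a (_ : a ∈ (Finset.univ : Finset (Fin m))) => Finset.sum_comm,
      Finset.sum_comm]
    refine Finset.sum_congr rfl fun q _ => ?_
    rw [Finset.sum_congr rfl fun a (_ : a ∈ (Finset.univ : Finset (Fin m))) => Finset.sum_comm,
      Finset.sum_comm]
    refine Finset.sum_congr rfl fun p _ => Finset.sum_congr rfl fun a _ =>
      Finset.sum_congr rfl fun b _ => by ring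
  simp only [gram, Matrix.of_apply, e, Matrix.mul_apply, conjTranspose_apply, RCLike.star_def,
    Finset.sum_mul]
  rw [integral_finsetSum _ fun q _ => integrable_finsetSum _ fun p _ => ((hi p q).const_mul _).mul_const _]
  refine Finset.sum_congr rfl fun q _ => ?_
  rw [integral_finsetSum _ fun p _ => ((hi p q).const_mul _).mul_const _]
  exact Finset.sum_congr rfl fun p _ => by
    rw [MeasureTheory.integral_mul_const, MeasureTheory.integral_const_mul]

theorem comb_smooth {u : Fin n → ℝ → Fin m → ℂ} (hu : ∀ j a, ContDiff ℝ 1 fun x => u j x a)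
    (hs : ∀ j a, HasCompactSupport fun x => u j x a) (C : Matrix (Fin n) (Fin l) ℂ) :
    (∀ i a, ContDiff ℝ 1 fun x => comb C u i x a) ∧
      (∀ i a, HasCompactSupport fun x => comb C u i x a) ∧
      dfam (comb C u) = comb C (dfam u) := by
  refine ⟨fun i a => ContDiff.sum fun j _ => contDiff_const.mul (hu j a), fun i a => ?_, ?_⟩
  · refine HasCompactSupport.intro (isCompact_iUnion fun j => hs j a) fun x hx => ?_
    simp only [mem_iUnion, not_exists] at hx
    exact Finset.sum_eq_zero fun j _ => by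
      rw [image_eq_zero_of_notMem_tsupport (f := fun y => u j y a) (hx j), mul_zero]
  · funext i x a
    simp only [dfam, comb]
    exact ((HasDerivAt.fun_sum fun j _ =>
      (((hu j a).differentiable one_ne_zero x).hasDerivAt.const_mul (C j i)))).deriv

theorem integrable_pair {M : ℝ → Matrix (Fin m) (Fin m) ℂ}
    (hMm : ∀ a b, Measurable fun x => M x a b) {g : ℝ → ℝ} (hg : Integrable g)
    (hg1 : ∀ x, 0 ≤ g x)
    {K : ℝ} (hMg : ∀ x a b, ‖M x a b‖ ≤ K + g x) {v w : ℝ → Fin m → ℂ}
    (hv : ∀ a, Continuous fun x => v x a) (hw : ∀ a, Continuous fun x => w x a)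
    (hws : ∀ a, HasCompactSupport fun x => w x a) :
    Integrable fun x => star (v x) ⬝ᵥ M x *ᵥ w x := by
  simp only [dotProduct, mulVec, Pi.star_apply, Finset.mul_sum]
  refine integrable_finsetSum _ fun a _ => integrable_finsetSum _ fun b _ => ?_
  have hc : Continuous fun x => star (v x a) * w x b :=
    (Complex.continuous_conj.comp (hv a)).mul (hw b)
  have hcs : HasCompactSupport fun x => star (v x a) * w x b := (hws b).mul_left
  obtain ⟨B, hB⟩ := hc.bounded_above_of_compact_support hcs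
  have hn : Integrable fun x => ‖star (v x a) * w x b‖ := (hc.integrable_of_hasCompactSupport hcs).norm
  refine ((hn.const_mul K).add (hg.const_mul B)).mono' ((Complex.continuous_conj.comp (hv a)).measurable.mul
    ((hMm a b).mul (hw b).measurable)).aestronglyMeasurable (.of_forall fun x => ?_)
  have hg0 : 0 ≤ K + g x := (norm_nonneg _).trans (hMg x a b)
  simp only [Pi.add_apply]
  rw [show star (v x a) * (M x a b * w x b) = M x a b * (star (v x a) * w x b) by ring, norm_mul]
  calc ‖M x a b‖ * ‖star (v x a) * w x b‖ ≤ (K + g x) * ‖star (v x a) * w x b‖ :=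
        mul_le_mul_of_nonneg_right (hMg x a b) (norm_nonneg _)
    _ ≤ _ := by nlinarith [mul_le_mul_of_nonneg_left (hB x) (hg1 x)]

end Vale.Agent.P371.Left
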