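import Vale.Agent.P371.LeftMoment

/-!
The layer integrals that turn the split bound into a bound for moments of order below one.
-/

namespace Vale.Agent.P371.Left

open MeasureTheory Set

theorem min_pow_integral {γ k w c : ℝ} (hγ : γ < 1) (hk : 1 - γ < k) (hw : 0 ≤ w) (hc : 0 < c) :
    IntegrableOn (fun t => t ^ (γ - 2) * (min w (c * t)) ^ k) (Ioi 0) ∧
      ∫ t in Ioi (0 : ℝ), t ^ (γ - 2) * (min w (c * t)) ^ k =
        c ^ (1 - γ) * w ^ (γ - 1 + k) * (1 / (γ - 1 + k) + 1 / (1 - γ)) := by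
  rcases hw.eq_or_lt with rfl | hw0
  · have h : EqOn (fun t => t ^ (γ - 2) * (min 0 (c * t)) ^ k) (fun _ => 0) (Ioi 0) := fun t ht => by
      simp [min_eq_left (mul_pos hc ht).le, Real.zero_rpow (by linarith : k ≠ 0)]
    refine ⟨integrableOn_zero.congr_fun h.symm measurableSet_Ioi, ?_⟩
    rw [setIntegral_congr_fun measurableSet_Ioi h, Real.zero_rpow (by linarith : γ - 1 + k ≠ 0)]
    simp
  obtain ⟨a, ha⟩ : ∃ a, a = w / c := ⟨_, rfl⟩
  have ha0 : 0 < a := ha ▸ div_pos hw0 hc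
  have hca : c * a = w := by rw [ha]; field_simp
  have h1 : EqOn (fun t => c ^ k * t ^ (γ - 2 + k))
      (fun t => t ^ (γ - 2) * (min w (c * t)) ^ k) (Ioc 0 a) := fun t ht => by
    simp only
    rw [min_eq_right (hca ▸ mul_le_mul_of_nonneg_left ht.2 hc.le), Real.mul_rpow hc.le ht.1.le,
      Real.rpow_add ht.1]
    ring
  have h2 : EqOn (fun t => w ^ k * t ^ (γ - 2))
      (fun t => t ^ (γ - 2) * (min w (c * t)) ^ k) (Ioi a) := fun t ht => by
    simp only
    rw [min_eq_left (hca ▸ mul_le_mul_of_nonneg_left (le_of_lt ht) hc.le)]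
    ring
  have i1 := (((intervalIntegral.intervalIntegrable_rpow' (a := 0) (b := a)
    (by linarith : -1 < γ - 2 + k)).const_mul (c ^ k)).1).congr_fun h1 measurableSet_Ioc
  have i2 : IntegrableOn (fun t => t ^ (γ - 2) * (min w (c * t)) ^ k) (Ioi a) :=
    IntegrableOn.congr_fun ((integrableOn_Ioi_rpow_of_lt (by linarith : γ - 2 < -1) ha0).const_mul
      (w ^ k)) h2 measurableSet_Ioi
  have e : Ioc 0 a ∪ Ioi a = Ioi (0 : ℝ) := Ioc_union_Ioi_eq_Ioi ha0.le
  refine ⟨e ▸ i1.union i2, ?_⟩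
  rw [← e, setIntegral_union (Ioc_disjoint_Ioi le_rfl) measurableSet_Ioi i1 i2,
    ← setIntegral_congr_fun measurableSet_Ioc h1, ← setIntegral_congr_fun measurableSet_Ioi h2,
    MeasureTheory.integral_const_mul, MeasureTheory.integral_const_mul,
    ← intervalIntegral.integral_of_le ha0.le, integral_rpow (Or.inl (by linarith)),
    integral_Ioi_rpow_of_lt (by linarith) ha0, Real.zero_rpow (by linarith : γ - 2 + k + 1 ≠ 0)]
  have e1 : c ^ k * a ^ (γ - 2 + k + 1) = c ^ (1 - γ) * w ^ (γ - 1 + k) := by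
    rw [ha, Real.div_rpow hw0.le hc.le, show γ - 2 + k + 1 = γ - 1 + k by ring,
      show 1 - γ = k - (γ - 1 + k) by ring, Real.rpow_sub hc]
    ring
  have e2 : w ^ k * a ^ (γ - 2 + 1) = c ^ (1 - γ) * w ^ (γ - 1 + k) := by
    rw [ha, Real.div_rpow hw0.le hc.le, show γ - 2 + 1 = -(1 - γ) by ring, Real.rpow_neg hc.le,
      show γ - 1 + k = k + -(1 - γ) by ring, Real.rpow_add hw0]
    field_simp
  rw [sub_zero, ← mul_div_assoc, e1, neg_div, mul_neg, ← mul_div_assoc, e2,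
    show γ - 2 + k + 1 = γ - 1 + k by ring, show γ - 2 + 1 = -(1 - γ) by ring, div_neg, neg_neg]
  ring

theorem max_integral {γ w c : ℝ} (hγ : 1 / 2 < γ) (hw : 0 ≤ w) (hc : 0 < c) :
    IntegrableOn (fun t => t ^ (γ - 3 / 2) * max 0 (w - c * t)) (Ioi 0) ∧
      ∫ t in Ioi (0 : ℝ), t ^ (γ - 3 / 2) * max 0 (w - c * t) =
        c ^ (1 / 2 - γ) * w ^ (γ + 1 / 2) * (1 / (γ - 1 / 2) - 1 / (γ + 1 / 2)) := by
  rcases hw.eq_or_lt with rfl | hw0
  · have h : EqOn (fun t => t ^ (γ - 3 / 2) * max 0 (0 - c * t)) (fun _ => 0) (Ioi 0) :=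
      fun t ht => by simp [(mul_pos hc ht).le]
    refine ⟨integrableOn_zero.congr_fun h.symm measurableSet_Ioi, ?_⟩
    rw [setIntegral_congr_fun measurableSet_Ioi h, Real.zero_rpow (by linarith : γ + 1 / 2 ≠ 0)]
    simp
  obtain ⟨a, ha⟩ : ∃ a, a = w / c := ⟨_, rfl⟩
  have ha0 : 0 < a := ha ▸ div_pos hw0 hc
  have hca : c * a = w := by rw [ha]; field_simp
  have h1 : EqOn (fun t => w * t ^ (γ - 3 / 2) - c * t ^ (γ - 1 / 2))
      (fun t => t ^ (γ - 3 / 2) * max 0 (w - c * t)) (Ioc 0 a) := fun t ht => by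
    simp only
    rw [max_eq_right (sub_nonneg.2 (hca ▸ mul_le_mul_of_nonneg_left ht.2 hc.le)),
      show γ - 1 / 2 = γ - 3 / 2 + 1 by ring, Real.rpow_add ht.1, Real.rpow_one]
    ring
  have h2 : EqOn (fun _ => 0) (fun t => t ^ (γ - 3 / 2) * max 0 (w - c * t)) (Ioi a) :=
    fun t ht => by
      simp only
      rw [max_eq_left (sub_nonpos.2 (hca ▸ mul_le_mul_of_nonneg_left (le_of_lt ht) hc.le)), mul_zero]
  have j1 := (intervalIntegral.intervalIntegrable_rpow' (a := 0) (b := a)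
    (by linarith : -1 < γ - 3 / 2)).const_mul w
  have j2 := (intervalIntegral.intervalIntegrable_rpow' (a := 0) (b := a)
    (by linarith : -1 < γ - 1 / 2)).const_mul c
  have i1 := ((j1.sub j2).1).congr_fun h1 measurableSet_Ioc
  have i2 : IntegrableOn (fun t => t ^ (γ - 3 / 2) * max 0 (w - c * t)) (Ioi a) :=
    integrableOn_zero.congr_fun h2 measurableSet_Ioi
  have e : Ioc 0 a ∪ Ioi a = Ioi (0 : ℝ) := Ioc_union_Ioi_eq_Ioi ha0.le
  refine ⟨e ▸ i1.union i2, ?_⟩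
  rw [← e, setIntegral_union (Ioc_disjoint_Ioi le_rfl) measurableSet_Ioi i1 i2,
    ← setIntegral_congr_fun measurableSet_Ioc h1, ← setIntegral_congr_fun measurableSet_Ioi h2,
    ← intervalIntegral.integral_of_le ha0.le, intervalIntegral.integral_sub j1 j2,
    intervalIntegral.integral_const_mul, intervalIntegral.integral_const_mul,
    integral_rpow (Or.inl (by linarith)), integral_rpow (Or.inl (by linarith)),
    Real.zero_rpow (by linarith : γ - 3 / 2 + 1 ≠ 0),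
    Real.zero_rpow (by linarith : γ - 1 / 2 + 1 ≠ 0)]
  have e1 : w * a ^ (γ - 1 / 2) = c ^ (1 / 2 - γ) * w ^ (γ + 1 / 2) := by
    rw [ha, Real.div_rpow hw0.le hc.le, show 1 / 2 - γ = -(γ - 1 / 2) by ring, Real.rpow_neg hc.le,
      show γ + 1 / 2 = γ - 1 / 2 + 1 by ring, Real.rpow_add hw0, Real.rpow_one]
    ring
  have e2 : c * a ^ (γ + 1 / 2) = c ^ (1 / 2 - γ) * w ^ (γ + 1 / 2) := by
    rw [ha, Real.div_rpow hw0.le hc.le, show 1 / 2 - γ = 1 - (γ + 1 / 2) by ring, Real.rpow_sub hc,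
      Real.rpow_one]
    ring
  rw [integral_zero, add_zero, sub_zero, sub_zero, show γ - 3 / 2 + 1 = γ - 1 / 2 by ring,
    show γ - 1 / 2 + 1 = γ + 1 / 2 by ring, ← mul_div_assoc, ← mul_div_assoc, e1, e2]
  ring

end Vale.Agent.P371.Left
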