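import Vale.Agent.P371.LeftForms

/-!
Eigenvalue moments of order below one: the potential is split into a bounded part, controlled by
the inequality at exponent one, and a tail, controlled by counting.
-/

namespace Vale.Agent.P371.Left

open MeasureTheory Set Filter Topology ComplexConjugate _root_.Matrix ComplexOrder
open Vale.Agent.P371.Sharp (cols cols_apply young_sharp energyM form_integrable
  measurable_sum_eigen)
open Vale.Agent.P371.Matrix (dens2 kinetic_matrix)

variable {m n l : ℕ}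

theorem one_apply_norm (a b : Fin m) : ‖(1 : Matrix (Fin m) (Fin m) ℂ) a b‖ ≤ 1 + 0 := by
  rw [Matrix.one_apply]
  split_ifs <;> simp

theorem star_one_mulVec (v : Fin m → ℂ) :
    (star v ⬝ᵥ (1 : Matrix (Fin m) (Fin m) ℂ) *ᵥ v).re = ∑ a, ‖v a‖ ^ 2 := by
  rw [one_mulVec, dotProduct, Complex.re_sum]
  exact Finset.sum_congr rfl fun a _ => by
    rw [Pi.star_apply, RCLike.star_def, mul_comm, Complex.mul_conj, Complex.ofReal_re,
      Complex.normSq_eq_norm_sq]

theorem integrable_one {v w : ℝ → Fin m → ℂ} (hv : ∀ a, Continuous fun x => v x a)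
    (hw : ∀ a, Continuous fun x => w x a) (hws : ∀ a, HasCompactSupport fun x => w x a) :
    Integrable fun x => star (v x) ⬝ᵥ (1 : Matrix (Fin m) (Fin m) ℂ) *ᵥ w x :=
  integrable_pair (M := fun _ : ℝ => (1 : Matrix (Fin m) (Fin m) ℂ)) (fun a b => measurable_const)
    (g := fun _ => (0 : ℝ)) (integrable_zero ℝ ℝ volume) (fun _ => le_rfl) (K := 1)
    (fun _ a b => one_apply_norm a b) hv hw hws

theorem gram_re {M : ℝ → Matrix (Fin m) (Fin m) ℂ} {u : Fin n → ℝ → Fin m → ℂ} (i : Fin n)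
    (h : Integrable fun x => star (u i x) ⬝ᵥ M x *ᵥ u i x) :
    (gram M u i i).re = ∫ x, (star (u i x) ⬝ᵥ M x *ᵥ u i x).re := by
  rw [gram, Matrix.of_apply]
  exact (integral_re h).symm

/-- A Sobolev bound for compactly supported scalar functions. -/
theorem sup_le {h : ℝ → ℂ} (hh : ContDiff ℝ 1 h) (hs : HasCompactSupport h) {th s : ℝ}
    (hth : 0 < th) (hs0 : 0 < s) (x : ℝ) :
    ‖h x‖ ^ 2 * (2 * Real.sqrt (th * s)) ≤
      th * (∫ y, ‖deriv h y‖ ^ 2) + s * ∫ y, ‖h y‖ ^ 2 := by
  obtain ⟨r, hr⟩ := (isBounded_iff_forall_norm_le.1 hs.isCompact.isBounded)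
  obtain ⟨R, hR⟩ : ∃ R, R = |r| + |x| + 1 := ⟨_, rfl⟩
  have hzero : ∀ y, y ∉ Ioo (-R) R → y ∉ tsupport h := fun y hy hm => by
    have := hr y hm
    rw [Real.norm_eq_abs, abs_le] at this
    exact hy ⟨by linarith [le_abs_self r, abs_nonneg x], by linarith [le_abs_self r, abs_nonneg x]⟩
  have hh0 : ∀ y, y ∉ Ioo (-R) R → h y = 0 := fun y hy =>
    image_eq_zero_of_notMem_tsupport (hzero y hy)
  have hd0 : ∀ y, y ∉ Ioo (-R) R → deriv h y = 0 := fun y hy =>
    Function.notMem_support.1 fun h' => hzero y hy (support_deriv_subset h')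
  have hd : ∀ y, HasDerivAt h (deriv h y) y := fun y => (hh.differentiable one_ne_zero y).hasDerivAt
  have hdc : Continuous (deriv h) := hh.continuous_deriv le_rfl
  have hc : Continuous h := hh.continuous
  have hN : ∀ y, HasDerivAt (fun y => ‖h y‖ ^ 2) (2 * inner ℝ (h y) (deriv h y)) y :=
    fun y => (hd y).norm_sq
  have hNc : Continuous fun y => 2 * inner ℝ (h y) (deriv h y) := by fun_prop
  have hFc : Continuous fun y => th * ‖deriv h y‖ ^ 2 + s * ‖h y‖ ^ 2 := by fun_prop
  have key : ∀ y, |2 * inner ℝ (h y) (deriv h y)| * Real.sqrt (th * s) ≤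
      th * ‖deriv h y‖ ^ 2 + s * ‖h y‖ ^ 2 := fun y => by
    rw [abs_mul, abs_two, Real.sqrt_mul hth.le]
    have h1 := mul_le_mul_of_nonneg_right (abs_real_inner_le_norm (h y) (deriv h y))
      (mul_nonneg (Real.sqrt_nonneg th) (Real.sqrt_nonneg s))
    nlinarith [sq_nonneg (Real.sqrt th * ‖deriv h y‖ - Real.sqrt s * ‖h y‖), Real.sq_sqrt hth.le,
      Real.sq_sqrt hs0.le]
  have hx1 : -R ≤ x := by rw [hR]; linarith [neg_abs_le x, abs_nonneg r]
  have hx2 : x ≤ R := by rw [hR]; linarith [le_abs_self x, abs_nonneg r]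
  have e1 := intervalIntegral.integral_eq_sub_of_hasDerivAt (fun y _ => hN y)
    (hNc.intervalIntegrable (μ := volume) (-R) x)
  have e2 := intervalIntegral.integral_eq_sub_of_hasDerivAt (fun y _ => hN y)
    (hNc.intervalIntegrable (μ := volume) x R)
  rw [hh0 (-R) fun h => lt_irrefl _ h.1] at e1
  rw [hh0 R fun h => lt_irrefl _ h.2] at e2
  simp only [norm_zero, ne_eq, OfNat.ofNat_ne_zero, not_false_eq_true, zero_pow] at e1 e2
  have hsp : 0 ≤ Real.sqrt (th * s) := Real.sqrt_nonneg _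
  have b1 : ‖h x‖ ^ 2 * Real.sqrt (th * s) ≤
      ∫ y in -R..x, (th * ‖deriv h y‖ ^ 2 + s * ‖h y‖ ^ 2) := by
    rw [show ‖h x‖ ^ 2 = ∫ y in -R..x, 2 * inner ℝ (h y) (deriv h y) by linarith,
      ← intervalIntegral.integral_mul_const]
    exact intervalIntegral.integral_mono_on hx1 ((hNc.mul continuous_const).intervalIntegrable _ _)
      (hFc.intervalIntegrable _ _) fun y _ =>
        (mul_le_mul_of_nonneg_right (le_abs_self _) hsp).trans (key y)
  have b2 : ‖h x‖ ^ 2 * Real.sqrt (th * s) ≤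
      ∫ y in x..R, (th * ‖deriv h y‖ ^ 2 + s * ‖h y‖ ^ 2) := by
    rw [show ‖h x‖ ^ 2 = -∫ y in x..R, 2 * inner ℝ (h y) (deriv h y) by linarith,
      ← intervalIntegral.integral_neg, ← intervalIntegral.integral_mul_const]
    exact intervalIntegral.integral_mono_on hx2 ((hNc.neg.mul continuous_const).intervalIntegrable _ _)
      (hFc.intervalIntegrable _ _) fun y _ =>
        (mul_le_mul_of_nonneg_right (neg_le_abs _) hsp).trans (key y)
  have e3 := intervalIntegral.integral_add_adjacent_intervals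
    (hFc.intervalIntegrable (μ := volume) (-R) x) (hFc.intervalIntegrable x R)
  have heq : ∀ F : ℝ → ℝ, (∀ y, y ∉ Ioo (-R) R → F y = 0) → ∫ y, F y = ∫ y in -R..R, F y :=
    fun F hF => (intervalIntegral.integral_eq_integral_of_support_subset fun y hy =>
      Ioo_subset_Ioc_self (by_contra fun h => hy (hF y h))).symm
  have i1 : IntervalIntegrable (fun y => th * ‖deriv h y‖ ^ 2) volume (-R) R :=
    (continuous_const.mul (hdc.norm.pow 2)).intervalIntegrable _ _
  have i2 : IntervalIntegrable (fun y => s * ‖h y‖ ^ 2) volume (-R) R :=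
    (continuous_const.mul (hc.norm.pow 2)).intervalIntegrable _ _
  rw [heq _ (fun y hy => by simp [hd0 y hy]), heq _ (fun y hy => by simp [hh0 y hy]),
    ← intervalIntegral.integral_const_mul, ← intervalIntegral.integral_const_mul,
    ← intervalIntegral.integral_add i1 i2]
  linarith

/-- Bessel's bound for a family orthonormal in the Sobolev form. -/
theorem bessel_sup {e : Fin l → ℝ → Fin m → ℂ} (he : ∀ i a, ContDiff ℝ 1 fun x => e i x a)
    (hes : ∀ i a, HasCompactSupport fun x => e i x a) {th s : ℝ} (hth : 0 < th) (hs : 0 < s)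
    (hQ : (th : ℂ) • gram (fun _ => 1) (dfam e) + (s : ℂ) • gram (fun _ => 1) e = 1)
    {A : Matrix (Fin m) (Fin m) ℂ} (hA : A.IsHermitian) (x : ℝ) (k : Fin m) :
    ∑ i, ‖((hA.eigenvectorUnitary : Matrix (Fin m) (Fin m) ℂ)ᴴ * cols fun i => e i x) k i‖ ^ 2 ≤
      1 / (2 * Real.sqrt (th * s)) := by
  set U : Matrix (Fin m) (Fin m) ℂ := (hA.eigenvectorUnitary : Matrix (Fin m) (Fin m) ℂ) with hU
  obtain ⟨V, hV⟩ : ∃ V, V = (Uᴴ * cols fun i => e i x) := ⟨_, rfl⟩
  obtain ⟨S, hS⟩ : ∃ S, S = ∑ i, ‖V k i‖ ^ 2 := ⟨_, rfl⟩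
  rw [← hV, ← hS]
  obtain ⟨C, hC⟩ : ∃ C : Matrix (Fin l) (Fin 1) ℂ, C = Matrix.of fun i _ => conj (V k i) := ⟨_, rfl⟩
  obtain ⟨hg1, hg2, hgd⟩ := comb_smooth he hes C
  obtain ⟨h, hh⟩ : ∃ h : ℝ → ℂ, h = fun y => ∑ a, conj (U a k) * comb C e 0 y a := ⟨_, rfl⟩
  have hh1 : ContDiff ℝ 1 h := hh ▸ ContDiff.sum fun a _ => contDiff_const.mul (hg1 0 a)
  have hh2 : HasCompactSupport h := by
    refine HasCompactSupport.intro (isCompact_iUnion fun a => hg2 0 a) fun y hy => ?_
    simp only [mem_iUnion, not_exists] at hy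
    rw [hh]
    exact Finset.sum_eq_zero fun a _ => by
      rw [image_eq_zero_of_notMem_tsupport (f := fun y => comb C e 0 y a) (hy a), mul_zero]
  have hhd : ∀ y, deriv h y = ∑ a, conj (U a k) * dfam (comb C e) 0 y a := fun y => by
    rw [hh]
    exact (HasDerivAt.fun_sum fun a _ =>
      (((hg1 0 a).differentiable one_ne_zero y).hasDerivAt.const_mul _)).deriv
  have hunit : ∑ a, ‖conj (U a k)‖ ^ 2 = 1 := by
    have h1 := congrFun (congrFun (Unitary.coe_star_mul_self hA.eigenvectorUnitary) k) k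
    rw [← hU, Matrix.mul_apply, Matrix.one_apply_eq] at h1
    have h2 := congrArg Complex.re h1
    simp only [Complex.re_sum, Complex.one_re, Matrix.star_apply] at h2
    rw [← h2]
    exact Finset.sum_congr rfl fun a _ => by
      rw [RCLike.norm_conj, RCLike.star_def, mul_comm, Complex.mul_conj, Complex.ofReal_re,
        Complex.normSq_eq_norm_sq]
  have hcs : ∀ z : Fin m → ℂ, ‖∑ a, conj (U a k) * z a‖ ^ 2 ≤ ∑ a, ‖z a‖ ^ 2 := fun z => by
    refine (pow_le_pow_left₀ (norm_nonneg _) (norm_sum_le _ _) 2).trans ?_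
    simp only [norm_mul]
    refine (Finset.sum_mul_sq_le_sq_mul_sq _ _ _).trans (le_of_eq ?_)
    rw [hunit, one_mul]
  have hhx : h x = (S : ℂ) := by
    rw [hh, hS, Complex.ofReal_sum]
    simp only [comb, hC, Matrix.of_apply, Finset.mul_sum]
    rw [Finset.sum_comm]
    refine Finset.sum_congr rfl fun i _ => ?_
    rw [← Complex.normSq_eq_norm_sq, ← Complex.mul_conj]
    obtain ⟨z, hz⟩ : ∃ z, z = V k i := ⟨_, rfl⟩
    rw [← hz]
    have hzs : z = ∑ a, conj (U a k) * e i x a := by
      rw [hz, hV, Matrix.mul_apply]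
      simp [cols, conjTranspose_apply]
    nth_rw 2 [hzs]
    rw [Finset.sum_mul]
    exact Finset.sum_congr rfl fun a _ => by ring
  have hcd : ∀ i a, Continuous fun y => dfam (comb C e) i y a := fun i a =>
    (hg1 i a).continuous_deriv le_rfl
  have hds : ∀ i a, HasCompactSupport fun y => dfam (comb C e) i y a := fun i a => (hg2 i a).deriv
  have hIe : ∀ i j, Integrable fun y => star (e i y) ⬝ᵥ (1 : Matrix (Fin m) (Fin m) ℂ) *ᵥ e j y :=
    fun i j => integrable_one (fun a => (he i a).continuous) (fun a => (he j a).continuous) (hes j)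
  have hId : ∀ i j, Integrable fun y =>
      star (dfam e i y) ⬝ᵥ (1 : Matrix (Fin m) (Fin m) ℂ) *ᵥ dfam e j y := fun i j =>
    integrable_one (fun a => (he i a).continuous_deriv le_rfl)
      (fun a => (he j a).continuous_deriv le_rfl) fun a => (hes j a).deriv
  have hq : th * (∫ y, ‖deriv h y‖ ^ 2) + s * ∫ y, ‖h y‖ ^ 2 ≤ S := by
    have i1 := integrable_one (hcd 0) (hcd 0) (hds 0)
    have i2 := integrable_one (fun a => (hg1 0 a).continuous) (fun a => (hg1 0 a).continuous)
      (hg2 0)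
    have g1 : ∫ y, ‖deriv h y‖ ^ 2 ≤ (gram (fun _ => 1) (dfam (comb C e)) 0 0).re := by
      rw [gram_re 0 i1]
      refine integral_mono_of_nonneg (.of_forall fun y => sq_nonneg _) i1.re (.of_forall fun y => ?_)
      simp only [star_one_mulVec, hhd]
      exact hcs _
    have g2 : ∫ y, ‖h y‖ ^ 2 ≤ (gram (fun _ => 1) (comb C e) 0 0).re := by
      rw [gram_re 0 i2]
      refine integral_mono_of_nonneg (.of_forall fun y => sq_nonneg _) i2.re (.of_forall fun y => ?_)
      simp only [star_one_mulVec, hh]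
      exact hcs _
    refine (add_le_add (mul_le_mul_of_nonneg_left g1 hth.le)
      (mul_le_mul_of_nonneg_left g2 hs.le)).trans (le_of_eq ?_)
    rw [hgd, gram_comb hId C, gram_comb hIe C]
    have h3 : (Cᴴ * ((th : ℂ) • gram (fun _ => 1) (dfam e) + (s : ℂ) • gram (fun _ => 1) e) * C) 0 0
        = (S : ℂ) := by
      rw [hQ, Matrix.mul_one, Matrix.mul_apply, hS, Complex.ofReal_sum]
      refine Finset.sum_congr rfl fun i _ => ?_
      rw [conjTranspose_apply, hC, Matrix.of_apply, RCLike.star_def, Complex.conj_conj,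
        Complex.mul_conj, Complex.normSq_eq_norm_sq]
    have h4 := congrArg Complex.re h3
    rw [Matrix.mul_add, Matrix.add_mul, Matrix.mul_smul, Matrix.mul_smul, Matrix.smul_mul,
      Matrix.smul_mul] at h4
    simpa [Matrix.add_apply, Matrix.smul_apply] using h4
  have hsup := (sup_le hh1 hh2 hth hs x).trans hq
  rw [hhx, Complex.norm_real, Real.norm_eq_abs, sq_abs] at hsup
  have hsp : 0 < 2 * Real.sqrt (th * s) := by positivity
  rw [le_div_iff₀ hsp]
  rcases le_or_gt S 0 with h0 | h0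
  · nlinarith [mul_nonpos_of_nonpos_of_nonneg h0 hsp.le]
  · refine le_of_mul_le_mul_left ?_ h0
    linarith

variable {W : ℝ → Matrix (Fin m) (Fin m) ℂ}

/-- Counting the values of the tail form. -/
theorem count_le (hW : ∀ x, (W x).IsHermitian) (hWm : ∀ a b, Measurable fun x => W x a b)
    {f : ℝ → ℝ} (hf : Continuous f) (hf0 : ∀ x i, 0 ≤ f ((hW x).eigenvalues i))
    (hfi : Integrable fun x => ∑ i, f ((hW x).eigenvalues i))
    {v : Fin l → ℝ → Fin m → ℂ} (hv : ∀ j a, ContDiff ℝ 1 fun x => v j x a)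
    (hvs : ∀ j a, HasCompactSupport fun x => v j x a) {th s : ℝ} (hth : 0 < th) (hs : 0 < s)
    (hL : gram (fun _ => 1) v = 1) (b : Fin l → ℝ) (hb : ∀ i, s ≤ b i)
    (hB : gram (fun x => fmat (hW x) f) v - (th : ℂ) • gram (fun _ => 1) (dfam v) =
      diagonal fun i => (b i : ℂ)) :
    (l : ℝ) ≤ (∫ x, ∑ i, f ((hW x).eigenvalues i)) / (2 * Real.sqrt (th * s)) := by
  classical
  have hI : ∀ {k} {u w : Fin k → ℝ → Fin m → ℂ}, (∀ j a, Continuous fun x => u j x a) →
      (∀ j a, Continuous fun x => w j x a) → (∀ j a, HasCompactSupport fun x => w j x a) →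
      ∀ i j, Integrable fun x => star (u i x) ⬝ᵥ fmat (hW x) f *ᵥ w j x :=
    fun hu hw hws i j => integrable_pair (measurable_fmat hW hWm hf) hfi
      (fun x => Finset.sum_nonneg fun i _ => hf0 x i) (K := 0) (fun x a b => by
        rw [zero_add]
        exact (norm_fmat_le _ _ a b).trans (le_of_eq (Finset.sum_congr rfl fun i _ =>
          abs_of_nonneg (hf0 x i)))) (hu i) (hw j) (hws j)
  have hId : ∀ i j, Integrable fun y =>
      star (dfam v i y) ⬝ᵥ (1 : Matrix (Fin m) (Fin m) ℂ) *ᵥ dfam v j y := fun i j =>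
    integrable_one (fun a => (hv i a).continuous_deriv le_rfl)
      (fun a => (hv j a).continuous_deriv le_rfl) fun a => (hvs j a).deriv
  have hIe : ∀ i j, Integrable fun y => star (v i y) ⬝ᵥ (1 : Matrix (Fin m) (Fin m) ℂ) *ᵥ v j y :=
    fun i j => integrable_one (fun a => (hv i a).continuous) (fun a => (hv j a).continuous) (hvs j)
  obtain ⟨K, hK⟩ : ∃ K, K = gram (fun _ => 1) (dfam v) := ⟨_, rfl⟩
  obtain ⟨Q, hQ⟩ : ∃ Q, Q = (th : ℂ) • K + (s : ℂ) • (1 : Matrix (Fin l) (Fin l) ℂ) := ⟨_, rfl⟩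
  have hKh : K.IsHermitian := by
    rw [hK]
    refine Matrix.IsHermitian.ext fun i j => ?_
    simp only [gram, Matrix.of_apply, RCLike.star_def]
    rw [← integral_conj]
    refine integral_congr_ae (.of_forall fun y => ?_)
    simp only [one_mulVec, dotProduct, map_sum, map_mul, Pi.star_apply, RCLike.star_def,
      Complex.conj_conj, mul_comm]
  have hKp : K.PosSemidef := by
    refine Matrix.PosSemidef.of_dotProduct_mulVec_nonneg hKh fun c => ?_
    obtain ⟨C, hC⟩ : ∃ C : Matrix (Fin l) (Fin 1) ℂ, C = Matrix.of fun i _ => c i := ⟨_, rfl⟩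
    have e : star c ⬝ᵥ K *ᵥ c = gram (fun _ => 1) (comb C (dfam v)) 0 0 := by
      rw [gram_comb hId, hC, hK]
      simp only [Matrix.mul_apply, dotProduct, mulVec, conjTranspose_apply, Matrix.of_apply,
        Finset.mul_sum, Finset.sum_mul, Pi.star_apply, mul_assoc]
      exact Finset.sum_comm
    rw [e, gram, Matrix.of_apply]
    have : ∀ y, star (comb C (dfam v) 0 y) ⬝ᵥ (1 : Matrix (Fin m) (Fin m) ℂ) *ᵥ comb C (dfam v) 0 y =
        ((∑ a, ‖comb C (dfam v) 0 y a‖ ^ 2 : ℝ) : ℂ) := fun y => by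
      rw [one_mulVec, dotProduct, Complex.ofReal_sum]
      exact Finset.sum_congr rfl fun a _ => by
        rw [Pi.star_apply, RCLike.star_def, mul_comm, Complex.mul_conj, Complex.normSq_eq_norm_sq]
    simp only [this]
    rw [integral_complex_ofReal, Complex.zero_le_real]
    exact integral_nonneg fun y => Finset.sum_nonneg fun a _ => sq_nonneg _
  have hQp : Q.PosDef := by
    rw [hQ]
    exact (Matrix.PosDef.one.smul (by exact_mod_cast hs)).posSemidef_add
      (hKp.smul (by exact_mod_cast hth.le))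
  set V : Matrix (Fin l) (Fin l) ℂ := (hQp.1.eigenvectorUnitary : Matrix (Fin l) (Fin l) ℂ)
  have hV : Vᴴ * V = 1 := Unitary.coe_star_mul_self hQp.1.eigenvectorUnitary
  obtain ⟨D, hD⟩ : ∃ D : Matrix (Fin l) (Fin l) ℂ,
      D = diagonal fun i => ((1 / Real.sqrt (hQp.1.eigenvalues i) : ℝ) : ℂ) := ⟨_, rfl⟩
  obtain ⟨C, hC⟩ : ∃ C, C = V * D := ⟨_, rfl⟩
  have hspec : Q = V * diagonal (fun i => (hQp.1.eigenvalues i : ℂ)) * Vᴴ := by
    have := fmat_id hQp.1
    simpa [fmat, V] using this.symm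
  have hone : Cᴴ * Q * C = 1 := by
    rw [hC, conjTranspose_mul, hspec, hD, diagonal_conjTranspose]
    simp only [Matrix.mul_assoc]
    rw [← Matrix.mul_assoc Vᴴ V, hV, Matrix.one_mul, ← Matrix.mul_assoc Vᴴ V, hV, Matrix.one_mul,
      diagonal_mul_diagonal, diagonal_mul_diagonal, ← diagonal_one]
    congr 1
    funext i
    simp only [Pi.star_apply, RCLike.star_def, Complex.conj_ofReal, ← Complex.ofReal_mul]
    have hp := hQp.eigenvalues_pos i
    rw [show 1 / Real.sqrt (hQp.1.eigenvalues i) *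
      (hQp.1.eigenvalues i * (1 / Real.sqrt (hQp.1.eigenvalues i))) = 1 by
      field_simp; rw [Real.sq_sqrt hp.le], Complex.ofReal_one]
  obtain ⟨he1, he2, hed⟩ := comb_smooth hv hvs C
  have hQe : (th : ℂ) • gram (fun _ => 1) (dfam (comb C v)) +
      (s : ℂ) • gram (fun _ => 1) (comb C v) = 1 := by
    rw [hed, gram_comb hId C, gram_comb hIe C, hL]
    refine Eq.trans ?_ hone
    rw [hQ, ← hK, Matrix.mul_add,
      Matrix.add_mul, Matrix.mul_smul, Matrix.mul_smul, Matrix.smul_mul, Matrix.smul_mul]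
  have hM := hI (fun j a => (hv j a).continuous) (fun j a => (hv j a).continuous) hvs
  have hMe : gram (fun x => fmat (hW x) f) (comb C v) =
      Cᴴ * diagonal (fun i => ((b i - s : ℝ) : ℂ)) * C + 1 := by
    rw [gram_comb hM C, ← hone, ← Matrix.add_mul, ← Matrix.mul_add, hQ]
    congr 2
    rw [show gram (fun x => fmat (hW x) f) v = diagonal (fun i => (b i : ℂ)) + (th : ℂ) • K by
      rw [← hB, hK, sub_add_cancel]]
    have e : diagonal (fun i => (b i : ℂ)) =
        diagonal (fun i => ((b i - s : ℝ) : ℂ)) + (s : ℂ) • (1 : Matrix (Fin l) (Fin l) ℂ) := by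
      rw [smul_one_eq_diagonal, diagonal_add]
      congr 1
      funext i
      push_cast
      ring
    rw [e]
    abel
  have hec : ∀ i a, Continuous fun x => comb C v i x a := fun i a => (he1 i a).continuous
  have hlow : ∀ i, 1 ≤ (gram (fun x => fmat (hW x) f) (comb C v) i i).re := fun i => by
    rw [hMe, Matrix.add_apply, Matrix.one_apply_eq, Complex.add_re, Complex.one_re]
    have hnn : 0 ≤ (Cᴴ * diagonal (fun i => ((b i - s : ℝ) : ℂ)) * C) i i :=
      ((Matrix.PosSemidef.diagonal (n := Fin l) fun k =>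
        Complex.zero_le_real.2 (sub_nonneg.2 (hb k))).conjTranspose_mul_mul_same C).diag_nonneg
    linarith [(Complex.le_def.1 hnn).1, Complex.zero_re]
  have hIi : ∀ i, Integrable fun x =>
      (star (comb C v i x) ⬝ᵥ fmat (hW x) f *ᵥ comb C v i x).re :=
    fun i => (hI hec hec he2 i i).re
  calc (l : ℝ) = ∑ _i : Fin l, (1 : ℝ) := by simp
    _ ≤ ∑ i, (gram (fun x => fmat (hW x) f) (comb C v) i i).re := Finset.sum_le_sum fun i _ => hlow i
    _ = ∫ x, ∑ i, (star (comb C v i x) ⬝ᵥ fmat (hW x) f *ᵥ comb C v i x).re := by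
        rw [integral_finsetSum _ fun i _ => hIi i]
        exact Finset.sum_congr rfl fun i _ => gram_re i (hI hec hec he2 i i)
    _ ≤ ∫ x, (∑ i, f ((hW x).eigenvalues i)) * (1 / (2 * Real.sqrt (th * s))) := by
        refine integral_mono (integrable_finsetSum _ fun i _ => hIi i) (hfi.mul_const _) fun x => ?_
        simp only [fmat_rotate, Finset.sum_mul]
        exact Finset.sum_le_sum fun k _ => mul_le_mul_of_nonneg_left
          (bessel_sup he1 he2 hth hs hQe (hW x) x k) (hf0 x k)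
    _ = _ := by rw [MeasureTheory.integral_mul_const, ← div_eq_mul_one_div]

theorem min_le_layer {b t : ℝ} (ht : 0 ≤ t) :
    min (max 0 b) t = ∫ s in (0 : ℝ)..t, (Ioo (0 : ℝ) b).indicator (fun _ => (1 : ℝ)) s := by
  rw [intervalIntegral.integral_of_le ht, setIntegral_indicator measurableSet_Ioo]
  rw [MeasureTheory.setIntegral_const, smul_eq_mul, mul_one]
  rcases le_or_gt b 0 with hb | hb
  · rw [max_eq_left hb, min_eq_left ht, Ioo_eq_empty (not_lt.2 hb), inter_empty]
    simp
  · rw [max_eq_right hb.le]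
    rcases le_or_gt b t with h | h
    · rw [min_eq_left h, (inter_eq_right (s := Ioc 0 t) (t := Ioo 0 b)).2 fun y hy => ⟨hy.1, hy.2.le.trans h⟩]
      simp [hb.le]
    · rw [min_eq_right h.le, (inter_eq_left (s := Ioc 0 t) (t := Ioo 0 b)).2 fun y hy => ⟨hy.1, lt_of_le_of_lt hy.2 h⟩]
      simp [ht]

/-- The split bound for truncated sums. -/
theorem split_le (hW : ∀ x, (W x).IsHermitian) (hWm : ∀ a b, Measurable fun x => W x a b)
    {f1 f2 : ℝ → ℝ} (hf1 : Continuous f1) (hf2 : Continuous f2)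
    (hsum : ∀ w, f1 w + f2 w = w) (h1 : ∀ x i, 0 ≤ f1 ((hW x).eigenvalues i))
    (h2 : ∀ x i, 0 ≤ f2 ((hW x).eigenvalues i))
    {g : ℝ → ℝ} {K : ℝ} (hg : Integrable g) (hg0 : ∀ x, 0 ≤ g x)
    (hgb : ∀ x, ∑ i, f1 ((hW x).eigenvalues i) ≤ K + g x)
    (hi1 : Integrable fun x => ∑ i, f1 ((hW x).eigenvalues i) ^ (3 / 2 : ℝ))
    (hi2 : Integrable fun x => ∑ i, f2 ((hW x).eigenvalues i))
    {u : Fin n → ℝ → Fin m → ℂ} (hu : ∀ j a, ContDiff ℝ 1 fun x => u j x a)
    (hus : ∀ j a, HasCompactSupport fun x => u j x a) (hL : gram (fun _ => 1) u = 1)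
    (lam : Fin n → ℝ)
    (hE : gram W u - gram (fun _ => 1) (dfam u) = diagonal fun i => (lam i : ℂ))
    {th : ℝ} (hth : 0 < th) (hth1 : th < 1) {t : ℝ} (ht : 0 < t) :
    ∑ j, min (lam j) t ≤ 4 / (3 * Real.sqrt 3 * Real.pi) / Real.sqrt th *
        (∫ x, ∑ i, f1 ((hW x).eigenvalues i) ^ (3 / 2 : ℝ)) +
      Real.sqrt t / Real.sqrt (1 - th) * ∫ x, ∑ i, f2 ((hW x).eigenvalues i) := by
  classical
  have hth' : 0 < 1 - th := by linarith
  have hI1 : ∀ {k} {v : Fin k → ℝ → Fin m → ℂ}, (∀ j a, ContDiff ℝ 1 fun x => v j x a) →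
      (∀ j a, HasCompactSupport fun x => v j x a) →
      ∀ i j, Integrable fun x => star (v i x) ⬝ᵥ fmat (hW x) f1 *ᵥ v j x :=
    fun hv hvs i j => integrable_pair (measurable_fmat hW hWm hf1) hg hg0 (K := K) (fun x a b =>
      (norm_fmat_le _ _ a b).trans ((Finset.sum_congr rfl fun i _ =>
        abs_of_nonneg (h1 x i)).trans_le (hgb x)))
      (fun a => (hv i a).continuous) (fun a => (hv j a).continuous) (hvs j)
  have hI2 : ∀ {k} {v : Fin k → ℝ → Fin m → ℂ}, (∀ j a, ContDiff ℝ 1 fun x => v j x a) →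
      (∀ j a, HasCompactSupport fun x => v j x a) →
      ∀ i j, Integrable fun x => star (v i x) ⬝ᵥ fmat (hW x) f2 *ᵥ v j x :=
    fun hv hvs i j => integrable_pair (measurable_fmat hW hWm hf2) hi2
      (fun x => Finset.sum_nonneg fun i _ => h2 x i) (K := 0) (fun x a b => by
        rw [zero_add]
        exact (norm_fmat_le _ _ a b).trans (le_of_eq (Finset.sum_congr rfl fun i _ =>
          abs_of_nonneg (h2 x i))))
      (fun a => (hv i a).continuous) (fun a => (hv j a).continuous) (hvs j)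
  have hId : ∀ {k} {v : Fin k → ℝ → Fin m → ℂ}, (∀ j a, ContDiff ℝ 1 fun x => v j x a) →
      (∀ j a, HasCompactSupport fun x => v j x a) → ∀ i j, Integrable fun y =>
      star (dfam v i y) ⬝ᵥ (1 : Matrix (Fin m) (Fin m) ℂ) *ᵥ dfam v j y :=
    fun hv hvs i j => integrable_one (fun a => (hv i a).continuous_deriv le_rfl)
      (fun a => (hv j a).continuous_deriv le_rfl) fun a => (hvs j a).deriv
  have hWsplit : ∀ x, W x = fmat (hW x) f1 + fmat (hW x) f2 := fun x => by
    rw [← fmat_add]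
    simp only [hsum]
    exact (fmat_id (hW x)).symm
  have hgW : gram W u = gram (fun x => fmat (hW x) f1) u + gram (fun x => fmat (hW x) f2) u := by
    ext i j
    simp only [gram, Matrix.of_apply, Matrix.add_apply]
    rw [← integral_add (hI1 hu hus i j) (hI2 hu hus i j)]
    refine integral_congr_ae (.of_forall fun x => ?_)
    simp only
    rw [← dotProduct_add, ← Matrix.add_mulVec, ← hWsplit x]
  obtain ⟨B, hB⟩ : ∃ B, B = gram (fun x => fmat (hW x) f2) u -
      ((1 - th : ℝ) : ℂ) • gram (fun _ => 1) (dfam u) := ⟨_, rfl⟩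
  have hherm : ∀ (M : ℝ → Matrix (Fin m) (Fin m) ℂ), (∀ x, (M x)ᴴ = M x) →
      ∀ v : Fin n → ℝ → Fin m → ℂ, (gram M v).IsHermitian := fun M hM v => by
    refine Matrix.IsHermitian.ext fun i j => ?_
    simp only [gram, Matrix.of_apply, RCLike.star_def]
    rw [← integral_conj]
    refine integral_congr_ae (.of_forall fun y => ?_)
    show conj (star (v j y) ⬝ᵥ M y *ᵥ v i y) = _
    rw [← RCLike.star_def, star_dotProduct, star_star, star_mulVec, hM, dotProduct_comm]
    exact (dotProduct_comm _ _).trans (dotProduct_mulVec (star (v i y)) (M y) (v j y)).symm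
  have hBh : B.IsHermitian := by
    rw [hB]
    exact (hherm (fun x => fmat (hW x) f2) (fun x => fmat_herm (hW x) f2) u).sub
      (by
        have := hherm (fun _ => 1) (fun _ => conjTranspose_one) (dfam u)
        rw [Matrix.IsHermitian, conjTranspose_smul, this.eq]
        simp)
  set U : Matrix (Fin n) (Fin n) ℂ := (hBh.eigenvectorUnitary : Matrix (Fin n) (Fin n) ℂ) with hUdef
  have hU : Uᴴ * U = 1 := Unitary.coe_star_mul_self hBh.eigenvectorUnitary
  have hU' : U * Uᴴ = 1 := mul_eq_one_comm.mp hU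
  obtain ⟨b, hb⟩ : ∃ b, b = hBh.eigenvalues := ⟨_, rfl⟩
  have hspec : B = U * diagonal (fun i => (b i : ℂ)) * Uᴴ := by
    have := fmat_id hBh
    simpa [fmat, U, hb] using this.symm
  obtain ⟨v, hv⟩ : ∃ v, v = comb U u := ⟨_, rfl⟩
  obtain ⟨hv1, hv2, hv3⟩ := comb_smooth hu hus U
  rw [← hv] at hv1 hv2 hv3
  have hIu : ∀ i j, Integrable fun y => star (u i y) ⬝ᵥ (1 : Matrix (Fin m) (Fin m) ℂ) *ᵥ u j y :=
    fun i j => integrable_one (fun a => (hu i a).continuous) (fun a => (hu j a).continuous) (hus j)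
  have hLv : gram (fun _ => 1) v = 1 := by rw [hv, gram_comb hIu U, hL, Matrix.mul_one, hU]
  have hKv : gram (fun _ => 1) (dfam v) = Uᴴ * gram (fun _ => 1) (dfam u) * U := by
    rw [hv3, gram_comb (hId hu hus) U]
  have hBv : gram (fun x => fmat (hW x) f2) v - ((1 - th : ℝ) : ℂ) • gram (fun _ => 1) (dfam v) =
      diagonal fun i => (b i : ℂ) := by
    rw [hKv, hv, gram_comb (hI2 hu hus) U, ← Matrix.smul_mul, ← Matrix.mul_smul, ← Matrix.sub_mul,
      ← Matrix.mul_sub, ← hB, hspec]
    simp only [Matrix.mul_assoc]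
    rw [hU, Matrix.mul_one, ← Matrix.mul_assoc, hU, Matrix.one_mul]
  obtain ⟨a, ha⟩ : ∃ a : Fin n → ℝ, a = fun i =>
      (gram (fun x => fmat (hW x) f1) v i i).re - th * (gram (fun _ => 1) (dfam v) i i).re :=
    ⟨_, rfl⟩
  have hab : ∀ i, a i + b i = ∑ j, ‖U j i‖ ^ 2 * lam j := fun i => by
    have h := congrArg (fun M : Matrix (Fin n) (Fin n) ℂ => ((Uᴴ * M * U) i i).re) hE
    simp only [hgW, Matrix.mul_sub, Matrix.sub_mul, Matrix.mul_add, Matrix.add_mul] at h
    rw [← gram_comb (hI1 hu hus) U, ← gram_comb (hI2 hu hus) U, ← hv, ← hKv, Matrix.sub_apply,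
      Matrix.add_apply, Complex.sub_re, Complex.add_re] at h
    have h3 : ((Uᴴ * diagonal (fun j => (lam j : ℂ)) * U) i i).re = ∑ j, ‖U j i‖ ^ 2 * lam j := by
      rw [Matrix.mul_apply, Complex.re_sum]
      refine Finset.sum_congr rfl fun j _ => ?_
      rw [mul_diagonal, conjTranspose_apply, RCLike.star_def,
        show conj (U j i) * (lam j : ℂ) * U j i = (lam j : ℂ) * (U j i * conj (U j i)) by ring,
        Complex.mul_conj, Complex.re_ofReal_mul, Complex.ofReal_re, Complex.normSq_eq_norm_sq]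
      ring
    have h4 := congrArg (fun M : Matrix (Fin n) (Fin n) ℂ => (M i i).re) hBv
    simp only [Matrix.sub_apply, Matrix.smul_apply, smul_eq_mul, Complex.sub_re,
      Complex.re_ofReal_mul, diagonal_apply_eq, Complex.ofReal_re] at h4
    rw [← h3, ha]
    linarith
  have hrow : ∀ j, ∑ i, ‖U j i‖ ^ 2 = 1 := fun j => by
    have h := congrArg (fun M : Matrix (Fin n) (Fin n) ℂ => (M j j).re) hU'
    simp only [Matrix.mul_apply, Complex.re_sum, Matrix.one_apply_eq, Complex.one_re] at h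
    rw [← h]
    exact Finset.sum_congr rfl fun i _ => by
      rw [conjTranspose_apply, RCLike.star_def, Complex.mul_conj, Complex.ofReal_re,
        Complex.normSq_eq_norm_sq]
  have hcol : ∀ i, ∑ j, ‖U j i‖ ^ 2 = 1 := fun i => by
    have h := congrArg (fun M : Matrix (Fin n) (Fin n) ℂ => (M i i).re) hU
    simp only [Matrix.mul_apply, Complex.re_sum, Matrix.one_apply_eq, Complex.one_re] at h
    rw [← h]
    exact Finset.sum_congr rfl fun j _ => by
      rw [conjTranspose_apply, RCLike.star_def, mul_comm, Complex.mul_conj, Complex.ofReal_re,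
        Complex.normSq_eq_norm_sq]
  have hjen : ∑ j, min (lam j) t ≤ ∑ i, (max 0 (a i) + min (max 0 (b i)) t) := by
    calc ∑ j, min (lam j) t = ∑ i, ∑ j, ‖U j i‖ ^ 2 * min (lam j) t := by
          rw [Finset.sum_comm]
          exact Finset.sum_congr rfl fun j _ => by rw [← Finset.sum_mul, hrow, one_mul]
      _ ≤ ∑ i, min (a i + b i) t := Finset.sum_le_sum fun i _ => le_min
          (hab i ▸ Finset.sum_le_sum fun j _ => mul_le_mul_of_nonneg_left (min_le_left _ _) (sq_nonneg _))
          ((Finset.sum_le_sum fun j _ => mul_le_mul_of_nonneg_left (min_le_right (lam j) t)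
            (sq_nonneg _)).trans_eq (by rw [← Finset.sum_mul, hcol, one_mul]))
      _ ≤ _ := Finset.sum_le_sum fun i _ => by
          rcases le_or_gt (max 0 (b i)) t with h | h
          · rw [min_eq_left h]
            exact (min_le_left _ _).trans (add_le_add (le_max_right _ _) (le_max_right _ _))
          · rw [min_eq_right h.le]
            exact (min_le_right _ _).trans (le_add_of_nonneg_left (le_max_left _ _))
  have hdiag : ∀ j k, (∫ x, ∑ c, conj (v j x c) * v k x c) = if j = k then 1 else 0 := fun j k => by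
    have h := congrFun (congrFun hLv j) k
    rw [Matrix.one_apply, gram, Matrix.of_apply] at h
    rw [← h]
    simp [one_mulVec, dotProduct, Pi.star_apply]
  have hnorm : ∀ j, ∫ x, ∑ c, ‖v j x c‖ ^ 2 = 1 := fun j => by
    have h := gram_re (M := fun _ => 1) (u := v) j (integrable_one
      (fun c => (hv1 j c).continuous) (fun c => (hv1 j c).continuous) (hv2 j))
    rw [hLv, Matrix.one_apply_eq, Complex.one_re] at h
    simpa only [star_one_mulVec] using h.symm
  have hA : ∑ i, max 0 (a i) ≤ 4 / (3 * Real.sqrt 3 * Real.pi) / Real.sqrt th *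
      ∫ x, ∑ i, f1 ((hW x).eigenvalues i) ^ (3 / 2 : ℝ) := by
    obtain ⟨s, hs⟩ : ∃ s : Finset (Fin n), s = Finset.univ.filter fun i => 0 < a i := ⟨_, rfl⟩
    have hsum' : ∑ i, max 0 (a i) = ∑ i : s, a i := by
      rw [Finset.sum_coe_sort s a, hs, Finset.sum_filter]
      refine Finset.sum_congr rfl fun i _ => ?_
      split_ifs with hi
      · exact max_eq_right hi.le
      · exact max_eq_left (not_lt.1 hi)
    have hK := kinetic_matrix (u := fun j : s => v j) (fun j c => hv1 j c) (fun j c => hv2 j c)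
      (fun j k hjk => by rw [hdiag, if_neg fun he => hjk (Subtype.ext he)]) fun j => hnorm j
    have hF : ∀ j : s, Integrable fun x => (star (v j x) ⬝ᵥ fmat (hW x) f1 *ᵥ v j x).re :=
      fun j => (hI1 hv1 hv2 j j).re
    have hD : ∀ j : s, Integrable fun x => ∑ c, ‖deriv (fun y => v j y c) x‖ ^ 2 := fun j => by
      have h : Integrable fun x => (star (dfam v j x) ⬝ᵥ
          (1 : Matrix (Fin m) (Fin m) ℂ) *ᵥ dfam v j x).re := (hId hv1 hv2 j j).re
      simp only [star_one_mulVec] at h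
      exact h
    have hae : ∀ j : s, a j = (∫ x, (star (v j x) ⬝ᵥ fmat (hW x) f1 *ᵥ v j x).re) -
        th * ∫ x, ∑ c, ‖deriv (fun y => v j y c) x‖ ^ 2 := fun j => by
      rw [ha]
      simp only
      rw [gram_re _ (hI1 hv1 hv2 j j), gram_re _ (hId hv1 hv2 j j)]
      simp only [star_one_mulVec, dfam]
    rw [integral_finsetSum _ fun j _ => hD j] at hK
    rw [hsum', Finset.sum_congr rfl fun j _ => hae j, Finset.sum_sub_distrib, ← Finset.mul_sum,
      ← integral_finsetSum _ fun j _ => hF j]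
    refine (sub_le_sub_left (mul_le_mul_of_nonneg_left hK hth.le) _).trans ?_
    have hdens : Continuous fun x => (∑ a, ∑ b, ∑ c, dens2 (fun j : s => v j) x a b *
        dens2 (fun j : s => v j) x b c * dens2 (fun j : s => v j) x c a).re := by
      have := fun j c => (hv1 j c).continuous
      unfold dens2
      fun_prop
    have hdsupp : HasCompactSupport fun x => (∑ a, ∑ b, ∑ c, dens2 (fun j : s => v j) x a b *
        dens2 (fun j : s => v j) x b c * dens2 (fun j : s => v j) x c a).re := by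
      refine HasCompactSupport.intro
        (isCompact_iUnion fun q : s × Fin m => hv2 q.1 q.2) fun x hx => ?_
      simp only [mem_iUnion, not_exists] at hx
      have h0 : ∀ (j : s) c, v j x c = 0 := fun j c =>
        image_eq_zero_of_notMem_tsupport (f := fun y => v j y c) (hx (j, c))
      simp [dens2, h0]
    have hρ := hdens.integrable_of_hasCompactSupport (μ := volume) hdsupp
    rw [← mul_assoc th, ← MeasureTheory.integral_const_mul, ← MeasureTheory.integral_const_mul,
      ← integral_sub (integrable_finsetSum _ fun j _ => hF j) (hρ.const_mul _)]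
    refine integral_mono ((integrable_finsetSum _ fun j _ => hF j).sub (hρ.const_mul _))
      (hi1.const_mul _) fun x => ?_
    simp only [dens2]
    have hc := cube_rotate (hW x) fun j : s => v j x
    simp only [fmat_rotate]
    refine (sub_le_sub_left (mul_le_mul_of_nonneg_left hc (by positivity)) _).trans ?_
    rw [Finset.mul_sum, Finset.mul_sum, ← Finset.sum_sub_distrib]
    refine Finset.sum_le_sum fun i _ => ?_
    obtain ⟨r, hr⟩ : ∃ r, r = ∑ j : s, ‖(((hW x).eigenvectorUnitary :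
      Matrix (Fin m) (Fin m) ℂ)ᴴ * cols fun j : s => v j x) i j‖ ^ 2 := ⟨_, rfl⟩
    rw [← hr]
    have hr0 : 0 ≤ r := hr ▸ Finset.sum_nonneg fun j _ => sq_nonneg _
    obtain ⟨w, hw⟩ : ∃ w, w = f1 ((hW x).eigenvalues i) := ⟨_, rfl⟩
    rw [← hw]
    have hw0 : 0 ≤ w := hw ▸ h1 x i
    have hy := mul_le_mul_of_nonneg_left (young_sharp (div_nonneg hw0 hth.le) hr0) hth.le
    have e : th * (w / th) ^ (3 / 2 : ℝ) = w ^ (3 / 2 : ℝ) / Real.sqrt th := by
      rw [Real.div_rpow hw0 hth.le, show (3 / 2 : ℝ) = 1 + 1 / 2 by norm_num,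
        Real.rpow_add hth, Real.rpow_one, ← Real.sqrt_eq_rpow]
      field_simp
    calc w * r - th * (Real.pi ^ 2 / 4) * r ^ 3
        = th * (w / th * r - Real.pi ^ 2 / 4 * r ^ 3) := by field_simp
      _ ≤ th * (4 / (3 * Real.sqrt 3 * Real.pi) * (w / th) ^ (3 / 2 : ℝ)) := hy
      _ = 4 / (3 * Real.sqrt 3 * Real.pi) * (th * (w / th) ^ (3 / 2 : ℝ)) := by ring
      _ = _ := by rw [e]; ring
  have hBsum : ∑ i, min (max 0 (b i)) t ≤
      Real.sqrt t / Real.sqrt (1 - th) * ∫ x, ∑ i, f2 ((hW x).eigenvalues i) := by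
    obtain ⟨X, hX⟩ : ∃ X, X = ∫ x, ∑ i, f2 ((hW x).eigenvalues i) := ⟨_, rfl⟩
    rw [← hX]
    have hX0 : 0 ≤ X := hX ▸ integral_nonneg fun x => Finset.sum_nonneg fun i _ => h2 x i
    have hN : ∀ s, 0 < s → ∑ i, (Ioo (0 : ℝ) (b i)).indicator (fun _ => (1 : ℝ)) s ≤
        X / (2 * Real.sqrt (1 - th)) * s ^ (-(1 / 2) : ℝ) := fun s hs => by
      obtain ⟨S, hS⟩ : ∃ S : Finset (Fin n), S = Finset.univ.filter fun i => s < b i := ⟨_, rfl⟩
      have e1 : ∑ i, (Ioo (0 : ℝ) (b i)).indicator (fun _ => (1 : ℝ)) s = (S.card : ℝ) := by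
        rw [hS, Finset.card_filter, Nat.cast_sum]
        refine Finset.sum_congr rfl fun i _ => ?_
        by_cases h : s < b i
        · simp [h, hs]
        · simp [h]
      rw [e1]
      have hmem : ∀ q ∈ S, s < b q := fun q hq => by
        rw [hS] at hq
        exact (Finset.mem_filter.1 hq).2
      obtain ⟨ι', hι'⟩ : ∃ e : Fin S.card ↪ Fin n, ∀ i, e i ∈ S :=
        ⟨(S.equivFin.symm.toEmbedding).trans (Function.Embedding.subtype _),
          fun i => (S.equivFin.symm i).2⟩
      have hg1 : ∀ (M : ℝ → Matrix (Fin m) (Fin m) ℂ) (z : Fin n → ℝ → Fin m → ℂ),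
          gram M (fun i => z (ι' i)) = (gram M z).submatrix ι' ι' := fun M z => rfl
      have h := count_le hW hWm hf2 h2 hi2 (v := fun i => v (ι' i)) (fun j c => hv1 _ c)
        (fun j c => hv2 _ c) hth' hs
        (by rw [hg1, hLv, Matrix.submatrix_one ι' ι'.injective])
        (fun i => b (ι' i)) (fun i => (hmem _ (hι' i)).le)
        (by
          rw [show dfam (fun i => v (ι' i)) = fun i => dfam v (ι' i) from rfl, hg1, hg1]
          have h5 := congrArg (fun M => Matrix.submatrix M ι' ι') hBv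
          rw [Matrix.submatrix_sub, Pi.sub_apply, Pi.sub_apply, Matrix.submatrix_smul,
            Pi.smul_apply, Pi.smul_apply, Matrix.submatrix_diagonal _ _ ι'.injective] at h5
          exact h5)
      rw [← hX] at h
      refine h.trans (le_of_eq ?_)
      rw [Real.sqrt_mul hth'.le, Real.rpow_neg hs.le, ← Real.sqrt_eq_rpow]
      field_simp
    have hii : ∀ i, IntervalIntegrable
        (fun s => (Ioo (0 : ℝ) (b i)).indicator (fun _ => (1 : ℝ)) s) volume 0 t :=
      fun i => ⟨(integrableOn_const (by simp)).indicator measurableSet_Ioo,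
        (integrableOn_const (by simp)).indicator measurableSet_Ioo⟩
    calc ∑ i, min (max 0 (b i)) t
        = ∫ s in (0 : ℝ)..t, ∑ i, (Ioo (0 : ℝ) (b i)).indicator (fun _ => (1 : ℝ)) s := by
          rw [intervalIntegral.integral_finsetSum fun i _ => hii i]
          exact Finset.sum_congr rfl fun i _ => min_le_layer ht.le
      _ ≤ ∫ s in (0 : ℝ)..t, X / (2 * Real.sqrt (1 - th)) * s ^ (-(1 / 2) : ℝ) :=
          intervalIntegral.integral_mono_on_of_le_Ioo ht.le
            (by simpa [Finset.sum_fn] using IntervalIntegrable.sum Finset.univ fun i _ => hii i)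
            ((intervalIntegral.intervalIntegrable_rpow' (by norm_num)).const_mul _)
            fun s hs => hN s hs.1
      _ = _ := by
          rw [intervalIntegral.integral_const_mul, integral_rpow (Or.inl (by norm_num))]
          rw [show (-(1 / 2) : ℝ) + 1 = 1 / 2 by norm_num, Real.zero_rpow (by norm_num),
            ← Real.sqrt_eq_rpow]
          field_simp
          ring
  rw [Finset.sum_add_distrib] at hjen
  linarith

end Vale.Agent.P371.Left
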