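import Vale.Agent.P371.MatrixKinetic

/-!
From the kinetic inequality for vector-valued orthonormal families to eigenvalue moments of
Schrödinger operators with positive semidefinite matrix potentials.
-/

namespace Vale.Agent.P371.Sharp

open MeasureTheory Set Filter Topology ComplexConjugate _root_.Matrix ComplexOrder
open Vale.Agent.P371.Matrix (dens2 kinetic_matrix)

variable {ι : Type*} [Fintype ι] {m : ℕ}

/-- The form value of `-(-d²/dx² - W)` at a vector-valued function. -/
noncomputable def energyM (W : ℝ → Matrix (Fin m) (Fin m) ℂ) (u : ℝ → Fin m → ℂ) : ℝ :=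
  (∫ x, (star (u x) ⬝ᵥ W x *ᵥ u x).re) - ∫ x, ∑ a, ‖deriv (fun y => u y a) x‖ ^ 2

/-- The matrix whose columns are the vectors `v j`. -/
def cols (v : ι → Fin m → ℂ) : Matrix (Fin m) ι ℂ := Matrix.of fun a j => v j a

theorem re_trace_cube (R : Matrix (Fin m) (Fin m) ℂ) :
    (R * R * R).trace.re = (∑ a, ∑ b, ∑ c, R a b * R b c * R c a).re := by
  congr 1
  simp only [trace, Matrix.diag, Matrix.mul_apply, Finset.sum_mul]
  exact Finset.sum_congr rfl fun a _ => Finset.sum_comm

theorem cols_apply (v : ι → Fin m → ℂ) (a b : Fin m) :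
    (cols v * (cols v)ᴴ) a b = ∑ j, v j a * conj (v j b) := by
  simp [cols, Matrix.mul_apply]

/-- A diagonal entry cubed is at most the diagonal entry of the cube. -/
theorem diag_cube_le (V : Matrix (Fin m) ι ℂ) (i : Fin m) :
    (∑ j, ‖V i j‖ ^ 2) ^ 3 ≤ (((V * Vᴴ) * (V * Vᴴ) * (V * Vᴴ)) i i).re := by
  set R := V * Vᴴ with hR
  have hRh : Rᴴ = R := by rw [hR, conjTranspose_mul, conjTranspose_conjTranspose]
  set r := ∑ j, ‖V i j‖ ^ 2 with hr
  have hr0 : 0 ≤ r := Finset.sum_nonneg fun j _ => sq_nonneg _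
  have hX : ((R * R * R) i i).re = ∑ j, ‖(R * V) i j‖ ^ 2 := by
    have : R * R * R = (R * V) * (R * V)ᴴ := by
      rw [conjTranspose_mul, hRh, hR]
      simp only [Matrix.mul_assoc]
    rw [this, Matrix.mul_apply, Complex.re_sum]
    refine Finset.sum_congr rfl fun j _ => ?_
    rw [conjTranspose_apply, RCLike.star_def, Complex.mul_conj, Complex.ofReal_re,
      Complex.normSq_eq_norm_sq]
  have hRii : R i i = (r : ℂ) := by
    rw [hr, Complex.ofReal_sum, hR, Matrix.mul_apply]
    refine Finset.sum_congr rfl fun j _ => ?_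
    rw [conjTranspose_apply, RCLike.star_def, Complex.mul_conj, Complex.normSq_eq_norm_sq]
  have h2 : r ^ 2 ≤ ∑ j, ‖(R * V) i j‖ * ‖V i j‖ := by
    have e : ∑ j, (R * V) i j * conj (V i j) = ∑ k, R i k * conj (R i k) := by
      have h := congrFun (congrFun (Matrix.mul_assoc R V Vᴴ) i) i
      rw [← hR] at h
      rw [Matrix.mul_apply (N := Vᴴ), Matrix.mul_apply (N := R)] at h
      simp only [conjTranspose_apply, RCLike.star_def] at h
      rw [h]
      refine Finset.sum_congr rfl fun k _ => ?_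
      rw [← RCLike.star_def, ← conjTranspose_apply, hRh]
    have h1 : r ^ 2 ≤ (∑ j, (R * V) i j * conj (V i j)).re := by
      rw [e, Complex.re_sum]
      refine le_trans (le_of_eq ?_) (Finset.single_le_sum (f := fun k => (R i k * conj (R i k)).re)
        (fun k _ => ?_) (Finset.mem_univ i))
      · simp [hRii, sq]
      · simp only [Complex.mul_conj, Complex.ofReal_re]
        exact Complex.normSq_nonneg _
    refine h1.trans ((Complex.re_le_norm _).trans ((norm_sum_le _ _).trans (le_of_eq ?_)))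
    simp
  rw [hX]
  rcases hr0.eq_or_lt with h | h
  · rw [← h]
    simp only [ne_eq, OfNat.ofNat_ne_zero, not_false_eq_true, zero_pow]
    exact Finset.sum_nonneg fun j _ => sq_nonneg _
  · refine le_of_mul_le_mul_right ?_ h
    calc r ^ 3 * r = (r ^ 2) ^ 2 := by ring
      _ ≤ (∑ j, ‖(R * V) i j‖ * ‖V i j‖) ^ 2 := pow_le_pow_left₀ (sq_nonneg r) h2 2
      _ ≤ _ := Finset.sum_mul_sq_le_sq_mul_sq _ _ _

/-- Diagonalisation of the potential against a family of vectors. -/
theorem rotate {A : Matrix (Fin m) (Fin m) ℂ} (hA : A.IsHermitian) (v : ι → Fin m → ℂ) :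
    ∃ V : Matrix (Fin m) ι ℂ,
      ∑ j, (star (v j) ⬝ᵥ A *ᵥ v j).re = ∑ i, hA.eigenvalues i * ∑ j, ‖V i j‖ ^ 2 ∧
      ∑ j, ∑ a, ‖v j a‖ ^ 2 = ∑ i, ∑ j, ‖V i j‖ ^ 2 ∧
      ∑ i, (((V * Vᴴ) * (V * Vᴴ) * (V * Vᴴ)) i i).re =
        (cols v * (cols v)ᴴ * (cols v * (cols v)ᴴ) * (cols v * (cols v)ᴴ)).trace.re := by
  set U : Matrix (Fin m) (Fin m) ℂ := (hA.eigenvectorUnitary : Matrix (Fin m) (Fin m) ℂ)
  set d : Matrix (Fin m) (Fin m) ℂ := diagonal fun i => (hA.eigenvalues i : ℂ)
  have hU : Uᴴ * U = 1 := Unitary.coe_star_mul_self hA.eigenvectorUnitary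
  have hU' : U * Uᴴ = 1 := mul_eq_one_comm.mp hU
  have hspec : A = U * d * Uᴴ := by
    have := hA.spectral_theorem
    simpa [Unitary.conjStarAlgAut_apply, Matrix.star_eq_conjTranspose, U, d, Function.comp_def]
      using this
  set X := cols v with hX
  refine ⟨Uᴴ * X, ?_, ?_, ?_⟩
  · have h1 : ∀ j, star (v j) ⬝ᵥ A *ᵥ v j = (Xᴴ * A * X) j j := fun j => by
      simp only [hX, cols, Matrix.mul_apply, dotProduct, mulVec, Finset.mul_sum, Finset.sum_mul,
        conjTranspose_apply, Matrix.of_apply, Pi.star_apply]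
      rw [Finset.sum_comm]
      exact Finset.sum_congr rfl fun a _ => Finset.sum_congr rfl fun b _ => by ring
    have h2 : Xᴴ * A * X = (Uᴴ * X)ᴴ * d * (Uᴴ * X) := by
      rw [conjTranspose_mul, conjTranspose_conjTranspose, hspec]
      simp only [Matrix.mul_assoc]
    simp only [h1, h2]
    have h3 : ∀ j, (((Uᴴ * X)ᴴ * d * (Uᴴ * X)) j j).re =
        ∑ i, hA.eigenvalues i * ‖(Uᴴ * X) i j‖ ^ 2 := fun j => by
      rw [Matrix.mul_apply, Complex.re_sum]
      refine Finset.sum_congr rfl fun i _ => ?_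
      simp only [d, mul_diagonal, conjTranspose_apply, RCLike.star_def]
      rw [show conj ((Uᴴ * X) i j) * (hA.eigenvalues i : ℂ) * (Uᴴ * X) i j =
        (hA.eigenvalues i : ℂ) * ((Uᴴ * X) i j * conj ((Uᴴ * X) i j)) by ring, Complex.mul_conj,
        Complex.re_ofReal_mul, Complex.ofReal_re, Complex.normSq_eq_norm_sq]
    simp only [h3, Finset.mul_sum]
    exact Finset.sum_comm
  · have h1 : ∀ (Y : Matrix (Fin m) ι ℂ) j, ((Yᴴ * Y) j j).re = ∑ i, ‖Y i j‖ ^ 2 := fun Y j => by
      rw [Matrix.mul_apply, Complex.re_sum]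
      refine Finset.sum_congr rfl fun i _ => ?_
      rw [conjTranspose_apply, RCLike.star_def, mul_comm, Complex.mul_conj, Complex.ofReal_re,
        Complex.normSq_eq_norm_sq]
    conv_rhs => rw [Finset.sum_comm]
    refine Finset.sum_congr rfl fun j _ => ?_
    rw [← h1, conjTranspose_mul, conjTranspose_conjTranspose, Matrix.mul_assoc,
      ← Matrix.mul_assoc U, hU', Matrix.one_mul, h1]
    rfl
  · rw [← Complex.re_sum]
    show (Matrix.trace _ : ℂ).re = _
    congr 1
    simp only [conjTranspose_mul, conjTranspose_conjTranspose, Matrix.mul_assoc]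
    simp only [← Matrix.mul_assoc U, hU', Matrix.one_mul]
    rw [trace_mul_comm]
    simp only [Matrix.mul_assoc, hU', Matrix.mul_one]

/-- The pointwise Young inequality for matrices. -/
theorem young_matrix {A : Matrix (Fin m) (Fin m) ℂ} (hA : A.IsHermitian) (v : ι → Fin m → ℂ)
    (t : ℝ) :
    (∑ j, ((star (v j) ⬝ᵥ A *ᵥ v j).re - t * ∑ a, ‖v j a‖ ^ 2)) -
        Real.pi ^ 2 / 4 * (∑ a, ∑ b, ∑ c, (∑ j, v j a * conj (v j b)) *
          (∑ j, v j b * conj (v j c)) * (∑ j, v j c * conj (v j a))).re ≤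
      4 / (3 * Real.sqrt 3 * Real.pi) *
        ∑ i, max 0 (hA.eigenvalues i - t) ^ (3 / 2 : ℝ) := by
  obtain ⟨V, hV1, hV2, hV3⟩ := rotate hA v
  rw [re_trace_cube] at hV3
  simp only [cols_apply] at hV3
  rw [← hV3, Finset.sum_sub_distrib, ← Finset.mul_sum, hV1, hV2]
  rw [Finset.mul_sum (a := t), Finset.mul_sum (a := Real.pi ^ 2 / 4),
    Finset.mul_sum (a := 4 / (3 * Real.sqrt 3 * Real.pi)), ← Finset.sum_sub_distrib,
    ← Finset.sum_sub_distrib]
  refine Finset.sum_le_sum fun i _ => ?_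
  have hc := diag_cube_le V i
  have hr0 : 0 ≤ ∑ j, ‖V i j‖ ^ 2 := Finset.sum_nonneg fun j _ => sq_nonneg _
  have hy := young_sharp (le_max_left 0 (hA.eigenvalues i - t)) hr0
  have h1 := mul_le_mul_of_nonneg_right (le_max_right 0 (hA.eigenvalues i - t)) hr0
  have h2 := mul_le_mul_of_nonneg_left hc (by positivity : (0 : ℝ) ≤ Real.pi ^ 2 / 4)
  linarith

/-- The form is at most the trace times the squared length. -/
theorem form_le {A : Matrix (Fin m) (Fin m) ℂ} (hA : A.PosSemidef) (v : Fin m → ℂ) :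
    (star v ⬝ᵥ A *ᵥ v).re ≤ (∑ i, hA.isHermitian.eigenvalues i) * ∑ a, ‖v a‖ ^ 2 := by
  obtain ⟨V, hV1, hV2, -⟩ := rotate hA.isHermitian fun _ : Fin 1 => v
  simp only [Finset.univ_unique, Finset.sum_singleton] at hV1 hV2
  rw [hV1, hV2, Finset.mul_sum]
  refine Finset.sum_le_sum fun i _ => mul_le_mul_of_nonneg_right ?_ (sq_nonneg _)
  exact Finset.single_le_sum (fun k _ => hA.eigenvalues_nonneg k) (Finset.mem_univ i)

theorem trace_pow_eq {A : Matrix (Fin m) (Fin m) ℂ} (hA : A.IsHermitian) (k : ℕ) :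
    (A ^ k).trace.re = ∑ i, hA.eigenvalues i ^ k := by
  set U : Matrix (Fin m) (Fin m) ℂ := (hA.eigenvectorUnitary : Matrix (Fin m) (Fin m) ℂ)
  set d : Matrix (Fin m) (Fin m) ℂ := diagonal fun i => (hA.eigenvalues i : ℂ)
  have hU : Uᴴ * U = 1 := Unitary.coe_star_mul_self hA.eigenvectorUnitary
  have hspec : A = U * d * Uᴴ := by
    have := hA.spectral_theorem
    simpa [Unitary.conjStarAlgAut_apply, Matrix.star_eq_conjTranspose, U, d, Function.comp_def]
      using this
  have hp : A ^ k = U * d ^ k * Uᴴ := by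
    induction k with
    | zero => rw [pow_zero, pow_zero, Matrix.mul_one, mul_eq_one_comm.mp hU]
    | succ k ih =>
      rw [pow_succ, ih, hspec, pow_succ]
      simp only [Matrix.mul_assoc]
      rw [← Matrix.mul_assoc Uᴴ U, hU, Matrix.one_mul]
  rw [hp, trace_mul_cycle, hU, Matrix.one_mul, diagonal_pow, trace_diagonal, Complex.re_sum]
  exact Finset.sum_congr rfl fun i _ => by simp [← Complex.ofReal_pow]

variable {W : ℝ → Matrix (Fin m) (Fin m) ℂ}

theorem measurable_sum_eigen (hWh : ∀ x, (W x).IsHermitian)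
    (hWm : ∀ a b, Measurable fun x => W x a b) {f : ℝ → ℝ} (hf : Continuous f) :
    Measurable fun x => ∑ i, f ((hWh x).eigenvalues i) := by
  have hpow : ∀ (k : ℕ) a b, Measurable fun x => (W x ^ k) a b := by
    intro k
    induction k with
    | zero => intro a b; simp [pow_zero, Matrix.one_apply]
    | succ k ih =>
      intro a b
      simp only [pow_succ, Matrix.mul_apply]
      exact Finset.measurable_sum _ fun c _ => (ih a c).mul (hWm c b)
  have htr : ∀ k : ℕ, Measurable fun x => ∑ i, (hWh x).eigenvalues i ^ k := fun k => by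
    simp only [← trace_pow_eq, trace, Matrix.diag]
    exact Complex.measurable_re.comp (Finset.measurable_sum _ fun a _ => hpow k a a)
  choose p hp using fun n : ℕ => exists_polynomial_near_of_continuousOn (-(n : ℝ)) n f
    hf.continuousOn (1 / ((n : ℝ) + 1)) (by positivity)
  have hm : ∀ n, Measurable fun x => ∑ i, (p n).eval ((hWh x).eigenvalues i) := fun n => by
    simp only [Polynomial.eval_eq_sum_range]
    simp_rw [Finset.sum_comm (s := (Finset.univ : Finset (Fin m))), ← Finset.mul_sum]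
    exact Finset.measurable_sum _ fun k _ => (htr k).const_mul _
  refine measurable_of_tendsto_metrizable hm (tendsto_pi_nhds.2 fun x => ?_)
  refine tendsto_finsetSum _ fun i _ => ?_
  obtain ⟨n₀, hn₀⟩ := exists_nat_ge |(hWh x).eigenvalues i|
  refine tendsto_iff_dist_tendsto_zero.2 (squeeze_zero' (.of_forall fun n => dist_nonneg) ?_
    tendsto_one_div_add_atTop_nhds_zero_nat)
  filter_upwards [eventually_ge_atTop n₀] with n hn
  refine (hp n _ ?_).le
  have : (n₀ : ℝ) ≤ n := Nat.cast_le.2 hn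
  exact abs_le.1 (hn₀.trans this)

/-- Integrability facts for one function. -/
theorem form_integrable {p : ℝ} (hp : 1 ≤ p) (hW : ∀ x, (W x).PosSemidef)
    (hWm : ∀ a b, Measurable fun x => W x a b)
    (hWi : Integrable fun x => ∑ i, (hW x).isHermitian.eigenvalues i ^ p) {v : ℝ → Fin m → ℂ}
    (hv : ∀ a, Continuous fun x => v x a) (hvs : ∀ a, HasCompactSupport fun x => v x a) :
    (Integrable fun x => (star (v x) ⬝ᵥ W x *ᵥ v x).re) ∧
      Integrable fun x => ∑ a, ‖v x a‖ ^ 2 := by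
  have hn : Integrable fun x => ∑ a, ‖v x a‖ ^ 2 := by
    refine integrable_finsetSum _ fun a _ => ?_
    have h2 : HasCompactSupport fun x => ‖v x a‖ ^ 2 :=
      (hvs a).comp_left (g := fun z : ℂ => ‖z‖ ^ 2) (by simp)
    have h1 : Continuous fun x => ‖v x a‖ ^ 2 := by
      have := hv a
      fun_prop
    exact h1.integrable_of_hasCompactSupport h2
  refine ⟨?_, hn⟩
  have hc : Continuous fun x => ∑ a, ‖v x a‖ ^ 2 :=
    continuous_finsetSum _ fun a _ => (hv a).norm.pow 2
  have hs : HasCompactSupport fun x => ∑ a, ‖v x a‖ ^ 2 := by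
    refine HasCompactSupport.intro (isCompact_iUnion fun a => hvs a) fun x hx => ?_
    simp only [mem_iUnion, not_exists] at hx
    exact Finset.sum_eq_zero fun a _ => by
      have h := image_eq_zero_of_notMem_tsupport (hx a)
      simp [h]
  obtain ⟨B, hB⟩ := hc.bounded_above_of_compact_support hs
  have hg : Measurable fun x => (star (v x) ⬝ᵥ W x *ᵥ v x).re := by
    simp only [dotProduct, mulVec, Pi.star_apply]
    exact Complex.measurable_re.comp (Finset.measurable_sum _ fun a _ =>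
      (Complex.continuous_conj.comp (hv a)).measurable.mul
        (Finset.measurable_sum _ fun b _ => (hWm a b).mul (hv b).measurable))
  refine ((hn.const_mul (m : ℝ)).add (hWi.const_mul B)).mono' hg.aestronglyMeasurable
    (.of_forall fun x => ?_)
  have h0 : 0 ≤ (star (v x) ⬝ᵥ W x *ᵥ v x).re :=
    (Complex.le_def.1 ((hW x).dotProduct_mulVec_nonneg (v x))).1
  have hq : ∀ i, (hW x).isHermitian.eigenvalues i ≤
      1 + (hW x).isHermitian.eigenvalues i ^ p := fun i => by
    rcases le_total ((hW x).isHermitian.eigenvalues i) 1 with h | h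
    · linarith [Real.rpow_nonneg ((hW x).eigenvalues_nonneg i) p]
    · linarith [Real.self_le_rpow_of_one_le h hp]
  have hn0 : 0 ≤ ∑ a, ‖v x a‖ ^ 2 := Finset.sum_nonneg fun a _ => sq_nonneg _
  have hB' : ∑ a, ‖v x a‖ ^ 2 ≤ B := (le_abs_self _).trans ((Real.norm_eq_abs _).symm.trans_le (hB x))
  have hP0 : 0 ≤ ∑ i, (hW x).isHermitian.eigenvalues i ^ p :=
    Finset.sum_nonneg fun i _ => Real.rpow_nonneg ((hW x).eigenvalues_nonneg i) p
  rw [Real.norm_eq_abs, abs_of_nonneg h0]
  refine (form_le (hW x) (v x)).trans ((mul_le_mul_of_nonneg_right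
    (Finset.sum_le_sum fun i _ => hq i) hn0).trans ?_)
  simp only [Finset.sum_add_distrib, Finset.sum_const, Finset.card_univ, Fintype.card_fin,
    nsmul_eq_mul, mul_one, Pi.add_apply]
  nlinarith [mul_le_mul_of_nonneg_left hB' hP0]

/-- The shifted potential has an integrable `3/2` moment. -/
theorem shifted_integrable {γ : ℝ} (hγ : 1 ≤ γ) (hW : ∀ x, (W x).PosSemidef)
    (hWm : ∀ a b, Measurable fun x => W x a b)
    (hWi : Integrable fun x => ∑ i, (hW x).isHermitian.eigenvalues i ^ (γ + 1 / 2)) {t : ℝ}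
    (ht : 0 < t) :
    Integrable fun x => ∑ i, max 0 ((hW x).isHermitian.eigenvalues i - t) ^ (3 / 2 : ℝ) := by
  refine (hWi.const_mul (t ^ (1 - γ))).mono' (measurable_sum_eigen (fun x => (hW x).isHermitian)
    hWm (f := fun w => max 0 (w - t) ^ (3 / 2 : ℝ))
    ((continuous_const.max (continuous_id.sub continuous_const)).rpow_const
      fun _ => Or.inr (by norm_num))).aestronglyMeasurable (.of_forall fun x => ?_)
  rw [Real.norm_eq_abs, abs_of_nonneg
    (Finset.sum_nonneg fun i _ => Real.rpow_nonneg (le_max_left _ _) _), Finset.mul_sum]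
  refine Finset.sum_le_sum fun i _ => ?_
  set w := (hW x).isHermitian.eigenvalues i
  rcases le_or_gt w t with hx | hx
  · rw [max_eq_left (by linarith), Real.zero_rpow (by norm_num)]
    exact mul_nonneg (Real.rpow_nonneg ht.le _) (Real.rpow_nonneg ((hW x).eigenvalues_nonneg i) _)
  · rw [max_eq_right (by linarith)]
    have hw : 0 < w := ht.trans hx
    calc (w - t) ^ (3 / 2 : ℝ) ≤ w ^ (3 / 2 : ℝ) :=
          Real.rpow_le_rpow (by linarith) (by linarith) (by norm_num)
      _ = w ^ (1 - γ) * w ^ (γ + 1 / 2) := by rw [← Real.rpow_add hw]; congr 1; ring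
      _ ≤ t ^ (1 - γ) * w ^ (γ + 1 / 2) := mul_le_mul_of_nonneg_right
          (Real.rpow_le_rpow_of_nonpos ht hx.le (by linarith)) (Real.rpow_nonneg hw.le _)

/-- The bound at exponent one for the shifted form. -/
theorem sum_shiftedM {p : ℝ} (hp : 1 ≤ p) (hW : ∀ x, (W x).PosSemidef)
    (hWm : ∀ a b, Measurable fun x => W x a b)
    (hWi : Integrable fun x => ∑ i, (hW x).isHermitian.eigenvalues i ^ p)
    {u : ι → ℝ → Fin m → ℂ} (hu : ∀ j a, ContDiff ℝ 1 fun x => u j x a)
    (hsupp : ∀ j a, HasCompactSupport fun x => u j x a)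
    (horth : ∀ j k, j ≠ k → ∫ x, ∑ a, conj (u j x a) * u k x a = 0)
    (hnorm : ∀ j, ∫ x, ∑ a, ‖u j x a‖ ^ 2 = 1) (t : ℝ)
    (hti : Integrable fun x => ∑ i, max 0 ((hW x).isHermitian.eigenvalues i - t) ^ (3 / 2 : ℝ)) :
    ∑ j, max 0 (energyM W (u j) - t) ≤ 4 / (3 * Real.sqrt 3 * Real.pi) *
      ∫ x, ∑ i, max 0 ((hW x).isHermitian.eigenvalues i - t) ^ (3 / 2 : ℝ) := by
  classical
  obtain ⟨s, hs⟩ : ∃ s : Finset ι, s = Finset.univ.filter fun j => 0 < energyM W (u j) - t :=
    ⟨_, rfl⟩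
  have hsum : ∑ j, max 0 (energyM W (u j) - t) = ∑ j : s, (energyM W (u j) - t) := by
    rw [Finset.sum_coe_sort s fun j => energyM W (u j) - t, hs, Finset.sum_filter]
    refine Finset.sum_congr rfl fun j _ => ?_
    split_ifs with hj
    · exact max_eq_right hj.le
    · exact max_eq_left (not_lt.1 hj)
  have hc : ∀ j a, Continuous fun x => u j x a := fun j a => (hu j a).continuous
  have hF : ∀ j, _ := fun j => form_integrable hp hW hWm hWi (hc j) (hsupp j)
  have hdi : ∀ j a, Integrable fun x => ‖deriv (fun y => u j y a) x‖ ^ 2 := fun j a =>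
    integrable_deriv_sq (u := fun (_ : Fin 1) x => u j x a) (fun _ => hu j a) (fun _ => hsupp j a) 0
  have hK := kinetic_matrix (u := fun j : s => u j) (fun j a => hu j a) (fun j a => hsupp j a)
    (fun j k hjk => horth j k fun he => hjk (Subtype.ext he)) fun j => hnorm j
  have hDi : ∀ j : s, Integrable fun x => ∑ a, ‖deriv (fun y => u j y a) x‖ ^ 2 := fun j =>
    integrable_finsetSum _ fun a _ => hdi j a
  rw [integral_finsetSum _ fun j _ => hDi j] at hK
  have hFi : ∀ j : s, Integrable fun x =>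
      (star (u j x) ⬝ᵥ W x *ᵥ u j x).re - t * ∑ a, ‖u j x a‖ ^ 2 :=
    fun j => (hF j).1.sub ((hF j).2.const_mul t)
  have hE : ∀ j : s, energyM W (u j) - t =
      (∫ x, ((star (u j x) ⬝ᵥ W x *ᵥ u j x).re - t * ∑ a, ‖u j x a‖ ^ 2)) -
        ∫ x, ∑ a, ‖deriv (fun y => u j y a) x‖ ^ 2 := fun j => by
    rw [integral_sub (hF j).1 ((hF j).2.const_mul t), MeasureTheory.integral_const_mul, hnorm j,
      energyM]
    ring
  rw [hsum, Finset.sum_congr rfl fun j _ => hE j, Finset.sum_sub_distrib,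
    ← integral_finsetSum _ fun j _ => hFi j]
  refine le_trans (sub_le_sub_left hK _) ?_
  have hdens : Continuous fun x => (∑ a, ∑ b, ∑ c, dens2 (fun j : s => u j) x a b *
      dens2 (fun j : s => u j) x b c * dens2 (fun j : s => u j) x c a).re := by
    unfold dens2
    fun_prop
  have hdsupp : HasCompactSupport fun x => (∑ a, ∑ b, ∑ c, dens2 (fun j : s => u j) x a b *
      dens2 (fun j : s => u j) x b c * dens2 (fun j : s => u j) x c a).re := by
    refine HasCompactSupport.intro
      (isCompact_iUnion fun q : s × Fin m => hsupp q.1 q.2) fun x hx => ?_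
    simp only [mem_iUnion, not_exists] at hx
    have h0 : ∀ (j : s) a, u j x a = 0 := fun j a => image_eq_zero_of_notMem_tsupport (f := fun y => u j y a) (hx (j, a))
    simp [dens2, h0]
  have hρ := hdens.integrable_of_hasCompactSupport (μ := volume) hdsupp
  rw [← MeasureTheory.integral_const_mul, ← MeasureTheory.integral_const_mul,
    ← integral_sub (integrable_finsetSum _ fun j _ => hFi j) (hρ.const_mul _)]
  exact integral_mono ((integrable_finsetSum _ fun j _ => hFi j).sub (hρ.const_mul _))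
    (hti.const_mul _) fun x => young_matrix (hW x).isHermitian (fun j : s => u j x) t

/-- Integrating the shifted inequality against `t ^ (γ - 2)`. -/
theorem liftedM {γ : ℝ} (hγ : 1 < γ) (hW : ∀ x, (W x).PosSemidef)
    (hWm : ∀ a b, Measurable fun x => W x a b)
    (hWi : Integrable fun x => ∑ i, (hW x).isHermitian.eigenvalues i ^ (γ + 1 / 2))
    {u : ι → ℝ → Fin m → ℂ} (hu : ∀ j a, ContDiff ℝ 1 fun x => u j x a)
    (hsupp : ∀ j a, HasCompactSupport fun x => u j x a)
    (horth : ∀ j k, j ≠ k → ∫ x, ∑ a, conj (u j x a) * u k x a = 0)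
    (hnorm : ∀ j, ∫ x, ∑ a, ‖u j x a‖ ^ 2 = 1) :
    (∑ j, max 0 (energyM W (u j)) ^ γ) * ProbabilityTheory.beta (γ - 1) 2 ≤
      4 / (3 * Real.sqrt 3 * Real.pi) * (ProbabilityTheory.beta (γ - 1) (5 / 2) *
        ∫ x, ∑ i, (hW x).isHermitian.eigenvalues i ^ (γ + 1 / 2)) := by
  set C : ℝ := 4 / (3 * Real.sqrt 3 * Real.pi) with hC
  have hC0 : 0 ≤ C := by positivity
  set lam := fun x => (hW x).isHermitian.eigenvalues with hlam
  have hl0 : ∀ x i, 0 ≤ lam x i := fun x i => (hW x).eigenvalues_nonneg i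
  have hS0 : ∀ x, 0 ≤ ∑ i, lam x i ^ (γ + 1 / 2) := fun x =>
    Finset.sum_nonneg fun i _ => Real.rpow_nonneg (hl0 x i) _
  have hα : 0 < γ - 1 := by linarith
  have hb1 := ProbabilityTheory.beta_pos hα (by norm_num : (0 : ℝ) < 2)
  have hb2 := ProbabilityTheory.beta_pos hα (by norm_num : (0 : ℝ) < 5 / 2)
  have h2 : ∀ w : ℝ, ∫⁻ t in Ioi (0 : ℝ), ENNReal.ofReal (t ^ (γ - 1 - 1) * max 0 (w - t)) =
      ENNReal.ofReal (max 0 w ^ γ * ProbabilityTheory.beta (γ - 1) 2) := fun w => by
    have h := lintegral_rpow_mul_pos (w := w) hα one_pos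
    simpa [one_add_one_eq_two] using h
  have h5 : ∀ x : ℝ, ∫⁻ t in Ioi (0 : ℝ),
      ENNReal.ofReal (t ^ (γ - 1 - 1) * ∑ i, max 0 (lam x i - t) ^ (3 / 2 : ℝ)) =
      ENNReal.ofReal ((∑ i, lam x i ^ (γ + 1 / 2)) *
        ProbabilityTheory.beta (γ - 1) (5 / 2)) := fun x => by
    rw [Finset.sum_mul, ENNReal.ofReal_sum_of_nonneg fun i _ =>
      mul_nonneg (Real.rpow_nonneg (hl0 x i) _) hb2.le]
    rw [setLIntegral_congr_fun measurableSet_Ioi (g := fun t => ∑ i,
      ENNReal.ofReal (t ^ (γ - 1 - 1) * max 0 (lam x i - t) ^ (3 / 2 : ℝ)))]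
    · rw [lintegral_finsetSum _ fun i _ => by fun_prop]
      refine Finset.sum_congr rfl fun i _ => ?_
      rw [lintegral_rpow_mul_pos hα (by norm_num), max_eq_right (hl0 x i)]
      norm_num [show γ - 1 + 3 / 2 = γ + 1 / 2 by ring]
    · intro t (ht : 0 < t)
      simp only [Finset.mul_sum]
      exact ENNReal.ofReal_sum_of_nonneg fun i _ =>
        mul_nonneg (Real.rpow_nonneg ht.le _) (Real.rpow_nonneg (le_max_left _ _) _)
  have hm : Measurable (Function.uncurry fun t x =>
      ENNReal.ofReal (t ^ (γ - 1 - 1) * ∑ i, max 0 (lam x i - t) ^ (3 / 2 : ℝ))) := by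
    have hsum : Measurable (Function.uncurry fun t x =>
        ∑ i, max 0 (lam x i - t) ^ (3 / 2 : ℝ)) :=
      measurable_uncurry_of_continuous_of_measurable
        (fun x => continuous_finsetSum _ fun i _ => ((continuous_const.max
          (continuous_const.sub continuous_id)).rpow_const fun _ => Or.inr (by norm_num)))
        fun t => measurable_sum_eigen (fun x => (hW x).isHermitian) hWm
          (f := fun w => max 0 (w - t) ^ (3 / 2 : ℝ))
          ((continuous_const.max (continuous_id.sub continuous_const)).rpow_const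
            fun _ => Or.inr (by norm_num))
    exact ((measurable_fst.pow_const (γ - 1 - 1)).mul hsum).ennreal_ofReal
  have key : ENNReal.ofReal ((∑ j, max 0 (energyM W (u j)) ^ γ) *
      ProbabilityTheory.beta (γ - 1) 2) ≤
      ENNReal.ofReal (C * (ProbabilityTheory.beta (γ - 1) (5 / 2) *
        ∫ x, ∑ i, lam x i ^ (γ + 1 / 2))) :=
    calc ENNReal.ofReal ((∑ j, max 0 (energyM W (u j)) ^ γ) * ProbabilityTheory.beta (γ - 1) 2)
        = ∑ j, ∫⁻ t in Ioi (0 : ℝ),
            ENNReal.ofReal (t ^ (γ - 1 - 1) * max 0 (energyM W (u j) - t)) := by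
          simp only [h2]
          rw [Finset.sum_mul, ENNReal.ofReal_sum_of_nonneg fun j _ =>
            mul_nonneg (Real.rpow_nonneg (le_max_left _ _) _) hb1.le]
      _ = ∫⁻ t in Ioi (0 : ℝ),
            ∑ j, ENNReal.ofReal (t ^ (γ - 1 - 1) * max 0 (energyM W (u j) - t)) :=
          (lintegral_finsetSum _ fun j _ => by fun_prop).symm
      _ ≤ ∫⁻ t in Ioi (0 : ℝ), ENNReal.ofReal C *
            ∫⁻ x, ENNReal.ofReal (t ^ (γ - 1 - 1) * ∑ i, max 0 (lam x i - t) ^ (3 / 2 : ℝ)) := by
          refine setLIntegral_mono' measurableSet_Ioi fun t (ht : 0 < t) => ?_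
          have hi := shifted_integrable hγ.le hW hWm hWi ht
          have hle := sum_shiftedM (by linarith : (1 : ℝ) ≤ γ + 1 / 2) hW hWm hWi hu hsupp horth
            hnorm t hi
          have hpos : 0 ≤ t ^ (γ - 1 - 1) := Real.rpow_nonneg ht.le _
          rw [← ofReal_integral_eq_lintegral_ofReal (hi.const_mul _)
              (.of_forall fun x => mul_nonneg hpos
                (Finset.sum_nonneg fun i _ => Real.rpow_nonneg (le_max_left _ _) _)),
            ← ENNReal.ofReal_mul hC0,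
            ← ENNReal.ofReal_sum_of_nonneg fun j _ => mul_nonneg hpos (le_max_left _ _),
            ← Finset.mul_sum, MeasureTheory.integral_const_mul]
          exact ENNReal.ofReal_le_ofReal
            (le_of_le_of_eq (mul_le_mul_of_nonneg_left hle hpos) (by ring))
      _ = ENNReal.ofReal C * ∫⁻ x, ∫⁻ t in Ioi (0 : ℝ),
            ENNReal.ofReal (t ^ (γ - 1 - 1) * ∑ i, max 0 (lam x i - t) ^ (3 / 2 : ℝ)) := by
          rw [lintegral_const_mul' _ _ ENNReal.ofReal_ne_top,
            lintegral_lintegral_swap hm.aemeasurable]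
      _ = _ := by
          simp only [h5]
          rw [← ofReal_integral_eq_lintegral_ofReal (hWi.mul_const _)
              (.of_forall fun x => mul_nonneg (hS0 x) hb2.le),
            ← ENNReal.ofReal_mul hC0, MeasureTheory.integral_mul_const,
            mul_comm _ (ProbabilityTheory.beta _ _)]
  exact (ENNReal.ofReal_le_ofReal_iff (mul_nonneg hC0 (mul_nonneg hb2.le
    (integral_nonneg hS0)))).1 key

/-- Moments of order `γ ≥ 1` for matrix potentials. -/
theorem matrix_moment (γ : ℝ) (hγ : 1 ≤ γ) (hW : ∀ x, (W x).PosSemidef)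
    (hWm : ∀ a b, Measurable fun x => W x a b)
    (hWi : Integrable fun x => ∑ i, (hW x).isHermitian.eigenvalues i ^ (γ + 1 / 2))
    {u : ι → ℝ → Fin m → ℂ} (hu : ∀ j a, ContDiff ℝ 1 fun x => u j x a)
    (hsupp : ∀ j a, HasCompactSupport fun x => u j x a)
    (horth : ∀ j k, j ≠ k → ∫ x, ∑ a, conj (u j x a) * u k x a = 0)
    (hnorm : ∀ j, ∫ x, ∑ a, ‖u j x a‖ ^ 2 = 1) :
    ∑ j, max 0 (energyM W (u j)) ^ γ ≤
      2 / Real.sqrt 3 * (Real.Gamma (γ + 1) / (2 * Real.sqrt Real.pi * Real.Gamma (γ + 3 / 2))) *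
        ∫ x, ∑ i, (hW x).isHermitian.eigenvalues i ^ (γ + 1 / 2) := by
  have hπ := Real.pi_pos
  have hs : Real.sqrt Real.pi ^ 2 = Real.pi := Real.sq_sqrt hπ.le
  have hG5 : Real.Gamma (5 / 2) = 3 / 4 * Real.sqrt Real.pi := by
    rw [show (5 / 2 : ℝ) = 1 / 2 + 1 + 1 by norm_num, Real.Gamma_add_one (by norm_num),
      Real.Gamma_add_one (by norm_num), Real.Gamma_one_half_eq]
    ring
  rcases eq_or_lt_of_le hγ with h | h
  · subst h
    have hL : Real.Gamma ((1 : ℝ) + 1) / (2 * Real.sqrt Real.pi * Real.Gamma (1 + 3 / 2)) =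
        2 / (3 * Real.pi) := by
      rw [show (1 : ℝ) + 3 / 2 = 5 / 2 by norm_num, hG5, one_add_one_eq_two, Real.Gamma_two]
      field_simp
      first | linear_combination (-3 : ℝ) * hs | linarith [hs]
    rw [hL, show 2 / Real.sqrt 3 * (2 / (3 * Real.pi)) = 4 / (3 * Real.sqrt 3 * Real.pi) by
      field_simp; ring]
    have e : ∀ x i, max 0 ((hW x).isHermitian.eigenvalues i - 0) ^ (3 / 2 : ℝ) =
        (hW x).isHermitian.eigenvalues i ^ ((1 : ℝ) + 1 / 2) := fun x i => by
      rw [sub_zero, max_eq_right ((hW x).eigenvalues_nonneg i)]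
      norm_num
    have h0 := sum_shiftedM (by norm_num : (1 : ℝ) ≤ 1 + 1 / 2) hW hWm hWi hu hsupp horth hnorm 0
      (by simpa only [e] using hWi)
    simp only [e] at h0
    simpa only [sub_zero, Real.rpow_one] using h0
  · have hα : 0 < γ - 1 := by linarith
    have hb1 := ProbabilityTheory.beta_pos hα (by norm_num : (0 : ℝ) < 2)
    have key := liftedM h hW hWm hWi hu hsupp horth hnorm
    refine le_of_mul_le_mul_right (le_of_le_of_eq key ?_) hb1
    simp only [ProbabilityTheory.beta, hG5, Real.Gamma_two,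
      show γ - 1 + 2 = γ + 1 by ring, show γ - 1 + 5 / 2 = γ + 3 / 2 by ring]
    have h1 := (Real.Gamma_pos_of_pos (by linarith : 0 < γ + 1)).ne'
    have h2 := (Real.Gamma_pos_of_pos (by linarith : 0 < γ + 3 / 2)).ne'
    have h3 := (Real.Gamma_pos_of_pos hα).ne'
    field_simp
    rw [hs]

end Vale.Agent.P371.Sharp
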