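import Mathlib
import Vale.Agent.P371.MatrixLifting

/-!
The soliton lower bound: for every `γ > 1/2` and every size `m ≥ 1`, no constant below the
one-bound-state constant `L⁽¹⁾_γ` is admissible in the Lieb–Thirring inequality on the line.
The potential is `s (s + 1) sech² x` in one channel, `s = γ - 1/2`, with cut-off copies of its
ground state `(cosh x) ^ (-s)`.
-/

namespace Vale.Agent.P371.Soliton

open MeasureTheory Set Filter Topology Real
open scoped ComplexOrder

/-- `sech²`. -/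
noncomputable def sech2 (x : ℝ) : ℝ := 1 / cosh x ^ 2

/-- The ground state of the potential `optV s`. -/
noncomputable def gsfun (s x : ℝ) : ℝ := cosh x ^ (-s)

/-- The optimal potential. -/
noncomputable def optV (s x : ℝ) : ℝ := s * (s + 1) * sech2 x

theorem hasDerivAt_th (x : ℝ) : HasDerivAt (fun x => sinh x / cosh x) (sech2 x) x := by
  refine ((hasDerivAt_sinh x).div (hasDerivAt_cosh x) (cosh_pos x).ne').congr_deriv ?_
  rw [sech2]
  congr 1
  linear_combination cosh_sq x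

theorem th_sq (x : ℝ) : (sinh x / cosh x) ^ 2 = 1 - sech2 x := by
  have := cosh_pos x
  rw [sech2]
  field_simp
  linear_combination -cosh_sq x

theorem hasDerivAt_gsfun (s x : ℝ) :
    HasDerivAt (gsfun s) (-s * (sinh x / cosh x) * gsfun s x) x := by
  have hc := cosh_pos x
  refine ((hasDerivAt_cosh x).rpow_const (p := -s) (Or.inl hc.ne')).congr_deriv ?_
  rw [gsfun, Real.rpow_sub hc, Real.rpow_one]
  ring

theorem continuous_gsfun (s : ℝ) : Continuous (gsfun s) :=
  continuous_iff_continuousAt.2 fun x => (hasDerivAt_gsfun s x).continuousAt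

theorem gsfun_pos (s x : ℝ) : 0 < gsfun s x := Real.rpow_pos_of_pos (cosh_pos x) _

theorem cosh_mul_rpow (x : ℝ) (r : ℝ) :
    |cosh x| • (1 + sinh x ^ 2) ^ r = cosh x ^ (1 + 2 * r) := by
  have hc := cosh_pos x
  rw [abs_of_pos hc, smul_eq_mul, ← cosh_sq', ← Real.rpow_natCast (cosh x) 2,
    ← Real.rpow_mul hc.le, Real.rpow_add hc, Real.rpow_one]
  norm_num

theorem image_sinh : sinh '' univ = (univ : Set ℝ) := by
  rw [image_univ]; exact sinh_surjective.range_eq

theorem integral_sinh_subst (r : ℝ) :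
    ∫ t, (1 + t ^ 2) ^ r = ∫ x, cosh x ^ (1 + 2 * r) := by
  have h := integral_image_eq_integral_abs_deriv_smul (s := univ) MeasurableSet.univ
    (fun x _ => (hasDerivAt_sinh x).hasDerivWithinAt) sinh_injective.injOn
    (fun t : ℝ => (1 + t ^ 2) ^ r)
  rw [image_sinh, setIntegral_univ, setIntegral_univ] at h
  rw [h]
  simp only [cosh_mul_rpow]

theorem integrable_one_add_sq_rpow {a : ℝ} (ha : 1 / 2 < a) :
    Integrable fun t : ℝ => (1 + t ^ 2) ^ (-a) := by
  have h := integrable_rpow_neg_one_add_norm_sq (E := ℝ) (μ := volume) (r := 2 * a)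
    (by rw [Module.finrank_self]; push_cast; linarith)
  simp only [Real.norm_eq_abs, sq_abs] at h
  simpa [show -(2 * a) / 2 = -a by ring] using h

theorem integrable_cosh_rpow {b : ℝ} (hb : 0 < b) :
    Integrable fun x => cosh x ^ (-b) := by
  have h0 := integrable_one_add_sq_rpow (a := (b + 1) / 2) (by linarith)
  have h := (integrableOn_image_iff_integrableOn_abs_deriv_smul (s := univ) MeasurableSet.univ
    (fun x _ => (hasDerivAt_sinh x).hasDerivWithinAt) sinh_injective.injOn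
    (fun t : ℝ => (1 + t ^ 2) ^ (-((b + 1) / 2)))).1 (by rwa [image_sinh, integrableOn_univ])
  rw [integrableOn_univ] at h
  simp only [cosh_mul_rpow, show 1 + 2 * -((b + 1) / 2) = -b by ring] at h
  exact h

/-- `∫₀^∞ (1 + t²) ^ (-a) = √π Γ(a - 1/2) / (2 Γ(a))`. -/
theorem integral_Ioi_one_add_sq_rpow {a : ℝ} (ha : 1 / 2 < a) :
    ∫ t in Ioi (0 : ℝ), (1 + t ^ 2) ^ (-a) =
      Real.sqrt Real.pi * Real.Gamma (a - 1 / 2) / (2 * Real.Gamma a) := by
  have hG := Real.Gamma_pos_of_pos (by linarith : 0 < a)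
  have hG' := Real.Gamma_pos_of_pos (by linarith : 0 < a - 1 / 2)
  have hI := (integrable_one_add_sq_rpow ha).integrableOn (s := Ioi (0 : ℝ))
  have hA : ∀ t : ℝ, ENNReal.ofReal (Real.Gamma a * (1 + t ^ 2) ^ (-a)) =
      ∫⁻ s in Ioi (0 : ℝ), ENNReal.ofReal (s ^ (a - 1) * Real.exp (-((1 + t ^ 2) * s))) := by
    intro t
    have hr : 0 < 1 + t ^ 2 := by positivity
    have h := Real.integral_rpow_mul_exp_neg_mul_Ioi (a := a) (r := 1 + t ^ 2) (by linarith) hr
    have hi : IntegrableOn (fun s : ℝ => s ^ (a - 1) * Real.exp (-((1 + t ^ 2) * s))) (Ioi 0) :=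
      .of_integral_ne_zero (by rw [h]; positivity)
    rw [← ofReal_integral_eq_lintegral_ofReal hi
      (by filter_upwards [ae_restrict_mem measurableSet_Ioi] with s (hs : 0 < s) using by positivity),
      h, one_div (1 + t ^ 2), Real.inv_rpow hr.le, ← Real.rpow_neg hr.le, mul_comm]
  have hB : ∀ s ∈ Ioi (0 : ℝ),
      ∫⁻ t in Ioi (0 : ℝ), ENNReal.ofReal (s ^ (a - 1) * Real.exp (-((1 + t ^ 2) * s))) =
      ENNReal.ofReal (Real.sqrt Real.pi / 2 * (Real.exp (-s) * s ^ (a - 1 / 2 - 1))) := by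
    intro s (hs : 0 < s)
    have e : ∀ t : ℝ, s ^ (a - 1) * Real.exp (-((1 + t ^ 2) * s)) =
        s ^ (a - 1) * Real.exp (-s) * Real.exp (-s * t ^ 2) := fun t => by
      rw [mul_assoc, ← Real.exp_add]; ring_nf
    simp only [e]
    rw [← ofReal_integral_eq_lintegral_ofReal
      (((integrable_exp_neg_mul_sq hs).integrableOn).const_mul _)
      (.of_forall fun t => by positivity), MeasureTheory.integral_const_mul, integral_gaussian_Ioi,
      Real.sqrt_div Real.pi_pos.le, Real.sqrt_eq_rpow s]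
    congr 1
    rw [show a - 1 / 2 - 1 = a - 1 - 1 / 2 by ring, Real.rpow_sub hs (a - 1) (1 / 2)]
    ring
  have hg : IntegrableOn (fun s : ℝ => Real.exp (-s) * s ^ (a - 1 / 2 - 1)) (Ioi 0) :=
    Real.GammaIntegral_convergent (by linarith)
  have key : ENNReal.ofReal (Real.Gamma a * ∫ t in Ioi (0 : ℝ), (1 + t ^ 2) ^ (-a)) =
      ENNReal.ofReal (Real.sqrt Real.pi / 2 * Real.Gamma (a - 1 / 2)) := by
    rw [← MeasureTheory.integral_const_mul,
      ofReal_integral_eq_lintegral_ofReal (hI.const_mul _) (.of_forall fun t => by positivity)]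
    simp only [hA]
    rw [lintegral_lintegral_swap (by fun_prop), setLIntegral_congr_fun measurableSet_Ioi hB,
      ← ofReal_integral_eq_lintegral_ofReal (hg.const_mul _)
      (by filter_upwards [ae_restrict_mem measurableSet_Ioi] with s (hs : 0 < s) using by positivity),
      MeasureTheory.integral_const_mul, Real.Gamma_eq_integral (by linarith : 0 < a - 1 / 2)]
  have h0 : 0 ≤ ∫ t in Ioi (0 : ℝ), (1 + t ^ 2) ^ (-a) :=
    setIntegral_nonneg measurableSet_Ioi fun t _ => by positivity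
  rw [ENNReal.ofReal_eq_ofReal_iff (by positivity) (by positivity)] at key
  rw [eq_div_iff (by positivity)]
  linarith

theorem continuous_optV (s : ℝ) : Continuous (optV s) := by
  unfold optV sech2
  exact continuous_const.mul
    (continuous_const.div (continuous_cosh.pow 2) fun x => (pow_pos (cosh_pos x) 2).ne')

theorem optV_nonneg {s : ℝ} (hs : 0 ≤ s) (x : ℝ) : 0 ≤ optV s x := by
  unfold optV sech2; positivity

theorem optV_rpow {s : ℝ} (hs : 0 ≤ s) (x : ℝ) :
    optV s x ^ (s + 1) = (s * (s + 1)) ^ (s + 1) * cosh x ^ (-(2 * (s + 1))) := by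
  have hc := cosh_pos x
  rw [optV, sech2, Real.mul_rpow (by positivity) (by positivity), one_div,
    Real.inv_rpow (by positivity), ← Real.rpow_natCast (cosh x) 2, ← Real.rpow_mul hc.le,
    ← Real.rpow_neg hc.le]
  norm_num

theorem integrable_optV {s : ℝ} (hs : 0 < s) : Integrable fun x => optV s x ^ (s + 1) := by
  simp only [optV_rpow hs.le]
  exact (integrable_cosh_rpow (by linarith)).const_mul _

theorem integral_optV {s : ℝ} (hs : 0 < s) :
    ∫ x, optV s x ^ (s + 1) = (s * (s + 1)) ^ (s + 1) *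
      (Real.sqrt Real.pi * Real.Gamma (s + 1) / Real.Gamma (s + 3 / 2)) := by
  simp only [optV_rpow hs.le]
  rw [MeasureTheory.integral_const_mul,
    show -(2 * (s + 1)) = 1 + 2 * -(s + 3 / 2) by ring, ← integral_sinh_subst]
  congr 1
  have h := integral_comp_abs (f := fun t : ℝ => (1 + t ^ 2) ^ (-(s + 3 / 2)))
  simp only [sq_abs] at h
  rw [h, integral_Ioi_one_add_sq_rpow (by linarith), show s + 3 / 2 - 1 / 2 = s + 1 by ring]
  ring

theorem optimal_value {s : ℝ} (hs : 0 < s) :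
    (s ^ 2) ^ (s + 1 / 2) = 2 * (s / (s + 1)) ^ s *
        (Real.Gamma (s + 3 / 2) / (2 * Real.sqrt Real.pi * Real.Gamma (s + 2))) *
      ∫ x, optV s x ^ (s + 1) := by
  rw [integral_optV hs]
  have g2 : Real.Gamma (s + 2) = (s + 1) * Real.Gamma (s + 1) := by
    rw [show s + 2 = s + 1 + 1 by ring, Real.Gamma_add_one (by linarith)]
  have := Real.Gamma_pos_of_pos (by linarith : 0 < s + 1)
  have := Real.Gamma_pos_of_pos (by linarith : 0 < s + 3 / 2)
  have := Real.sqrt_pos.2 Real.pi_pos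
  have e : (s ^ 2) ^ (s + 1 / 2) * (s + 1) = (s / (s + 1)) ^ s * (s * (s + 1)) ^ (s + 1) := by
    have e1 : (s ^ 2) ^ (s + 1 / 2) = s ^ s * s ^ (s + 1) := by
      rw [← Real.rpow_natCast s 2, ← Real.rpow_mul hs.le, ← Real.rpow_add hs]
      congr 1
      push_cast
      ring
    have e2 : (s + 1) ^ (s + 1) = (s + 1) ^ s * (s + 1) := by
      rw [Real.rpow_add (by linarith), Real.rpow_one]
    have := Real.rpow_pos_of_pos (by linarith : 0 < s + 1) s
    rw [e1, Real.div_rpow hs.le (by linarith), Real.mul_rpow hs.le (by linarith), e2]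
    field_simp
  rw [g2]
  generalize (s ^ 2) ^ (s + 1 / 2) = X at e ⊢
  generalize (s / (s + 1)) ^ s = Y at e ⊢
  generalize (s * (s + 1)) ^ (s + 1) = Z at e ⊢
  field_simp
  linear_combination e

theorem hasCompactSupport_sq {f : ℝ → ℝ} (hf : HasCompactSupport f) :
    HasCompactSupport fun x => f x ^ 2 := hf.comp_left (g := fun t : ℝ => t ^ 2) (by norm_num)

/-- The ground-state identity for a cut-off ground state. -/
theorem ground (s : ℝ) {χ χ' : ℝ → ℝ} (hd : ∀ x, HasDerivAt χ (χ' x) x) (hc : Continuous χ')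
    (hs : HasCompactSupport χ) :
    ∃ v v' : ℝ → ℝ, v = (fun x => χ x * gsfun s x) ∧ (∀ x, HasDerivAt v (v' x) x) ∧
      Continuous v' ∧ HasCompactSupport v ∧
      (∫ x, optV s x * v x ^ 2) - ∫ x, v' x ^ 2 =
        s ^ 2 * (∫ x, v x ^ 2) - ∫ x, (χ' x * gsfun s x) ^ 2 := by
  obtain ⟨th, hth⟩ : ∃ th : ℝ → ℝ, th = fun x => sinh x / cosh x := ⟨_, rfl⟩
  have hthd : ∀ x, HasDerivAt th (sech2 x) x := hth ▸ hasDerivAt_th
  have hgd : ∀ x, HasDerivAt (gsfun s) (-s * th x * gsfun s x) x := hth ▸ hasDerivAt_gsfun s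
  have hsq : ∀ x, th x ^ 2 = 1 - sech2 x := hth ▸ th_sq
  obtain ⟨w, hw⟩ : ∃ w : ℝ → ℝ, w = fun x => χ x * (-s * th x * gsfun s x) := ⟨_, rfl⟩
  obtain ⟨v, hv⟩ : ∃ v : ℝ → ℝ, v = fun x => χ x * gsfun s x := ⟨_, rfl⟩
  obtain ⟨v', hv'⟩ : ∃ v' : ℝ → ℝ, v' = fun x => χ' x * gsfun s x + w x := ⟨_, rfl⟩
  have hvd : ∀ x, HasDerivAt v (v' x) x := fun x => by
    rw [hv, hv', hw]; exact (hd x).mul (hgd x)
  have hχc : Continuous χ := continuous_iff_continuousAt.2 fun x => (hd x).continuousAt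
  have hthc : Continuous th := continuous_iff_continuousAt.2 fun x => (hthd x).continuousAt
  have hwc : Continuous w := by
    rw [hw]; exact hχc.mul ((continuous_const.mul hthc).mul (continuous_gsfun s))
  have hv'c : Continuous v' := by rw [hv']; exact (hc.mul (continuous_gsfun s)).add hwc
  have hvs : HasCompactSupport v := hv ▸ hs.mul_right
  have hvc : Continuous v := continuous_iff_continuousAt.2 fun x => (hvd x).continuousAt
  have hv's : HasCompactSupport v' := by
    have : v' = deriv v := funext fun x => (hvd x).deriv.symm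
    rw [this]; exact hvs.deriv
  have hχ's : HasCompactSupport χ' := by
    have : χ' = deriv χ := funext fun x => (hd x).deriv.symm
    rw [this]; exact hs.deriv
  refine ⟨v, v', hv, hvd, hv'c, hvs, ?_⟩
  have i1 : Integrable fun x => v x ^ 2 :=
    (hvc.pow 2).integrable_of_hasCompactSupport (hasCompactSupport_sq hvs)
  have i2 : Integrable fun x => v' x ^ 2 :=
    (hv'c.pow 2).integrable_of_hasCompactSupport (hasCompactSupport_sq hv's)
  have i3 : Integrable fun x => (χ' x * gsfun s x) ^ 2 :=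
    ((hc.mul (continuous_gsfun s)).pow 2).integrable_of_hasCompactSupport
      (hasCompactSupport_sq hχ's.mul_right)
  have i4 : Integrable fun x => optV s x * v x ^ 2 :=
    ((continuous_optV s).mul (hvc.pow 2)).integrable_of_hasCompactSupport
      ((hasCompactSupport_sq hvs).mul_left (f := optV s))
  obtain ⟨F', hF'⟩ : ∃ F' : ℝ → ℝ, F' = fun x =>
      s ^ 2 * v x ^ 2 - (χ' x * gsfun s x) ^ 2 - (optV s x * v x ^ 2 - v' x ^ 2) := ⟨_, rfl⟩
  have hFd : ∀ x, HasDerivAt (fun x => v x * w x) (F' x) x := fun x => by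
    have h := (hvd x).mul ((hd x).mul (((hthd x).const_mul (-s)).mul (hgd x)))
    have e := hsq x
    rw [hw, hF']
    refine h.congr_deriv ?_
    simp only [hv, hv', hw, optV, Pi.mul_apply]
    linear_combination (2 * s ^ 2 * (χ x * gsfun s x) ^ 2 - s ^ 2 * (χ x * gsfun s x) ^ 2) * e
  have h0 : ∫ x, F' x = 0 := by
    refine integral_eq_zero_of_hasDerivAt_of_integrable hFd ?_
      ((hvc.mul hwc).integrable_of_hasCompactSupport hvs.mul_right)
    rw [hF']; exact ((i1.const_mul _).sub i3).sub (i4.sub i2)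
  rw [hF', integral_sub, integral_sub, integral_sub i4 i2, MeasureTheory.integral_const_mul] at h0
  · linarith
  · exact i1.const_mul _
  · exact i3
  · exact (i1.const_mul _).sub i3
  · exact i4.sub i2

/-- Almost optimal normalised trial functions. -/
theorem trial_seq {s : ℝ} (hs : 0 < s) :
    ∃ M : ℝ, ∀ n : ℕ, ∃ u : ℝ → ℂ, ContDiff ℝ 1 u ∧ HasCompactSupport u ∧
      ∫ x, ‖u x‖ ^ 2 = 1 ∧
      s ^ 2 - M / ((n : ℝ) + 1) ^ 2 ≤
        (∫ x, optV s x * ‖u x‖ ^ 2) - ∫ x, ‖deriv u x‖ ^ 2 := by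
  obtain ⟨b, hb⟩ : ∃ b : ContDiffBump (0 : ℝ), b = ⟨1, 2, one_pos, one_lt_two⟩ := ⟨_, rfl⟩
  have hb1 : ContDiff ℝ 1 (b : ℝ → ℝ) := b.contDiff
  have hbd : Continuous (deriv (b : ℝ → ℝ)) := hb1.continuous_deriv le_rfl
  obtain ⟨C, hC⟩ := hbd.bounded_above_of_compact_support b.hasCompactSupport.deriv
  have hbv : ∀ x, |x| ≤ 1 → b x = 1 := fun x hx => by
    refine b.one_of_mem_closedBall ?_
    simpa [hb] using hx
  have hgi : Integrable fun x => gsfun s x ^ 2 := by
    refine (integrable_cosh_rpow (b := 2 * s) (by linarith)).congr (.of_forall fun x => ?_)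
    simp only [gsfun]
    rw [← Real.rpow_natCast, ← Real.rpow_mul (cosh_pos x).le]
    congr 1
    push_cast
    ring
  obtain ⟨N0, hN0⟩ : ∃ N0, N0 = ∫ x in Icc (-1 : ℝ) 1, gsfun s x ^ 2 := ⟨_, rfl⟩
  have hN0p : 0 < N0 := by
    rw [hN0, integral_Icc_eq_integral_Ioc, ← intervalIntegral.integral_of_le (by norm_num)]
    exact intervalIntegral.intervalIntegral_pos_of_pos
      (((continuous_gsfun s).pow 2).intervalIntegrable _ _) (fun x => pow_pos (gsfun_pos s x) 2)
      (by norm_num)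
  refine ⟨C ^ 2 * (∫ x, gsfun s x ^ 2) / N0, fun n => ?_⟩
  obtain ⟨k, hk⟩ : ∃ k : ℝ, k = (n : ℝ) + 1 := ⟨_, rfl⟩
  have hk0 : 0 < k := by rw [hk]; positivity
  have hk1 : 1 ≤ k := by rw [hk]; linarith [Nat.cast_nonneg (α := ℝ) n]
  rw [← hk]
  have hd : ∀ x, HasDerivAt (fun x => b (x / k)) (deriv (b : ℝ → ℝ) (x / k) / k) x := fun x => by
    have h2 : HasDerivAt (b : ℝ → ℝ) (deriv (b : ℝ → ℝ) (x / k)) (x / k) :=
      (hb1.differentiable one_ne_zero (x / k)).hasDerivAt
    have h3 : HasDerivAt (fun x : ℝ => x / k) (1 / k) x := (hasDerivAt_id' x).div_const k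
    refine (h2.comp x h3).congr_deriv ?_
    ring
  have hc : Continuous fun x => deriv (b : ℝ → ℝ) (x / k) / k :=
    (hbd.comp (continuous_id.div_const k)).div_const k
  have hsupp : HasCompactSupport fun x => b (x / k) := by
    have := b.hasCompactSupport.comp_homeomorph (Homeomorph.mulRight₀ k⁻¹ (inv_ne_zero hk0.ne'))
    simpa [Function.comp_def, div_eq_mul_inv] using this
  obtain ⟨v, v', hv, hvd, hv'c, hvs, hid⟩ := ground s hd hc hsupp
  have hvc : Continuous v := continuous_iff_continuousAt.2 fun x => (hvd x).continuousAt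
  have i1 : Integrable fun x => v x ^ 2 :=
    (hvc.pow 2).integrable_of_hasCompactSupport (hasCompactSupport_sq hvs)
  obtain ⟨N, hN⟩ : ∃ N, N = ∫ x, v x ^ 2 := ⟨_, rfl⟩
  have hge : N0 ≤ N := by
    rw [hN, hN0]
    refine le_trans (le_of_eq ?_)
      (setIntegral_le_integral (s := Icc (-1 : ℝ) 1) i1 (.of_forall fun x => sq_nonneg _))
    refine setIntegral_congr_fun measurableSet_Icc fun x hx => ?_
    have h1 : b (x / k) = 1 := hbv _ (by
      rw [abs_div, abs_of_pos hk0, div_le_one hk0]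
      exact (abs_le.2 hx).trans hk1)
    simp [hv, h1]
  have hNp : 0 < N := hN0p.trans_le hge
  have hE : ∫ x, (deriv (b : ℝ → ℝ) (x / k) / k * gsfun s x) ^ 2 ≤
      C ^ 2 / k ^ 2 * ∫ x, gsfun s x ^ 2 := by
    rw [← MeasureTheory.integral_const_mul]
    refine integral_mono_of_nonneg (.of_forall fun x => sq_nonneg _)
      (hgi.const_mul _) (.of_forall fun x => ?_)
    simp only [mul_pow, div_pow]
    have h := hC (x / k)
    rw [Real.norm_eq_abs] at h
    have h2 := pow_le_pow_left₀ (abs_nonneg _) h 2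
    rw [sq_abs] at h2
    gcongr
  have hud : ∀ x, HasDerivAt (fun x => ((v x / Real.sqrt N : ℝ) : ℂ))
      ((v' x / Real.sqrt N : ℝ) : ℂ) x := fun x => ((hvd x).div_const _).ofReal_comp
  refine ⟨fun x => ((v x / Real.sqrt N : ℝ) : ℂ), ?_, ?_, ?_, ?_⟩
  · refine contDiff_one_iff_deriv.2 ⟨fun x => (hud x).differentiableAt, ?_⟩
    rw [funext fun x => (hud x).deriv]
    exact Complex.continuous_ofReal.comp (hv'c.div_const _)
  · exact hvs.comp_left (g := fun t : ℝ => ((t / Real.sqrt N : ℝ) : ℂ)) (by simp)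
  · simp only [Complex.norm_real, Real.norm_eq_abs, sq_abs, div_pow, Real.sq_sqrt hNp.le]
    rw [integral_div, ← hN, div_self hNp.ne']
  · simp only [fun x => (hud x).deriv, Complex.norm_real, Real.norm_eq_abs, sq_abs, div_pow,
      Real.sq_sqrt hNp.le, ← mul_div_assoc]
    rw [integral_div, integral_div, div_sub_div_same, le_div_iff₀ hNp, hid, ← hN]
    have h1 : C ^ 2 / k ^ 2 * (∫ x, gsfun s x ^ 2) =
        C ^ 2 * (∫ x, gsfun s x ^ 2) / N0 / k ^ 2 * N0 := by field_simp
    have h2 : 0 ≤ C ^ 2 * (∫ x, gsfun s x ^ 2) / N0 / k ^ 2 := by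
      have : 0 ≤ ∫ x, gsfun s x ^ 2 := integral_nonneg fun x => sq_nonneg _
      positivity
    nlinarith [mul_le_mul_of_nonneg_left hge h2]

/-- No constant below the one-bound-state constant is admissible for scalar potentials and one
normalised trial function, for any `γ > 1/2`. -/
theorem sharp_scalar {γ : ℝ} (hγ : 1 / 2 < γ) {L : ℝ}
    (hL : ∀ (W : ℝ → ℝ), Continuous W → (∀ x, 0 ≤ W x) →
      (Integrable fun x => W x ^ (γ + 1 / 2)) → ∀ u : ℝ → ℂ, ContDiff ℝ 1 u →
      HasCompactSupport u → ∫ x, ‖u x‖ ^ 2 = 1 →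
      max 0 ((∫ x, W x * ‖u x‖ ^ 2) - ∫ x, ‖deriv u x‖ ^ 2) ^ γ ≤
        L * ∫ x, W x ^ (γ + 1 / 2)) :
    2 * ((γ - 1 / 2) / (γ + 1 / 2)) ^ (γ - 1 / 2) *
      (Real.Gamma (γ + 1) / (2 * Real.sqrt Real.pi * Real.Gamma (γ + 3 / 2))) ≤ L := by
  obtain ⟨s, rfl⟩ : ∃ s, γ = s + 1 / 2 := ⟨γ - 1 / 2, by ring⟩
  have hs : 0 < s := by linarith
  simp only [show s + 1 / 2 + 1 / 2 = s + 1 by ring, show s + 1 / 2 - 1 / 2 = s by ring,
    show s + 1 / 2 + 1 = s + 3 / 2 by ring, show s + 1 / 2 + 3 / 2 = s + 2 by ring] at hL ⊢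
  obtain ⟨M, hM⟩ := trial_seq hs
  have key : ∀ n : ℕ, max 0 (s ^ 2 - M / ((n : ℝ) + 1) ^ 2) ^ (s + 1 / 2) ≤
      L * ∫ x, optV s x ^ (s + 1) := fun n => by
    obtain ⟨u, h1, h2, h3, h4⟩ := hM n
    exact le_trans (Real.rpow_le_rpow (le_max_left _ _) (max_le_max le_rfl h4) (by linarith))
      (hL _ (continuous_optV s) (optV_nonneg hs.le) (integrable_optV hs) u h1 h2 h3)
  have hlim : Tendsto (fun n : ℕ => max 0 (s ^ 2 - M / ((n : ℝ) + 1) ^ 2) ^ (s + 1 / 2)) atTop
      (𝓝 ((s ^ 2) ^ (s + 1 / 2))) := by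
    have h1 : Tendsto (fun n : ℕ => M / ((n : ℝ) + 1) ^ 2) atTop (𝓝 0) :=
      tendsto_const_nhds.div_atTop ((tendsto_pow_atTop two_ne_zero).comp
        (tendsto_atTop_add_const_right _ 1 tendsto_natCast_atTop_atTop))
    have h2 := ((tendsto_const_nhds (x := (0 : ℝ))).max
      ((tendsto_const_nhds (x := s ^ 2)).sub h1)).rpow_const
        (p := s + 1 / 2) (Or.inr (by linarith))
    simpa [max_eq_right (sq_nonneg s)] using h2
  have h := le_of_tendsto' hlim key
  rw [optimal_value hs] at h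
  refine le_of_mul_le_mul_right h ?_
  have := Real.Gamma_pos_of_pos (by linarith : 0 < s + 1)
  have := Real.Gamma_pos_of_pos (by linarith : 0 < s + 3 / 2)
  have := Real.sqrt_pos.2 Real.pi_pos
  rw [integral_optV hs]
  positivity

/-- The potential supported in the first channel has `tr W^p = w^p`. -/
theorem sum_eigenvalues_diag {m : ℕ} (i₀ : Fin m) {w : ℝ}
    (h : (Matrix.diagonal fun i : Fin m => if i = i₀ then (w : ℂ) else 0).IsHermitian)
    {f : ℝ → ℝ} (hf : f 0 = 0) :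
    ∑ i, f (h.eigenvalues i) = f w := by
  have e := h.roots_charpoly_eq_eigenvalues
  rw [Matrix.charpoly_diagonal, Polynomial.roots_prod _ _
    (Finset.prod_ne_zero_iff.2 fun i _ => Polynomial.X_sub_C_ne_zero _)] at e
  simp only [Polynomial.roots_X_sub_C, Multiset.bind_singleton] at e
  have e2 := congrArg (fun M : Multiset ℂ => (M.map fun z => f z.re).sum) e
  simp only [Multiset.map_map, Function.comp_def] at e2
  have e3 : ∀ i : Fin m, f ((if i = i₀ then (w : ℂ) else 0).re) = if i = i₀ then f w else 0 :=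
    fun i => by split_ifs <;> simp [hf]
  simp only [e3] at e2
  have e4 : ∑ i, f (h.eigenvalues i) = ∑ i, if i = i₀ then f w else 0 := e2.symm
  simpa using e4

/-- For every `γ > 1/2` and every `m ≥ 1`, nothing below the one-bound-state constant is
admissible in the Lieb–Thirring inequality for `m × m` potentials. -/
theorem sharp_matrix {γ : ℝ} (hγ : 1 / 2 < γ) {m : ℕ} (hm : 0 < m) {L : ℝ}
    (hL : ∀ (W : ℝ → Matrix (Fin m) (Fin m) ℂ) (hW : ∀ x, (W x).PosSemidef),
      (∀ a b, Measurable fun x => W x a b) →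
      (Integrable fun x => ∑ i, (hW x).isHermitian.eigenvalues i ^ (γ + 1 / 2)) →
      ∀ (n : ℕ) (ψ : Fin n → ℝ → Fin m → ℂ),
      (∀ j a, ContDiff ℝ 1 fun x => ψ j x a) → (∀ j a, HasCompactSupport fun x => ψ j x a) →
      (∀ j k, j ≠ k → ∫ x, ∑ a, (starRingEnd ℂ) (ψ j x a) * ψ k x a = 0) →
      (∀ j, ∫ x, ∑ a, ‖ψ j x a‖ ^ 2 = 1) →
      ∑ j, max 0 ((∫ x, (∑ a, ∑ b, (starRingEnd ℂ) (ψ j x a) * W x a b * ψ j x b).re) -
          ∫ x, ∑ a, ‖deriv (fun y => ψ j y a) x‖ ^ 2) ^ γ ≤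
        L * ∫ x, ∑ i, (hW x).isHermitian.eigenvalues i ^ (γ + 1 / 2)) :
    2 * ((γ - 1 / 2) / (γ + 1 / 2)) ^ (γ - 1 / 2) *
      (Real.Gamma (γ + 1) / (2 * Real.sqrt Real.pi * Real.Gamma (γ + 3 / 2))) ≤ L := by
  obtain ⟨i₀⟩ : Nonempty (Fin m) := ⟨⟨0, hm⟩⟩
  refine sharp_scalar hγ fun w hwc hw0 hwi u hu1 hu2 hu3 => ?_
  have hW : ∀ x, (Matrix.diagonal fun i : Fin m => if i = i₀ then (w x : ℂ) else 0).PosSemidef :=
    fun x => Matrix.PosSemidef.diagonal fun i => by
      split_ifs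
      · exact Complex.zero_le_real.2 (hw0 x)
      · exact le_rfl
  have htr : ∀ x, ∑ i, (hW x).isHermitian.eigenvalues i ^ (γ + 1 / 2) = w x ^ (γ + 1 / 2) :=
    fun x => sum_eigenvalues_diag i₀ (f := fun t => t ^ (γ + 1 / 2)) _
      (Real.zero_rpow (by linarith))
  have h := hL _ hW ?_ (by simpa only [htr] using hwi) 1
    (fun _ x a => if a = i₀ then u x else 0) ?_ ?_
    (fun j k hjk => absurd (Subsingleton.elim j k) hjk) ?_
  · have he1 : ∀ x, (∑ a, ∑ b, (starRingEnd ℂ) (if a = i₀ then u x else 0) *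
        Matrix.diagonal (fun i : Fin m => if i = i₀ then (w x : ℂ) else 0) a b *
        (if b = i₀ then u x else 0)).re = w x * ‖u x‖ ^ 2 := fun x => by
      rw [Finset.sum_eq_single i₀ (fun a _ ha => by simp [ha]) (by simp),
        Finset.sum_eq_single i₀ (fun b _ hb => by simp [hb]) (by simp)]
      simp only [Matrix.diagonal_apply_eq, if_pos]
      rw [mul_comm ((starRingEnd ℂ) (u x)) (w x : ℂ), mul_assoc, Complex.conj_mul',
        ← Complex.ofReal_pow, ← Complex.ofReal_mul, Complex.ofReal_re]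
    have he2 : ∀ x, ∑ a, ‖deriv (fun y => if a = i₀ then u y else 0) x‖ ^ 2 =
        ‖deriv u x‖ ^ 2 := fun x => by
      rw [Finset.sum_eq_single i₀ (fun a _ ha => by simp [ha]) (by simp)]
      simp
    simp only [Finset.univ_unique, Finset.sum_singleton, he1, he2, htr] at h
    exact h
  · intro a b
    by_cases hab : a = b
    · subst hab
      by_cases ha : a = i₀
      · simp only [Matrix.diagonal_apply_eq, if_pos ha]
        exact (Complex.continuous_ofReal.comp hwc).measurable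
      · simp [ha]
    · simp [Matrix.diagonal_apply_ne _ hab]
  · intro _ a
    by_cases ha : a = i₀
    · simpa [ha] using hu1
    · simp only [ha, if_false]; exact contDiff_const
  · intro _ a
    by_cases ha : a = i₀
    · simpa [ha] using hu2
    · simp only [ha, if_false]; exact HasCompactSupport.zero
  · intro _
    simpa [apply_ite, ite_pow] using hu3

/-- `sharp_matrix` with the form value written as `energyM`. -/
theorem sharp_energyM {γ : ℝ} (hγ : 1 / 2 < γ) {m : ℕ} (hm : 0 < m) {L : ℝ}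
    (hL : ∀ (W : ℝ → Matrix (Fin m) (Fin m) ℂ) (hW : ∀ x, (W x).PosSemidef),
      (∀ a b, Measurable fun x => W x a b) →
      (Integrable fun x => ∑ i, (hW x).isHermitian.eigenvalues i ^ (γ + 1 / 2)) →
      ∀ (n : ℕ) (ψ : Fin n → ℝ → Fin m → ℂ),
      (∀ j a, ContDiff ℝ 1 fun x => ψ j x a) → (∀ j a, HasCompactSupport fun x => ψ j x a) →
      (∀ j k, j ≠ k → ∫ x, ∑ a, (starRingEnd ℂ) (ψ j x a) * ψ k x a = 0) →
      (∀ j, ∫ x, ∑ a, ‖ψ j x a‖ ^ 2 = 1) →
      ∑ j, max 0 (Sharp.energyM W (ψ j)) ^ γ ≤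
        L * ∫ x, ∑ i, (hW x).isHermitian.eigenvalues i ^ (γ + 1 / 2)) :
    2 * ((γ - 1 / 2) / (γ + 1 / 2)) ^ (γ - 1 / 2) *
      (Real.Gamma (γ + 1) / (2 * Real.sqrt Real.pi * Real.Gamma (γ + 3 / 2))) ≤ L := by
  refine sharp_matrix hγ hm fun W hW h1 h2 n ψ h3 h4 h5 h6 => ?_
  have e : ∀ j x, (star (ψ j x) ⬝ᵥ Matrix.mulVec (W x) (ψ j x)) =
      ∑ a, ∑ b, (starRingEnd ℂ) (ψ j x a) * W x a b * ψ j x b := fun j x => by
    simp only [dotProduct, Matrix.mulVec, Pi.star_apply, Finset.mul_sum, mul_assoc]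
    rfl
  simpa only [Sharp.energyM, e] using hL W hW h1 h2 n ψ h3 h4 h5 h6

end Vale.Agent.P371.Soliton
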