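import Vale.Agent.P371.SharpProfile

/-!
The calibration inequality at a point for a matrix density: the calibration is
`Σ_{ij} P (s_i + s_j) W_ij ^ 2`, where `W` is the Gram operator of the columns.
-/

namespace Vale.Agent.P371.Matrix

open Finset RealInnerProductSpace Sharp

variable {E : Type*} [NormedAddCommGroup E] [InnerProductSpace ℝ E]
variable {α : Type*} [Fintype α]

/-- The moments `⟨p a, T^k p b⟩`. -/
noncomputable def mom2 (T : E →L[ℝ] E) (p : α → E) (a b : α) (k : ℕ) : ℝ := ⟪p a, (T ^ k) (p b)⟫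

/-- The derivative of a moment when `p` moves by `d` and `T` by `c Σ p pᵀ`. -/
noncomputable def momD2 (T : E →L[ℝ] E) (p d : α → E) (c : ℝ) (a b : α) (k : ℕ) : ℝ :=
  ⟪d a, (T ^ k) (p b)⟫ + ⟪d b, (T ^ k) (p a)⟫ +
    c * ∑ l ∈ range k, ∑ e, mom2 T p a e l * mom2 T p e b (k - 1 - l)

/-- The derivative of the calibration. -/
noncomputable def calD2 (A : ℕ → ℝ) (N : ℕ) (T : E →L[ℝ] E) (p d : α → E) (c : ℝ) : ℝ :=
  ∑ n ∈ range N, ∑ k ∈ range (n + 1), A n * n.choose k * ∑ a, ∑ b,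
    (momD2 T p d c a b k * mom2 T p b a (n - k) + mom2 T p a b k * momD2 T p d c b a (n - k))

theorem calD2_eq (A : ℕ → ℝ) (N : ℕ) (T : E →L[ℝ] E) (p d : α → E) (c : ℝ) :
    calD2 A N T p d c = ∑ n ∈ range N, ∑ k ∈ range (n + 1),
      2 * (A n * n.choose k) * ∑ a, ∑ b, momD2 T p d c a b k * mom2 T p b a (n - k) := by
  refine sum_congr rfl fun n _ => ?_
  simp only [mul_add, sum_add_distrib]
  have : ∑ k ∈ range (n + 1),
      A n * n.choose k * ∑ a, ∑ b, mom2 T p a b k * momD2 T p d c b a (n - k) =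
      ∑ k ∈ range (n + 1),
        A n * n.choose k * ∑ a, ∑ b, momD2 T p d c a b k * mom2 T p b a (n - k) := by
    rw [← sum_range_reflect]
    refine sum_congr rfl fun k hk => ?_
    have hk' : k ≤ n := by simp at hk; omega
    rw [show n + 1 - 1 - k = n - k by omega, Nat.choose_symm hk', Nat.sub_sub_self hk', sum_comm]
    simp only [mul_comm (mom2 T p _ _ _)]
  rw [this, ← sum_add_distrib]
  exact sum_congr rfl fun k _ => by ring

theorem sum3_comm {ι : Type*} [Fintype ι] (F : α → α → α → ι → ι → ι → ℝ) :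
    ∑ a, ∑ e, ∑ b, ∑ i, ∑ j, ∑ m, F a e b i j m =
      ∑ i, ∑ j, ∑ m, ∑ a, ∑ e, ∑ b, F a e b i j m := by
  have h := Finset.sum_comm (s := (Finset.univ : Finset (α × α × α)))
    (t := (Finset.univ : Finset (ι × ι × ι)))
    (f := fun x y => F x.1 x.2.1 x.2.2 y.1 y.2.1 y.2.2)
  simpa only [Fintype.sum_prod_type] using h

theorem trilin3 {ι : Type*} [Fintype ι] (u v w : ι → ℝ) (P : ι → α → ℝ) :
    ∑ a, ∑ e, ∑ b, (∑ i, u i * (P i a * P i e)) * (∑ m, v m * (P m e * P m b)) *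
        (∑ j, w j * (P j b * P j a)) =
      ∑ i, ∑ j, ∑ m, u i * v m * w j *
        ((∑ a, P i a * P j a) * (∑ b, P j b * P m b) * (∑ e, P m e * P i e)) := by
  have e1 : ∀ a e b, (∑ i, u i * (P i a * P i e)) * (∑ m, v m * (P m e * P m b)) *
      (∑ j, w j * (P j b * P j a)) = ∑ i, ∑ j, ∑ m, u i * v m * w j *
        (P i a * P i e * (P m e * P m b) * (P j b * P j a)) := fun a e b => by
    rw [sum_mul_sum, sum_mul]
    refine sum_congr rfl fun i _ => ?_
    rw [sum_mul]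
    simp only [mul_sum]
    rw [sum_comm]
    exact sum_congr rfl fun j _ => sum_congr rfl fun m _ => by ring
  simp only [e1]
  rw [sum3_comm]
  refine sum_congr rfl fun i _ => sum_congr rfl fun j _ => sum_congr rfl fun m _ => ?_
  simp only [← mul_sum]
  congr 1
  rw [mul_assoc, sum_mul]
  refine sum_congr rfl fun a _ => ?_
  rw [sum_mul_sum, sum_comm, mul_sum]
  refine sum_congr rfl fun e _ => ?_
  rw [mul_sum]
  exact sum_congr rfl fun b _ => by ring

theorem lin3 {ι : Type*} [Fintype ι] (f g : ι → ι → ι → ℝ) :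
    2 * (∑ i, ∑ j, ∑ m, f i j m) - 4 * (∑ i, ∑ j, ∑ m, g i j m) =
      ∑ i, ∑ j, ∑ m, (2 * f i j m - 4 * g i j m) := by
  simp only [mul_sum, sum_sub_distrib]

variable [FiniteDimensional ℝ E]

/-- The calibration inequality at a point, from positivity of a cubic form on Gram matrices. -/
theorem point2 {T : E →L[ℝ] E} (hT : (T : E →ₗ[ℝ] E).IsSymmetric) {lo hi : ℝ}
    (hlo : ∀ z, lo * ‖z‖ ^ 2 ≤ ⟪z, T z⟫) (hhi : ∀ z, ⟪z, T z⟫ ≤ hi * ‖z‖ ^ 2)
    (A : ℕ → ℝ) (N : ℕ) {κ η : ℝ}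
    (hκ : ∀ (n : ℕ) (s : Fin n → ℝ), (∀ i, s i ∈ Set.Icc lo hi) → ∀ P : Fin n → α → ℝ,
      κ * (∑ i, ∑ j, ∑ m,
          (∑ a, P i a * P j a) * (∑ b, P j b * P m b) * (∑ e, P m e * P i e)) -
          η * (∑ i, ∑ a, P i a * P i a) ^ 3 ≤
        ∑ i, ∑ j, ∑ m, (2 * dd A N (s i) (s m) (s j) -
          4 * (∑ n ∈ range N, A n * (s i + s j) ^ n) * (∑ n ∈ range N, A n * (s m + s j) ^ n)) *
          ((∑ a, P i a * P j a) * (∑ b, P j b * P m b) * (∑ e, P m e * P i e)))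
    (p d : α → E) (c : ℝ) :
    c ^ 2 * (κ * (∑ a, ∑ e, ∑ b, ⟪p a, p e⟫ * ⟪p e, p b⟫ * ⟪p b, p a⟫) -
      η * (∑ a, ‖p a‖ ^ 2) ^ 3) ≤
      ∑ a, ‖d a‖ ^ 2 + c * calD2 A N T p d c := by
  classical
  obtain ⟨b, hb⟩ : ∃ b, b = hT.eigenvectorBasis rfl := ⟨_, rfl⟩
  obtain ⟨s, hs⟩ : ∃ s, s = hT.eigenvalues rfl := ⟨_, rfl⟩
  have hTb : ∀ i, T (b i) = s i • b i := fun i => by
    rw [hb, hs]
    exact hT.apply_eigenvectorBasis rfl i
  have hmem : ∀ i, s i ∈ Set.Icc lo hi := fun i => by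
    have e : ⟪b i, T (b i)⟫ = s i := by
      rw [hTb, inner_smul_right, real_inner_self_eq_norm_sq, b.orthonormal.1 i]
      simp
    have h1 := hlo (b i)
    have h2 := hhi (b i)
    rw [e, b.orthonormal.1 i, one_pow, mul_one] at h1 h2
    exact ⟨h1, h2⟩
  have hpow : ∀ (k : ℕ) (i) (z : E), ⟪b i, (T ^ k) z⟫ = s i ^ k * ⟪b i, z⟫ := by
    intro k i
    induction k with
    | zero => intro z; simp
    | succ k ih =>
      intro z
      rw [pow_succ, show (T ^ k * T) z = (T ^ k) (T z) from rfl, ih, pow_succ,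
        show ⟪b i, T z⟫ = ⟪T (b i), z⟫ from (hT _ _).symm, hTb, real_inner_smul_left]
      ring
  obtain ⟨P, hP⟩ : ∃ P : Fin (Module.finrank ℝ E) → α → ℝ, P = fun i a => ⟪b i, p a⟫ :=
    ⟨_, rfl⟩
  obtain ⟨W, hW⟩ : ∃ W : Fin (Module.finrank ℝ E) → Fin (Module.finrank ℝ E) → ℝ,
      W = fun i j => ∑ a, P i a * P j a := ⟨_, rfl⟩
  have hmom : ∀ k a e, mom2 T p a e k = ∑ i, s i ^ k * (P i a * P i e) := fun k a e => by
    rw [mom2, ← b.sum_inner_mul_inner (p a) ((T ^ k) (p e))]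
    refine sum_congr rfl fun i _ => ?_
    rw [hpow, hP]
    dsimp only
    rw [real_inner_comm (p a) (b i)]
    ring
  have hρ : ∑ a, ∑ e, ∑ x, ⟪p a, p e⟫ * ⟪p e, p x⟫ * ⟪p x, p a⟫ =
      ∑ i, ∑ j, ∑ m, W i j * W j m * W m i := by
    have e0 : ∀ a e, ⟪p a, p e⟫ = ∑ i, s i ^ 0 * (P i a * P i e) := fun a e => by
      rw [← hmom]; simp [mom2]
    simp only [e0]
    rw [trilin3]
    simp only [hW, pow_zero, one_mul]
  have hρ0 : ∑ a, ‖p a‖ ^ 2 = ∑ i, ∑ a, P i a * P i a := by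
    rw [sum_comm]
    refine sum_congr rfl fun a _ => ?_
    rw [← real_inner_self_eq_norm_sq, show ⟪p a, p a⟫ = mom2 T p a a 0 by simp [mom2], hmom]
    simp
  obtain ⟨F, hF⟩ : ∃ F : ℝ → ℝ, F = fun x => ∑ n ∈ range N, A n * x ^ n := ⟨_, rfl⟩
  obtain ⟨v, hv⟩ : ∃ v : α → E, v = fun a => ∑ n ∈ range N, ∑ k ∈ range (n + 1), ∑ e,
      (A n * n.choose k * mom2 T p e a (n - k)) • (T ^ k) (p e) := ⟨_, rfl⟩
  have hvb : ∀ i a, ⟪b i, v a⟫ = ∑ j, F (s i + s j) * (W i j * P j a) := fun i a => by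
    rw [hv]
    simp only [inner_sum, inner_smul_right, hpow, hmom, hW, hF, mul_sum, sum_mul, eval_add_expand]
    simp only [hP]
    conv_rhs => rw [sum_congr rfl fun j _ => sum_comm]
    conv_rhs => rw [sum_comm]
    refine sum_congr rfl fun n _ => ?_
    conv_rhs => rw [sum_congr rfl fun j _ => sum_comm]
    conv_rhs => rw [sum_comm]
    refine sum_congr rfl fun k _ => ?_
    rw [sum_comm]
    refine sum_congr rfl fun j _ => ?_
    refine sum_congr rfl fun e _ => ?_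
    ring
  have hvn : ∑ a, ‖v a‖ ^ 2 =
      ∑ i, ∑ j, ∑ m, F (s i + s j) * F (s m + s j) * (W i j * W j m * W m i) := by
    have e1 : ∀ a, ‖v a‖ ^ 2 = ∑ j, ∑ i, ∑ m,
        F (s i + s j) * F (s m + s j) * (W i j * W m j * (P i a * P m a)) := fun a => by
      rw [← real_inner_self_eq_norm_sq, ← b.sum_inner_mul_inner (v a) (v a)]
      refine sum_congr rfl fun j _ => ?_
      rw [real_inner_comm (b j), hvb, sum_mul_sum]
      refine sum_congr rfl fun i _ => sum_congr rfl fun m _ => ?_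
      rw [add_comm (s j) (s i), add_comm (s j) (s m),
        show W j i = W i j by simp only [hW, mul_comm],
        show W j m = W m j by simp only [hW, mul_comm]]
      ring
    simp only [e1]
    rw [sum_comm]
    conv_rhs => rw [sum_comm]
    refine sum_congr rfl fun j _ => ?_
    rw [sum_comm]
    refine sum_congr rfl fun i _ => ?_
    rw [sum_comm]
    refine sum_congr rfl fun m _ => ?_
    rw [show W j m = W m j by simp only [hW, mul_comm], show W m i = ∑ a, P i a * P m a by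
      simp only [hW, mul_comm]]
    simp only [← mul_sum]
  have hdot : ∀ n, n ∈ range N → ∀ k ∈ range (n + 1),
      2 * (A n * n.choose k) * ∑ a, ∑ x, momD2 T p d c a x k * mom2 T p x a (n - k) =
        4 * ∑ a, ⟪d a, ∑ e, (A n * n.choose k * mom2 T p e a (n - k)) • (T ^ k) (p e)⟫ +
        2 * c * ∑ i, ∑ j, ∑ m, A n * n.choose k *
          ((∑ l ∈ range k, s i ^ l * s m ^ (k - 1 - l)) * s j ^ (n - k)) *
            (W i j * W j m * W m i) := by
    intro n _ k _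
    have hsym : ∀ a x, mom2 T p x a (n - k) = mom2 T p a x (n - k) := fun a x => by
      rw [hmom, hmom]; simp only [mul_comm (P _ x)]
    have e : ∑ a, ∑ x, (∑ l ∈ range k, ∑ e, mom2 T p a e l * mom2 T p e x (k - 1 - l)) *
        mom2 T p x a (n - k) =
        ∑ i, ∑ j, ∑ m, ((∑ l ∈ range k, s i ^ l * s m ^ (k - 1 - l)) * s j ^ (n - k)) *
          (W i j * W j m * W m i) := by
      simp only [sum_mul]
      rw [sum_congr rfl fun a (_ : a ∈ (univ : Finset α)) => sum_comm]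
      rw [sum_comm]
      conv_rhs => rw [sum_congr rfl fun i _ => sum_congr rfl fun j _ => sum_comm]
      rw [sum_congr rfl fun i (_ : i ∈ (univ : Finset (Fin (Module.finrank ℝ E)))) => sum_comm]
      conv_rhs => rw [sum_comm]
      refine sum_congr rfl fun l _ => ?_
      rw [sum_congr rfl fun a (_ : a ∈ (univ : Finset α)) => sum_comm]
      simp only [hmom]
      rw [trilin3]
      simp only [hW]
    have e1 : ∑ a, ∑ x, (⟪d a, (T ^ k) (p x)⟫ + ⟪d x, (T ^ k) (p a)⟫) * mom2 T p x a (n - k) =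
        2 * ∑ a, ∑ x, mom2 T p x a (n - k) * ⟪d a, (T ^ k) (p x)⟫ := by
      have e2 : ∑ a, ∑ x, ⟪d x, (T ^ k) (p a)⟫ * mom2 T p x a (n - k) =
          ∑ a, ∑ x, ⟪d a, (T ^ k) (p x)⟫ * mom2 T p x a (n - k) := by
        rw [sum_comm]
        simp only [hsym]
      simp only [add_mul, sum_add_distrib, e2, mul_comm (mom2 T p _ _ _)]
      ring
    simp only [momD2, add_mul _ (c * _), sum_add_distrib, e1]
    simp only [mul_assoc c, ← mul_sum, e, inner_sum, inner_smul_right]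
    simp only [mul_add, mul_sum]
    congr 1
    · exact sum_congr rfl fun a _ => sum_congr rfl fun x _ => by ring
    · exact sum_congr rfl fun i _ => sum_congr rfl fun j _ => sum_congr rfl fun m _ => by ring
  have hD : calD2 A N T p d c = 4 * (∑ a, ⟪d a, v a⟫) +
      2 * c * ∑ i, ∑ j, ∑ m, dd A N (s i) (s m) (s j) * (W i j * W j m * W m i) := by
    rw [calD2_eq, sum_congr rfl fun n hn => sum_congr rfl (hdot n hn)]
    simp only [sum_add_distrib, ← mul_sum]
    congr 2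
    · simp only [hv, inner_sum]
      rw [sum_congr rfl fun n (_ : n ∈ range N) => sum_comm, sum_comm]
    · simp only [dd, sum_mul]
      rw [sum_congr rfl fun n (_ : n ∈ range N) => sum_comm, sum_comm]
      refine sum_congr rfl fun i _ => ?_
      rw [sum_congr rfl fun n (_ : n ∈ range N) => sum_comm, sum_comm]
      refine sum_congr rfl fun j _ => ?_
      rw [sum_congr rfl fun n (_ : n ∈ range N) => sum_comm, sum_comm]
  have hsq : 0 ≤ (∑ a, ‖d a‖ ^ 2) + 4 * c * (∑ a, ⟪d a, v a⟫) + 4 * c ^ 2 * ∑ a, ‖v a‖ ^ 2 := by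
    rw [mul_sum, mul_sum, ← sum_add_distrib, ← sum_add_distrib]
    refine sum_nonneg fun a _ => ?_
    have h := sq_nonneg ‖d a + (2 * c) • v a‖
    rw [norm_add_sq_real, inner_smul_right, norm_smul, mul_pow, Real.norm_eq_abs, sq_abs] at h
    linarith
  have hsum : κ * (∑ i, ∑ j, ∑ m, W i j * W j m * W m i) - η * (∑ a, ‖p a‖ ^ 2) ^ 3 ≤
      2 * (∑ i, ∑ j, ∑ m, dd A N (s i) (s m) (s j) * (W i j * W j m * W m i)) -
        4 * ∑ a, ‖v a‖ ^ 2 := by
    have h := hκ _ s hmem P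
    rw [hρ0]
    simp only [hW, hF] at hvn ⊢
    rw [hvn]
    refine h.trans_eq ?_
    rw [lin3]
    exact sum_congr rfl fun i _ => sum_congr rfl fun j _ => sum_congr rfl fun m _ => by ring
  rw [hρ, hD]
  nlinarith [mul_le_mul_of_nonneg_left hsum (sq_nonneg c)]

end Vale.Agent.P371.Matrix
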