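import Mathlib

/-!
Positive semidefinite trigonometric kernels used in the matrix sharp calibration.
-/

namespace Vale.Agent.P371.MatrixPos

open Real Finset Matrix Filter Topology

set_option linter.unusedSectionVars false

variable {ι : Type*} [Fintype ι] [DecidableEq ι]

/-- A real kernel gives a positive semidefinite matrix. -/
def PK (K : ι → ι → ℝ) : Prop := (Matrix.of K).PosSemidef

theorem PK.symm {K : ι → ι → ℝ} (h : PK K) (b c : ι) : K b c = K c b := by
  simpa using (h.isHermitian.apply b c).symm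

theorem pk_of_forall {K : ι → ι → ℝ} (hs : ∀ b c, K b c = K c b)
    (h : ∀ x : ι → ℝ, 0 ≤ ∑ b, ∑ c, x b * x c * K b c) : PK K := by
  refine Matrix.PosSemidef.of_dotProduct_mulVec_nonneg ?_ fun x => ?_
  · ext b c; simp [hs c b]
  · refine (h x).trans_eq ?_
    simp only [dotProduct, mulVec, star_trivial, mul_sum, Matrix.of_apply]
    exact sum_congr rfl fun b _ => sum_congr rfl fun c _ => by ring

theorem PK.nonneg {K : ι → ι → ℝ} (h : PK K) (x : ι → ℝ) :
    0 ≤ ∑ b, ∑ c, x b * x c * K b c := by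
  refine (h.dotProduct_mulVec_nonneg x).trans_eq ?_
  simp only [dotProduct, mulVec, star_trivial, mul_sum, Matrix.of_apply]
  exact sum_congr rfl fun b _ => sum_congr rfl fun c _ => by ring

theorem PK.congr {K L : ι → ι → ℝ} (h : PK K) (e : ∀ b c, L b c = K b c) : PK L := by
  have : L = K := funext fun b => funext fun c => e b c
  rwa [this]

theorem PK.add {K L : ι → ι → ℝ} (h : PK K) (h' : PK L) : PK fun b c => K b c + L b c :=
  Matrix.PosSemidef.add h h'

theorem PK.const_mul {K : ι → ι → ℝ} (h : PK K) {r : ℝ} (hr : 0 ≤ r) :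
    PK fun b c => r * K b c :=
  pk_of_forall (fun b c => by rw [h.symm]) fun x => by
    have := mul_nonneg hr (h.nonneg x)
    simp only [mul_sum] at this
    exact this.trans_eq (sum_congr rfl fun b _ => sum_congr rfl fun c _ => by ring)

theorem PK.mul {K L : ι → ι → ℝ} (h : PK K) (h' : PK L) : PK fun b c => K b c * L b c :=
  Matrix.PosSemidef.hadamard h h'

theorem pk_rank_one (f : ι → ℝ) : PK fun b c => f b * f c :=
  pk_of_forall (fun b c => mul_comm _ _) fun x => by
    refine (mul_self_nonneg (∑ b, x b * f b)).trans_eq ?_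
    rw [sum_mul_sum]
    exact sum_congr rfl fun b _ => sum_congr rfl fun c _ => by ring

theorem pk_const {r : ℝ} (hr : 0 ≤ r) : PK fun (_ _ : ι) => r :=
  ((pk_rank_one fun _ : ι => (1 : ℝ)).const_mul hr).congr fun _ _ => by ring

theorem pk_cos (f : ι → ℝ) : PK fun b c => Real.cos (f b - f c) :=
  ((pk_rank_one fun b => Real.cos (f b)).add (pk_rank_one fun b => Real.sin (f b))).congr
    fun b c => Real.cos_sub _ _

theorem pk_tendsto {K : ℕ → ι → ι → ℝ} {L : ι → ι → ℝ} (h : ∀ n, PK (K n))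
    (hl : ∀ b c, Tendsto (fun n => K n b c) atTop (𝓝 (L b c))) : PK L := by
  refine pk_of_forall (fun b c => ?_) fun x => ?_
  · refine tendsto_nhds_unique (hl b c) ?_
    simpa only [(h _).symm b c] using hl c b
  · exact ge_of_tendsto
      (tendsto_finsetSum _ fun b _ => tendsto_finsetSum _ fun c _ => (hl b c).const_mul _)
      (Eventually.of_forall fun n => (h n).nonneg x)

/-- The Cauchy kernel. -/
theorem pk_cauchy (d : ι → ℝ) (hd : ∀ b, 0 < d b) : PK fun b c => 1 / (d b + d c) := by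
  refine pk_of_forall (fun b c => by rw [add_comm]) fun x => ?_
  have hint : ∀ b c, IntervalIntegrable (fun s : ℝ => s ^ (d b + d c - 1))
      MeasureTheory.volume 0 1 :=
    fun b c => intervalIntegral.intervalIntegrable_rpow' (by linarith [hd b, hd c])
  have e : ∀ b c, x b * x c * (1 / (d b + d c)) =
      ∫ s in (0 : ℝ)..1, x b * x c * s ^ (d b + d c - 1) := by
    intro b c
    rw [intervalIntegral.integral_const_mul,
      integral_rpow (Or.inl (by linarith [hd b, hd c]))]
    simp [Real.zero_rpow (by linarith [hd b, hd c] : d b + d c ≠ 0)]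
  simp only [e]
  have e2 : ∑ b, ∑ c, ∫ s in (0 : ℝ)..1, x b * x c * s ^ (d b + d c - 1) =
      ∫ s in (0 : ℝ)..1, ∑ b, ∑ c, x b * x c * s ^ (d b + d c - 1) := by
    rw [intervalIntegral.integral_finsetSum]
    · exact sum_congr rfl fun b _ =>
        (intervalIntegral.integral_finsetSum fun c _ => (hint b c).const_mul _).symm
    · intro b _
      have := IntervalIntegrable.sum univ fun c _ => (hint b c).const_mul (x b * x c)
      simpa only [Finset.sum_fn] using this
  rw [e2]
  rw [intervalIntegral.integral_of_le zero_le_one]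
  refine MeasureTheory.setIntegral_nonneg measurableSet_Ioc fun s hs => ?_
  have h0 : 0 < s := hs.1
  refine (mul_self_nonneg (∑ b, x b * s ^ (d b - 1 / 2))).trans_eq ?_
  rw [sum_mul_sum]
  refine sum_congr rfl fun b _ => sum_congr rfl fun c _ => ?_
  rw [show d b + d c - 1 = (d b - 1 / 2) + (d c - 1 / 2) by ring, Real.rpow_add h0]
  ring

/-- The reflection kernels `1 / (1 ± (θ_b + θ_c) / k)`. -/
theorem pk_resolvent (θ : ι → ℝ) (hθ : ∀ b, 0 < θ b ∧ θ b < π / 2) {k : ℝ} (hk : π ≤ k) :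
    PK fun b c => k / (k - (θ b + θ c)) + k / (k + (θ b + θ c)) := by
  have h1 := (pk_cauchy (fun b => k / 2 - θ b) fun b => by linarith [(hθ b).2]).const_mul
    (show 0 ≤ k by linarith [pi_pos])
  have h2 := (pk_cauchy (fun b => k / 2 + θ b) fun b => by linarith [(hθ b).1, pi_pos]).const_mul
    (show 0 ≤ k by linarith [pi_pos])
  refine (h1.add h2).congr fun b c => ?_
  rw [show k / 2 - θ b + (k / 2 - θ c) = k - (θ b + θ c) by ring,
    show k / 2 + θ b + (k / 2 + θ c) = k + (θ b + θ c) by ring]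
  ring

theorem frac_eq (q : ℝ) {s K : ℝ} (hK : K ≠ 0) (h1 : K - s ≠ 0) (h2 : K + s ≠ 0) :
    (1 - (q * s / K) ^ 2) / (1 - (s / K) ^ 2) =
      q ^ 2 + (1 - q ^ 2) / 2 * (K / (K - s) + K / (K + s)) := by
  have e : 1 - (s / K) ^ 2 = (K - s) * (K + s) / K ^ 2 := by field_simp; ring
  rw [e]
  field_simp
  ring

/-- The kernel `sin (q s) / sin s`, `s = θ_b + θ_c`. -/
theorem pk_sin_ratio (θ : ι → ℝ) (hθ : ∀ b, 0 < θ b ∧ θ b < π / 2) {q : ℝ} (hq0 : 0 ≤ q)
    (hq1 : q ≤ 1) : PK fun b c => Real.sin (q * (θ b + θ c)) / Real.sin (θ b + θ c) := by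
  let F : ℕ → ι → ι → ℝ := fun n b c => q * ∏ j ∈ range n,
    ((1 - (q * ((θ b + θ c) / π)) ^ 2 / ((j : ℝ) + 1) ^ 2) /
      (1 - ((θ b + θ c) / π) ^ 2 / ((j : ℝ) + 1) ^ 2))
  refine pk_tendsto (K := F) (fun n => ?_) fun b c => ?_
  · induction n with
    | zero => exact (pk_const (ι := ι) hq0).congr fun b c => by simp [F]
    | succ n ih =>
      have hk : π ≤ π * ((n : ℝ) + 1) := le_mul_of_one_le_right pi_pos.le (by simp)
      have hfac : PK fun b c => q ^ 2 + (1 - q ^ 2) / 2 *
          (π * ((n : ℝ) + 1) / (π * ((n : ℝ) + 1) - (θ b + θ c)) +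
            π * ((n : ℝ) + 1) / (π * ((n : ℝ) + 1) + (θ b + θ c))) :=
        (pk_const (sq_nonneg q)).add ((pk_resolvent θ hθ hk).const_mul (by nlinarith))
      refine (ih.mul hfac).congr fun b c => ?_
      have hb := hθ b
      have hc := hθ c
      have e1 : π * ((n : ℝ) + 1) - (θ b + θ c) ≠ 0 := by
        apply ne_of_gt; linarith
      have e2 : π * ((n : ℝ) + 1) + (θ b + θ c) ≠ 0 := by
        apply ne_of_gt; linarith
      have e3 : ((1 - (q * ((θ b + θ c) / π)) ^ 2 / ((n : ℝ) + 1) ^ 2) /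
          (1 - ((θ b + θ c) / π) ^ 2 / ((n : ℝ) + 1) ^ 2)) = q ^ 2 + (1 - q ^ 2) / 2 *
          (π * ((n : ℝ) + 1) / (π * ((n : ℝ) + 1) - (θ b + θ c)) +
            π * ((n : ℝ) + 1) / (π * ((n : ℝ) + 1) + (θ b + θ c))) := by
        rw [← frac_eq q (by positivity) e1 e2]
        congr 1 <;> field_simp
      simp only [F, prod_range_succ]
      rw [e3]
      ring
  · have hs0 : 0 < θ b + θ c := by linarith [(hθ b).1, (hθ c).1]
    have hs1 : θ b + θ c < π := by linarith [(hθ b).2, (hθ c).2]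
    have hsin := Real.sin_pos_of_pos_of_lt_pi hs0 hs1
    have hx : π * ((θ b + θ c) / π) = θ b + θ c := by field_simp
    have h := (Real.tendsto_euler_sin_prod (q * ((θ b + θ c) / π))).div
      (Real.tendsto_euler_sin_prod ((θ b + θ c) / π)) (by rw [hx]; exact hsin.ne')
    rw [show π * (q * ((θ b + θ c) / π)) = q * (π * ((θ b + θ c) / π)) by ring, hx] at h
    refine h.congr fun n => ?_
    simp only [Pi.div_apply, F, prod_div_distrib]
    rw [mul_div_mul_comm, mul_div_assoc, div_self hs0.ne', mul_one]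

/-- The kernel `(sin (p θ_b) + sin (p θ_c)) / sin (θ_b + θ_c)`. -/
theorem pk_sum_sin (θ : ι → ℝ) (hθ : ∀ b, 0 < θ b ∧ θ b < π / 2) {p : ℝ} (hp0 : 0 ≤ p)
    (hp1 : p ≤ 2) :
    PK fun b c => (Real.sin (p * θ b) + Real.sin (p * θ c)) / Real.sin (θ b + θ c) := by
  have h := ((pk_cos fun b => p / 2 * θ b).mul
    (pk_sin_ratio θ hθ (q := p / 2) (by linarith) (by linarith))).const_mul zero_le_two
  refine h.congr fun b c => ?_
  have e : Real.sin (p * θ b) + Real.sin (p * θ c) =
      2 * (Real.cos (p / 2 * θ b - p / 2 * θ c) * Real.sin (p / 2 * (θ b + θ c))) := by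
    have key : ∀ A B : ℝ, Real.sin (A + B) + Real.sin (A - B) = 2 * (Real.cos B * Real.sin A) :=
      fun A B => by rw [Real.sin_add, Real.sin_sub]; ring
    rw [← key]
    congr 2 <;> ring
  rw [e]
  ring

/-- The weight `F_a`. -/
noncomputable def wgt (t a b : ℝ) : ℝ := Real.sin (a + b) * Real.cos (t * (a - b))

theorem sin_affine (α p x : ℝ) :
    Real.sin (α + p * x) * Real.sin (p * (π / 2)) =
      Real.sin α * Real.sin (p * (π / 2 - x)) +
        Real.sin (α + p * (π / 2)) * Real.sin (p * x) := by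
  rw [mul_sub, Real.sin_sub, Real.sin_add, Real.sin_add]
  ring

/-- The kernel `(sin (α + p θ_b) + sin (α + p θ_c)) / sin (θ_b + θ_c)`. -/
theorem pk_affine (θ : ι → ℝ) (hθ : ∀ b, 0 < θ b ∧ θ b < π / 2) {α p : ℝ} (hp0 : 0 < p)
    (hp1 : p < 2) (hα0 : 0 ≤ α) (hα1 : α + p * (π / 2) ≤ π) :
    PK fun b c => (Real.sin (α + p * θ b) + Real.sin (α + p * θ c)) /
      Real.sin (θ b + θ c) := by
  have hd : 0 < Real.sin (p * (π / 2)) :=
    Real.sin_pos_of_pos_of_lt_pi (by positivity) (by nlinarith [pi_pos])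
  have hA : 0 ≤ Real.sin α :=
    Real.sin_nonneg_of_nonneg_of_le_pi hα0 (by nlinarith [pi_pos])
  have hB : 0 ≤ Real.sin (α + p * (π / 2)) :=
    Real.sin_nonneg_of_nonneg_of_le_pi (by positivity) hα1
  have h1 := (pk_sum_sin (fun b => π / 2 - θ b)
    (fun b => ⟨by linarith [(hθ b).2], by linarith [(hθ b).1]⟩) hp0.le hp1.le).const_mul
      (div_nonneg hA hd.le)
  have h2 := (pk_sum_sin θ hθ hp0.le hp1.le).const_mul (div_nonneg hB hd.le)
  refine (h1.add h2).congr fun b c => ?_
  have e : ∀ x, Real.sin (α + p * x) = Real.sin α / Real.sin (p * (π / 2)) *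
      Real.sin (p * (π / 2 - x)) +
        Real.sin (α + p * (π / 2)) / Real.sin (p * (π / 2)) * Real.sin (p * x) := fun x => by
    rw [div_mul_eq_mul_div, div_mul_eq_mul_div, ← add_div, eq_div_iff hd.ne', sin_affine]
  rw [e (θ b), e (θ c), show π / 2 - θ b + (π / 2 - θ c) = π - (θ b + θ c) by ring, Real.sin_pi_sub]
  ring

/-- The kernel `(F_a(b) + F_a(c)) / sin (θ_b + θ_c)`. -/
theorem pk_main (θ : ι → ℝ) (hθ : ∀ b, 0 < θ b ∧ θ b < π / 2) {t a : ℝ} (ht0 : 0 < t)
    (ht1 : t < 1) (ha0 : 0 ≤ a) (ha1 : a ≤ π / 2) :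
    PK fun b c => (wgt t a (θ b) + wgt t a (θ c)) / Real.sin (θ b + θ c) := by
  have h1 := pk_affine θ hθ (α := (1 + t) * a) (p := 1 - t) (by linarith) (by linarith)
    (by positivity) (by nlinarith)
  have h2 := pk_affine θ hθ (α := (1 - t) * a) (p := 1 + t) (by linarith) (by linarith)
    (mul_nonneg (by linarith) ha0) (by nlinarith)
  refine ((h1.add h2).const_mul (show (0 : ℝ) ≤ 1 / 2 by norm_num)).congr fun b c => ?_
  have e : ∀ x, wgt t a x = 1 / 2 * (Real.sin ((1 + t) * a + (1 - t) * x) +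
      Real.sin ((1 - t) * a + (1 + t) * x)) := fun x => by
    rw [wgt, show (1 + t) * a + (1 - t) * x = (a + x) + t * (a - x) by ring,
      show (1 - t) * a + (1 + t) * x = (a + x) - t * (a - x) by ring]
    generalize t * (a - x) = B
    generalize a + x = A
    rw [Real.sin_add, Real.sin_sub]
    ring
  rw [e (θ b), e (θ c)]
  ring

end Vale.Agent.P371.MatrixPos
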