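import Mathlib

/-!
The cotangent profile of the sharp calibration and its polynomial approximations.
-/

namespace Vale.Agent.P371.Sharp

open Real Finset

/-- The profile `-(π/4) cot (π s / 2)`. -/
noncomputable def prof (s : ℝ) : ℝ :=
  -(π / 4) * (Real.cos (π * s / 2) / Real.sin (π * s / 2))

theorem mul_cos_lt_sin {y : ℝ} (hy0 : 0 < y) (hy1 : y < π) : y * Real.cos y < Real.sin y := by
  rcases lt_or_ge y (π / 2) with h | h
  · have hc : 0 < Real.cos y := Real.cos_pos_of_mem_Ioo ⟨by linarith, h⟩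
    have := Real.lt_tan hy0 h
    rwa [Real.tan_eq_sin_div_cos, lt_div_iff₀ hc] at this
  · have hc : Real.cos y ≤ 0 := Real.cos_nonpos_of_pi_div_two_le_of_le h (by linarith [pi_pos])
    nlinarith [Real.sin_pos_of_pos_of_lt_pi hy0 hy1, mul_nonpos_of_nonneg_of_nonpos hy0.le hc]

theorem cos_le_sinc {y : ℝ} (h0 : y ≠ 0) (h1 : |y| < π) : Real.cos y ≤ Real.sin y / y := by
  rcases lt_or_gt_of_ne h0 with h | h
  · rw [abs_of_neg h] at h1
    have := mul_cos_lt_sin (neg_pos.2 h) h1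
    rw [Real.sin_neg, Real.cos_neg] at this
    rw [le_div_iff_of_neg h]
    linarith
  · rw [abs_of_pos h] at h1
    have := mul_cos_lt_sin h h1
    rw [le_div_iff₀ h]
    linarith

/-- The scalar inequality behind the calibration. -/
theorem prof_key {r t u : ℝ} (hrt : r ≠ t) (h0 : 0 < r + u) (h1 : r + u < 2) (h2 : 0 < t + u)
    (h3 : t + u < 2) :
    π ^ 2 / 4 ≤ 2 * ((prof (r + u) - prof (t + u)) / (r - t)) -
      4 * prof (r + u) * prof (t + u) := by
  have hπ := pi_pos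
  obtain ⟨A, hA⟩ : ∃ A, A = π * (r + u) / 2 := ⟨_, rfl⟩
  obtain ⟨B, hB⟩ : ∃ B, B = π * (t + u) / 2 := ⟨_, rfl⟩
  have hA0 : 0 < A ∧ A < π := by rw [hA]; constructor <;> nlinarith
  have hB0 : 0 < B ∧ B < π := by rw [hB]; constructor <;> nlinarith
  have hsA := Real.sin_pos_of_pos_of_lt_pi hA0.1 hA0.2
  have hsB := Real.sin_pos_of_pos_of_lt_pi hB0.1 hB0.2
  have hx : A - B = π * (r - t) / 2 := by rw [hA, hB]; ring
  have hx0 : A - B ≠ 0 := by rw [hx]; simp [hπ.ne', sub_ne_zero.2 hrt]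
  have hx1 : |A - B| < π := abs_lt.2 ⟨by linarith, by linarith⟩
  have key := cos_le_sinc hx0 hx1
  rw [Real.cos_sub] at key
  have e : 2 * ((prof (r + u) - prof (t + u)) / (r - t)) - 4 * prof (r + u) * prof (t + u) =
      π ^ 2 / 4 * ((Real.sin (A - B) / (A - B) - Real.cos A * Real.cos B) /
        (Real.sin A * Real.sin B)) := by
    have hrt' : r - t ≠ 0 := sub_ne_zero.2 hrt
    rw [prof, prof, ← hA, ← hB, Real.sin_sub, hx]
    field_simp
    ring
  rw [e]
  refine le_mul_of_one_le_right (by positivity) ((one_le_div (mul_pos hsA hsB)).2 ?_)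
  linarith

theorem hasDerivAt_prof {s : ℝ} (h : Real.sin (π * s / 2) ≠ 0) :
    HasDerivAt prof (π ^ 2 / 8 / Real.sin (π * s / 2) ^ 2) s := by
  have h1 : HasDerivAt (fun s : ℝ => π * s / 2) (π * 1 / 2) s :=
    ((hasDerivAt_id s).const_mul π).div_const 2
  have h2 := ((h1.cos.div h1.sin h).const_mul (-(π / 4)))
  refine h2.congr_deriv ?_
  field_simp
  linear_combination (8 : ℝ) * Real.sin_sq_add_cos_sq (π * s / 2)

/-- The sum `Σ a n s ^ n`, as a two variable expansion of `P (r + u)`. -/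
theorem eval_add_expand (a : ℕ → ℝ) (N : ℕ) (r u : ℝ) :
    ∑ n ∈ range N, a n * (r + u) ^ n =
      ∑ n ∈ range N, ∑ k ∈ range (n + 1), a n * n.choose k * (r ^ k * u ^ (n - k)) := by
  refine sum_congr rfl fun n _ => ?_
  rw [add_pow, mul_sum]
  exact sum_congr rfl fun k _ => by ring

/-- The divided difference, in the first variable, of the expanded polynomial. -/
noncomputable def dd (a : ℕ → ℝ) (N : ℕ) (r t u : ℝ) : ℝ :=
  ∑ n ∈ range N, ∑ k ∈ range (n + 1),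
    a n * n.choose k * ((∑ l ∈ range k, r ^ l * t ^ (k - 1 - l)) * u ^ (n - k))

theorem dd_mul (a : ℕ → ℝ) (N : ℕ) (r t u : ℝ) :
    dd a N r t u * (r - t) =
      (∑ n ∈ range N, a n * (r + u) ^ n) - ∑ n ∈ range N, a n * (t + u) ^ n := by
  rw [eval_add_expand, eval_add_expand, dd, sum_mul, ← sum_sub_distrib]
  refine sum_congr rfl fun n _ => ?_
  rw [sum_mul, ← sum_sub_distrib]
  refine sum_congr rfl fun k _ => ?_
  rw [← mul_sub, ← sub_mul, ← geom_sum₂_mul r t k]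
  ring

theorem continuous_dd (a : ℕ → ℝ) (N : ℕ) (t u : ℝ) : Continuous fun r => dd a N r t u := by
  unfold dd
  fun_prop

/-- A polynomial close to the profile in value and in divided differences. -/
theorem exists_approx {δ : ℝ} (hδ : 0 < δ) (hδ1 : δ < 1 / 2) {e : ℝ} (he : 0 < e) :
    ∃ (a : ℕ → ℝ) (N : ℕ), ∀ x ∈ Set.Icc (2 * δ) (2 - 2 * δ),
      |(∑ n ∈ range N, a n * x ^ n) - prof x| ≤ e ∧
        ∀ y ∈ Set.Icc (2 * δ) (2 - 2 * δ),
          |((∑ n ∈ range N, a n * x ^ n) - prof x) - ((∑ n ∈ range N, a n * y ^ n) - prof y)| ≤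
            e * |x - y| := by
  have hsin : ∀ x ∈ Set.Icc (2 * δ) (2 - 2 * δ), Real.sin (π * x / 2) ≠ 0 := fun x hx => by
    refine (Real.sin_pos_of_pos_of_lt_pi ?_ ?_).ne' <;> nlinarith [hx.1, hx.2, pi_pos]
  have hc : ContinuousOn (fun x => π ^ 2 / 8 / Real.sin (π * x / 2) ^ 2)
      (Set.Icc (2 * δ) (2 - 2 * δ)) :=
    ContinuousOn.div continuousOn_const (by fun_prop) fun x hx => pow_ne_zero 2 (hsin x hx)
  obtain ⟨p, hp⟩ := exists_polynomial_near_of_continuousOn _ _ _ hc e he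
  obtain ⟨M, hM⟩ : ∃ M, M = p.natDegree + 1 := ⟨_, rfl⟩
  obtain ⟨c0, hc0⟩ : ∃ c0 : ℝ,
      c0 = prof 1 - ∑ n ∈ range M, p.coeff n / (n + 1) := ⟨_, rfl⟩
  obtain ⟨a, ha⟩ : ∃ a : ℕ → ℝ, a = fun n => if n = 0 then c0 else p.coeff (n - 1) / n :=
    ⟨_, rfl⟩
  refine ⟨a, M + 1, ?_⟩
  have hP : ∀ x : ℝ, (∑ n ∈ range (M + 1), a n * x ^ n) =
      (∑ n ∈ range M, p.coeff n / (n + 1) * x ^ (n + 1)) + c0 := fun x => by
    rw [sum_range_succ', ha]
    simp
  have hd : ∀ x ∈ Set.Icc (2 * δ) (2 - 2 * δ),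
      HasDerivWithinAt (fun x => (∑ n ∈ range (M + 1), a n * x ^ n) - prof x)
        (p.eval x - π ^ 2 / 8 / Real.sin (π * x / 2) ^ 2) (Set.Icc (2 * δ) (2 - 2 * δ)) x := by
    intro x hx
    simp only [hP]
    refine (((HasDerivAt.fun_sum fun n _ => ((hasDerivAt_pow (n + 1) x).const_mul
      (p.coeff n / (n + 1)))).add_const c0).sub (hasDerivAt_prof (hsin x hx))).hasDerivWithinAt.congr_deriv ?_
    congr 1
    rw [p.eval_eq_sum_range, hM]
    refine sum_congr rfl fun n _ => ?_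
    rw [Nat.add_sub_cancel]
    have : (n : ℝ) + 1 ≠ 0 := by positivity
    field_simp
    push_cast
    ring
  have hb : ∀ x ∈ Set.Icc (2 * δ) (2 - 2 * δ),
      ‖p.eval x - π ^ 2 / 8 / Real.sin (π * x / 2) ^ 2‖ ≤ e := fun x hx => (hp x hx).le
  have hlip : ∀ x ∈ Set.Icc (2 * δ) (2 - 2 * δ), ∀ y ∈ Set.Icc (2 * δ) (2 - 2 * δ),
      |((∑ n ∈ range (M + 1), a n * x ^ n) - prof x) -
        ((∑ n ∈ range (M + 1), a n * y ^ n) - prof y)| ≤ e * |x - y| := fun x hx y hy =>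
    (convex_Icc _ _).norm_image_sub_le_of_norm_hasDerivWithin_le hd hb hy hx
  refine fun x hx => ⟨?_, hlip x hx⟩
  have h1 : (1 : ℝ) ∈ Set.Icc (2 * δ) (2 - 2 * δ) := ⟨by linarith, by linarith⟩
  have := hlip x hx 1 h1
  rw [hP 1, hc0] at this
  simp only [one_pow, mul_one, add_sub_cancel, sub_self, sub_zero] at this
  refine this.trans (mul_le_of_le_one_right he.le (abs_le.2 ?_))
  constructor <;> linarith [hx.1, hx.2]

/-- Polynomials whose divided differences satisfy the calibration inequality up to `κ`. -/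
theorem exists_calib {δ : ℝ} (hδ : 0 < δ) (hδ1 : δ < 1 / 2) {κ : ℝ} (hκ : κ < π ^ 2 / 4) :
    ∃ (a : ℕ → ℝ) (N : ℕ), ∀ r ∈ Set.Icc δ (1 - δ), ∀ t ∈ Set.Icc δ (1 - δ),
      ∀ u ∈ Set.Icc δ (1 - δ), κ ≤ 2 * dd a N r t u -
        4 * (∑ n ∈ range N, a n * (r + u) ^ n) * (∑ n ∈ range N, a n * (t + u) ^ n) := by
  have hpc : ContinuousOn prof (Set.Icc (2 * δ) (2 - 2 * δ)) := fun x hx => by
    refine (hasDerivAt_prof ?_).continuousAt.continuousWithinAt
    refine (Real.sin_pos_of_pos_of_lt_pi ?_ ?_).ne' <;> nlinarith [hx.1, hx.2, pi_pos]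
  obtain ⟨B, hB⟩ := isCompact_Icc.exists_bound_of_continuousOn hpc
  obtain ⟨B', hB'⟩ : ∃ B', B' = max B 0 := ⟨_, rfl⟩
  have hB0 : 0 ≤ B' := hB' ▸ le_max_right B 0
  obtain ⟨e, he⟩ : ∃ e, e = min 1 ((π ^ 2 / 4 - κ) / (6 + 8 * B')) := ⟨_, rfl⟩
  have hgap : 0 < π ^ 2 / 4 - κ := sub_pos.2 hκ
  have he0 : 0 < e := he ▸ lt_min one_pos (div_pos hgap (by positivity))
  have he1 : e ≤ 1 := he ▸ min_le_left _ _
  have he2 : e * (6 + 8 * B') ≤ π ^ 2 / 4 - κ := by
    rw [← le_div_iff₀ (by positivity : 0 < 6 + 8 * B'), he]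
    exact min_le_right _ _
  obtain ⟨a, N, ha⟩ := exists_approx hδ hδ1 he0
  refine ⟨a, N, fun r hr t ht u hu => ?_⟩
  have main : ∀ r ∈ Set.Icc δ (1 - δ), r ≠ t → κ ≤ 2 * dd a N r t u -
      4 * (∑ n ∈ range N, a n * (r + u) ^ n) * (∑ n ∈ range N, a n * (t + u) ^ n) := by
    intro r hr hrt
    have hx : r + u ∈ Set.Icc (2 * δ) (2 - 2 * δ) :=
      ⟨by linarith [hr.1, hu.1], by linarith [hr.2, hu.2]⟩
    have hy : t + u ∈ Set.Icc (2 * δ) (2 - 2 * δ) :=
      ⟨by linarith [ht.1, hu.1], by linarith [ht.2, hu.2]⟩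
    have hrt' : r - t ≠ 0 := sub_ne_zero.2 hrt
    have hk := prof_key hrt (r := r) (t := t) (u := u) (by linarith [hr.1, hu.1])
      (by linarith [hr.2, hu.2]) (by linarith [ht.1, hu.1]) (by linarith [ht.2, hu.2])
    obtain ⟨hxe, hxl⟩ := ha _ hx
    obtain ⟨hye, -⟩ := ha _ hy
    have hdd := dd_mul a N r t u
    obtain ⟨Px, hPx⟩ : ∃ P, P = ∑ n ∈ range N, a n * (r + u) ^ n := ⟨_, rfl⟩
    obtain ⟨Py, hPy⟩ : ∃ P, P = ∑ n ∈ range N, a n * (t + u) ^ n := ⟨_, rfl⟩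
    have hl := hxl _ hy
    rw [← hPx, ← hPy, show (r + u) - (t + u) = r - t by ring] at hl
    rw [← hPx] at hxe
    rw [← hPy] at hye
    rw [← hPx, ← hPy] at hdd ⊢
    have h1 : |dd a N r t u - (prof (r + u) - prof (t + u)) / (r - t)| ≤ e := by
      rw [show dd a N r t u - (prof (r + u) - prof (t + u)) / (r - t) =
          ((Px - prof (r + u)) - (Py - prof (t + u))) / (r - t) by
        rw [eq_div_iff hrt', sub_mul, div_mul_cancel₀ _ hrt', hdd]; ring,
        abs_div, div_le_iff₀ (abs_pos.2 hrt')]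
      exact hl
    have hbx : |prof (r + u)| ≤ B' := (hB _ hx).trans (hB' ▸ le_max_left B 0)
    have hby : |prof (t + u)| ≤ B' := (hB _ hy).trans (hB' ▸ le_max_left B 0)
    have h2 : |Px * Py - prof (r + u) * prof (t + u)| ≤ e * (2 * B' + 1) := by
      rw [show Px * Py - prof (r + u) * prof (t + u) = (Px - prof (r + u)) * (Py - prof (t + u)) +
        ((Px - prof (r + u)) * prof (t + u) + prof (r + u) * (Py - prof (t + u))) by ring]
      refine (abs_add_le _ _).trans ((add_le_add le_rfl (abs_add_le _ _)).trans ?_)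
      rw [abs_mul, abs_mul, abs_mul]
      have a1 := mul_le_mul hxe hye (abs_nonneg _) he0.le
      have a2 := mul_le_mul hxe hby (abs_nonneg _) he0.le
      have a3 := mul_le_mul hbx hye (abs_nonneg _) hB0
      have a4 : e * e ≤ e := mul_le_of_le_one_left he0.le he1
      linarith
    linarith [(abs_le.1 h1).1, (abs_le.1 h2).2]
  rcases eq_or_ne r t with hrt | hrt
  · subst hrt
    have hne : (nhdsWithin r (Set.Icc δ (1 - δ) \ {r})).NeBot := by
      rw [← mem_closure_iff_nhdsWithin_neBot]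
      rw [show Set.Icc δ (1 - δ) \ {r} = Set.Ico δ r ∪ Set.Ioc r (1 - δ) by
        ext x
        simp only [Set.mem_sdiff, Set.mem_Icc, Set.mem_singleton_iff, Set.mem_union, Set.mem_Ico,
          Set.mem_Ioc]
        constructor
        · rintro ⟨⟨h1, h2⟩, h3⟩
          rcases lt_or_gt_of_ne h3 with h | h
          · exact Or.inl ⟨h1, h⟩
          · exact Or.inr ⟨h, h2⟩
        · rintro (⟨h1, h2⟩ | ⟨h1, h2⟩)
          · exact ⟨⟨h1, by linarith [hr.2]⟩, h2.ne⟩
          · exact ⟨⟨by linarith [hr.1], h2⟩, h1.ne'⟩, closure_union]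
      rcases hr.1.lt_or_eq with h | h
      · exact Or.inl (by rw [closure_Ico h.ne]; exact ⟨h.le, le_rfl⟩)
      · exact Or.inr (by
          rw [closure_Ioc (by linarith : r ≠ 1 - δ)]
          exact ⟨le_rfl, hr.2⟩)
    refine ge_of_tendsto (x := nhdsWithin r (Set.Icc δ (1 - δ) \ {r})) ?_
      (eventually_nhdsWithin_of_forall fun x hx => main x hx.1 hx.2)
    refine Filter.Tendsto.mono_left (Continuous.tendsto ?_ r) nhdsWithin_le_nhds
    have := continuous_dd a N r u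
    fun_prop
  · exact main r hr hrt

end Vale.Agent.P371.Sharp
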