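import Vale.Agent.P371.MatrixPos
import Vale.Agent.P371.SharpProfile

/-!
Polynomial calibrations for matrix densities: up to an error proportional to the cube of the
trace, the calibration dominates `π²/4` times the trace of the cube.
-/

namespace Vale.Agent.P371.Matrix

open Real Finset Sharp MatrixPos ComplexOrder

theorem prof_key_eq {r t u : ℝ} (hrt : r ≠ t) (h0 : 0 < r + u) (h1 : r + u < 2) (h2 : 0 < t + u)
    (h3 : t + u < 2) :
    2 * ((prof (r + u) - prof (t + u)) / (r - t)) - 4 * prof (r + u) * prof (t + u) =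
      π ^ 2 / 4 * (1 + kmat (π * (r + u) / 2) (π * (t + u) / 2)) := by
  have hπ := pi_pos
  obtain ⟨A, hA⟩ : ∃ A, A = π * (r + u) / 2 := ⟨_, rfl⟩
  obtain ⟨B, hB⟩ : ∃ B, B = π * (t + u) / 2 := ⟨_, rfl⟩
  have hA0 : 0 < A ∧ A < π := by rw [hA]; constructor <;> nlinarith
  have hB0 : 0 < B ∧ B < π := by rw [hB]; constructor <;> nlinarith
  have hsA := (Real.sin_pos_of_pos_of_lt_pi hA0.1 hA0.2).ne'
  have hsB := (Real.sin_pos_of_pos_of_lt_pi hB0.1 hB0.2).ne'
  have hx : A - B = π * (r - t) / 2 := by rw [hA, hB]; ring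
  have hrt' : r - t ≠ 0 := sub_ne_zero.2 hrt
  have hx0 : A - B ≠ 0 := by rw [hx]; simp [hπ.ne', hrt']
  rw [← hA, ← hB, kmat, Real.sinc_of_ne_zero hx0, Real.cos_sub, prof, prof, ← hA, ← hB,
    Real.sin_sub, hx]
  field_simp
  ring

/-- Polynomials realising the matrix calibration kernel up to `η`. -/
theorem exists_calib2 {δ : ℝ} (hδ : 0 < δ) (hδ1 : δ < 1 / 2) {η : ℝ} (hη : 0 < η) :
    ∃ (a : ℕ → ℝ) (N : ℕ), ∀ r ∈ Set.Icc δ (1 - δ), ∀ t ∈ Set.Icc δ (1 - δ),
      ∀ u ∈ Set.Icc δ (1 - δ), |(2 * dd a N r t u -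
        4 * (∑ n ∈ range N, a n * (r + u) ^ n) * (∑ n ∈ range N, a n * (t + u) ^ n)) -
          π ^ 2 / 4 * (1 + kmat (π * (r + u) / 2) (π * (t + u) / 2))| ≤ η := by
  have hpc : ContinuousOn prof (Set.Icc (2 * δ) (2 - 2 * δ)) := fun x hx => by
    refine (hasDerivAt_prof ?_).continuousAt.continuousWithinAt
    refine (Real.sin_pos_of_pos_of_lt_pi ?_ ?_).ne' <;> nlinarith [hx.1, hx.2, pi_pos]
  obtain ⟨B, hB⟩ := isCompact_Icc.exists_bound_of_continuousOn hpc
  obtain ⟨B', hB'⟩ : ∃ B', B' = max B 0 := ⟨_, rfl⟩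
  have hB0 : 0 ≤ B' := hB' ▸ le_max_right B 0
  obtain ⟨e, he⟩ : ∃ e, e = min 1 (η / (6 + 8 * B')) := ⟨_, rfl⟩
  have he0 : 0 < e := he ▸ lt_min one_pos (div_pos hη (by positivity))
  have he1 : e ≤ 1 := he ▸ min_le_left _ _
  have he2 : e * (6 + 8 * B') ≤ η := by
    rw [← le_div_iff₀ (by positivity : 0 < 6 + 8 * B'), he]
    exact min_le_right _ _
  obtain ⟨a, N, ha⟩ := exists_approx hδ hδ1 he0
  refine ⟨a, N, fun r hr t ht u hu => ?_⟩
  have main : ∀ r ∈ Set.Icc δ (1 - δ), r ≠ t → |(2 * dd a N r t u -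
      4 * (∑ n ∈ range N, a n * (r + u) ^ n) * (∑ n ∈ range N, a n * (t + u) ^ n)) -
        π ^ 2 / 4 * (1 + kmat (π * (r + u) / 2) (π * (t + u) / 2))| ≤ η := by
    intro r hr hrt
    have hx : r + u ∈ Set.Icc (2 * δ) (2 - 2 * δ) :=
      ⟨by linarith [hr.1, hu.1], by linarith [hr.2, hu.2]⟩
    have hy : t + u ∈ Set.Icc (2 * δ) (2 - 2 * δ) :=
      ⟨by linarith [ht.1, hu.1], by linarith [ht.2, hu.2]⟩
    have hrt' : r - t ≠ 0 := sub_ne_zero.2 hrt
    rw [← prof_key_eq hrt (by linarith [hr.1, hu.1]) (by linarith [hr.2, hu.2])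
      (by linarith [ht.1, hu.1]) (by linarith [ht.2, hu.2])]
    obtain ⟨hxe, hxl⟩ := ha _ hx
    obtain ⟨hye, -⟩ := ha _ hy
    have hdd := dd_mul a N r t u
    obtain ⟨Px, hPx⟩ : ∃ P, P = ∑ n ∈ range N, a n * (r + u) ^ n := ⟨_, rfl⟩
    obtain ⟨Py, hPy⟩ : ∃ P, P = ∑ n ∈ range N, a n * (t + u) ^ n := ⟨_, rfl⟩
    have hl := hxl _ hy
    rw [← hPx, ← hPy, show (r + u) - (t + u) = r - t by ring] at hl
    rw [← hPx] at hxe
    rw [← hPy] at hye
    rw [← hPx, ← hPy] at hdd ⊢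
    have h1 : |dd a N r t u - (prof (r + u) - prof (t + u)) / (r - t)| ≤ e := by
      rw [show dd a N r t u - (prof (r + u) - prof (t + u)) / (r - t) =
          ((Px - prof (r + u)) - (Py - prof (t + u))) / (r - t) by
        rw [eq_div_iff hrt', sub_mul, div_mul_cancel₀ _ hrt', hdd]; ring,
        abs_div, div_le_iff₀ (abs_pos.2 hrt')]
      exact hl
    have hbx : |prof (r + u)| ≤ B' := (hB _ hx).trans (hB' ▸ le_max_left B 0)
    have hby : |prof (t + u)| ≤ B' := (hB _ hy).trans (hB' ▸ le_max_left B 0)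
    have h2 : |Px * Py - prof (r + u) * prof (t + u)| ≤ e * (2 * B' + 1) := by
      rw [show Px * Py - prof (r + u) * prof (t + u) = (Px - prof (r + u)) * (Py - prof (t + u)) +
        ((Px - prof (r + u)) * prof (t + u) + prof (r + u) * (Py - prof (t + u))) by ring]
      refine (abs_add_le _ _).trans ((add_le_add le_rfl (abs_add_le _ _)).trans ?_)
      rw [abs_mul, abs_mul, abs_mul]
      have a1 := mul_le_mul hxe hye (abs_nonneg _) he0.le
      have a2 := mul_le_mul hxe hby (abs_nonneg _) he0.le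
      have a3 := mul_le_mul hbx hye (abs_nonneg _) hB0
      have a4 : e * e ≤ e := mul_le_of_le_one_left he0.le he1
      linarith
    rw [abs_le] at h1 h2 ⊢
    constructor <;> linarith
  rcases eq_or_ne r t with hrt | hrt
  · subst hrt
    have hne : (nhdsWithin r (Set.Icc δ (1 - δ) \ {r})).NeBot := by
      rw [← mem_closure_iff_nhdsWithin_neBot]
      rw [show Set.Icc δ (1 - δ) \ {r} = Set.Ico δ r ∪ Set.Ioc r (1 - δ) by
        ext x
        simp only [Set.mem_sdiff, Set.mem_Icc, Set.mem_singleton_iff, Set.mem_union, Set.mem_Ico,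
          Set.mem_Ioc]
        constructor
        · rintro ⟨⟨h1, h2⟩, h3⟩
          rcases lt_or_gt_of_ne h3 with h | h
          · exact Or.inl ⟨h1, h⟩
          · exact Or.inr ⟨h, h2⟩
        · rintro (⟨h1, h2⟩ | ⟨h1, h2⟩)
          · exact ⟨⟨h1, by linarith [hr.2]⟩, h2.ne⟩
          · exact ⟨⟨by linarith [hr.1], h2⟩, h1.ne'⟩, closure_union]
      rcases hr.1.lt_or_eq with h | h
      · exact Or.inl (by rw [closure_Ico h.ne]; exact ⟨h.le, le_rfl⟩)
      · exact Or.inr (by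
          rw [closure_Ioc (by linarith : r ≠ 1 - δ)]
          exact ⟨le_rfl, hr.2⟩)
    refine le_of_tendsto (x := nhdsWithin r (Set.Icc δ (1 - δ) \ {r})) ?_
      (eventually_nhdsWithin_of_forall fun x hx => main x hx.1 hx.2)
    have hs : Real.sin (π * (r + u) / 2) ≠ 0 :=
      (Real.sin_pos_of_pos_of_lt_pi (by nlinarith [hr.1, hu.1, pi_pos])
        (by nlinarith [hr.2, hu.2, pi_pos])).ne'
    refine Filter.Tendsto.mono_left (ContinuousAt.tendsto ?_) nhdsWithin_le_nhds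
    have hd := (continuous_dd a N r u).continuousAt (x := r)
    have hk : ContinuousAt (fun x => kmat (π * (x + u) / 2) (π * (r + u) / 2)) r := by
      unfold kmat
      refine ContinuousAt.div ?_ (by fun_prop) (mul_ne_zero hs hs)
      have := Real.continuous_sinc
      fun_prop
    fun_prop
  · exact main r hr hrt

/-- The hypothesis of the pointwise matrix calibration, up to `η` times the cube of the trace. -/
theorem exists_calib_gram (α : Type*) [Fintype α] {δ : ℝ} (hδ : 0 < δ) (hδ1 : δ < 1 / 2) {η : ℝ}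
    (hη : 0 < η) :
    ∃ (A : ℕ → ℝ) (N : ℕ), ∀ (n : ℕ) (s : Fin n → ℝ), (∀ i, s i ∈ Set.Icc δ (1 - δ)) →
      ∀ P : Fin n → α → ℝ,
      π ^ 2 / 4 * (∑ i, ∑ j, ∑ m,
          (∑ a, P i a * P j a) * (∑ b, P j b * P m b) * (∑ e, P m e * P i e)) -
          η * (∑ i, ∑ a, P i a * P i a) ^ 3 ≤
        ∑ i, ∑ j, ∑ m, (2 * dd A N (s i) (s m) (s j) -
          4 * (∑ n ∈ range N, A n * (s i + s j) ^ n) * (∑ n ∈ range N, A n * (s m + s j) ^ n)) *
          ((∑ a, P i a * P j a) * (∑ b, P j b * P m b) * (∑ e, P m e * P i e)) := by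
  classical
  obtain ⟨A, N, hA⟩ := exists_calib2 hδ hδ1 hη
  refine ⟨A, N, fun n s hs P => ?_⟩
  obtain ⟨W, hW⟩ : ∃ W : Fin n → Fin n → ℝ, W = fun i j => ∑ a, P i a * P j a := ⟨_, rfl⟩
  obtain ⟨T, hT⟩ : ∃ T : Fin n → Fin n → Fin n → ℝ, T = fun i j m => 2 * dd A N (s i) (s m) (s j) -
      4 * (∑ k ∈ range N, A k * (s i + s j) ^ k) * (∑ k ∈ range N, A k * (s m + s j) ^ k) :=
    ⟨_, rfl⟩
  obtain ⟨κ, hκ⟩ : ∃ κ : Fin n → Fin n → Fin n → ℝ, κ = fun i j m =>
      kmat ((π * s i + π * s j) / 2) ((π * s j + π * s m) / 2) := ⟨_, rfl⟩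
  suffices h : π ^ 2 / 4 * (∑ i, ∑ j, ∑ m, W i j * W j m * W m i) -
      η * (∑ i, W i i) ^ 3 ≤ ∑ i, ∑ j, ∑ m, T i j m * (W i j * W j m * W m i) by
    simpa only [hW, hT] using h
  have hpos : 0 ≤ ∑ i, ∑ j, ∑ m, κ i j m * (W i j * W j m * W m i) := by
    obtain ⟨Pc, hPc⟩ : ∃ Pc : _root_.Matrix (Fin n) α ℂ,
        Pc = _root_.Matrix.of fun i a => (P i a : ℂ) := ⟨_, rfl⟩
    have h := matrix_pos (fun i => π * s i) (fun i => ⟨mul_pos pi_pos (hδ.trans_le (hs i).1),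
      mul_lt_of_lt_one_right pi_pos (by linarith [(hs i).2])⟩)
      (_root_.Matrix.posSemidef_self_mul_conjTranspose Pc)
    refine h.trans_eq (sum_congr rfl fun i _ => sum_congr rfl fun j _ => sum_congr rfl fun m _ => ?_)
    have e : ∀ i j, (Pc * Pc.conjTranspose) i j = (W i j : ℂ) := fun i j => by
      simp [hPc, hW, _root_.Matrix.mul_apply]
    simp only [e, hκ, ← Complex.ofReal_mul, Complex.ofReal_re]
  have hd : ∀ i, 0 ≤ W i i := fun i => by
    rw [hW]; exact sum_nonneg fun a _ => mul_self_nonneg _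
  have hcs : ∀ i j, |W i j| ≤ √(W i i) * √(W j j) := fun i j => by
    rw [← Real.sqrt_mul (hd i)]
    refine Real.abs_le_sqrt ?_
    simpa only [hW, sq] using sum_mul_sq_le_sq_mul_sq univ (fun a => P i a) fun a => P j a
  have herr : ∀ i j m, |W i j * W j m * W m i| ≤ W i i * W j j * W m m := fun i j m => by
    rw [abs_mul, abs_mul]
    refine (mul_le_mul (mul_le_mul (hcs i j) (hcs j m) (abs_nonneg _)
      (mul_nonneg (Real.sqrt_nonneg _) (Real.sqrt_nonneg _))) (hcs m i) (abs_nonneg _)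
      (mul_nonneg (mul_nonneg (Real.sqrt_nonneg _) (Real.sqrt_nonneg _))
        (mul_nonneg (Real.sqrt_nonneg _) (Real.sqrt_nonneg _)))).trans_eq ?_
    rw [show √(W i i) * √(W j j) * (√(W j j) * √(W m m)) * (√(W m m) * √(W i i)) =
      (√(W i i) * √(W i i)) * (√(W j j) * √(W j j)) * (√(W m m) * √(W m m)) by ring,
      Real.mul_self_sqrt (hd i), Real.mul_self_sqrt (hd j), Real.mul_self_sqrt (hd m)]
  have hterm : ∀ i j m, π ^ 2 / 4 * (W i j * W j m * W m i) +
      π ^ 2 / 4 * (κ i j m * (W i j * W j m * W m i)) - η * (W i i * W j j * W m m) ≤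
        T i j m * (W i j * W j m * W m i) := fun i j m => by
    have h1 := hA _ (hs i) _ (hs m) _ (hs j)
    rw [show π * (s i + s j) / 2 = (π * s i + π * s j) / 2 by ring,
      show π * (s m + s j) / 2 = (π * s j + π * s m) / 2 by ring] at h1
    obtain ⟨D, hD⟩ : ∃ D, D = T i j m - π ^ 2 / 4 * (1 + κ i j m) := ⟨_, rfl⟩
    have h2 : |D * (W i j * W j m * W m i)| ≤ η * (W i i * W j j * W m m) := by
      rw [abs_mul]
      refine mul_le_mul ?_ (herr i j m) (abs_nonneg _) hη.le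
      simpa only [hD, hT, hκ] using h1
    have h3 := (abs_le.1 h2).1
    rw [hD] at h3
    linarith
  have hsum := sum_le_sum fun i (_ : i ∈ univ) => sum_le_sum fun j (_ : j ∈ univ) =>
    sum_le_sum fun m (_ : m ∈ univ) => hterm i j m
  simp only [sum_add_distrib, sum_sub_distrib, ← mul_sum, ← sum_mul] at hsum
  have hcube : (∑ i, W i i) ^ 3 = (∑ i, W i i) * (∑ i, W i i) * ∑ i, W i i := by ring
  rw [hcube]
  nlinarith [mul_nonneg (sq_nonneg π) hpos]

end Vale.Agent.P371.Matrix
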