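import Vale.Agent.P371.SharpKinetic
import Vale.Agent.P371.Lifting

/-!
The sharp kinetic inequality for orthonormal families and the resulting bound on eigenvalue sums.
-/

namespace Vale.Agent.P371.Sharp

open MeasureTheory intervalIntegral Set Filter Topology ComplexConjugate

variable {ι : Type*} [Fintype ι]

theorem kinetic_pi {ψ ψd : ι → ℝ → ℝ} (hψ : ∀ i x, HasDerivAt (ψ i) (ψd i x) x)
    (hψd : ∀ i, Continuous (ψd i)) {a b : ℝ} (hab : a < b) (ha : ∀ i, ψ i a = 0)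
    (hb : ∀ i, ψ i b = 0)
    (hB : ∀ v : ι → ℝ, ∫ y in a..b, (∑ i, v i * ψ i y) ^ 2 ≤ ∑ i, v i ^ 2) :
    Real.pi ^ 2 / 4 * ∫ x in a..b, dens ψ x ^ 3 ≤ ∫ x in a..b, ∑ i, ψd i x ^ 2 := by
  set f : ℝ → EuclideanSpace ℝ ι := fun x => WithLp.toLp 2 fun i => ψ i x with hf
  set fd : ℝ → EuclideanSpace ℝ ι := fun x => WithLp.toLp 2 fun i => ψd i x with hfd
  have h1 : ∀ x, HasDerivAt f (fd x) x := fun x =>
    (PiLp.continuousLinearEquiv 2 ℝ fun _ : ι => ℝ).symm.hasFDerivAt.comp_hasDerivAt x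
      (hasDerivAt_pi.2 fun i => hψ i x)
  have h2 : Continuous fd :=
    (PiLp.continuousLinearEquiv 2 ℝ fun _ : ι => ℝ).symm.continuous.comp (continuous_pi hψd)
  have h0 : ∀ x, (∀ i, ψ i x = 0) → f x = 0 := fun x hx => by ext i; simp [hf, hx]
  have h3 := kinetic_vec h1 h2 hab.le (h0 a ha) (h0 b hb) fun z => by
    simpa [hf, EuclideanSpace.norm_sq_eq, PiLp.inner_apply] using hB fun i => z i
  simpa [hf, hfd, EuclideanSpace.norm_sq_eq, dens] using h3

theorem kinetic_real {ψ ψd : ι → ℝ → ℝ} (hψ : ∀ i x, HasDerivAt (ψ i) (ψd i x) x)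
    (hψd : ∀ i, Continuous (ψd i)) (hsupp : ∀ i, HasCompactSupport (ψ i))
    (hB : ∀ v : ι → ℝ, ∫ y, (∑ i, v i * ψ i y) ^ 2 ≤ ∑ i, v i ^ 2) :
    Real.pi ^ 2 / 4 * ∫ x, dens ψ x ^ 3 ≤ ∫ x, ∑ i, ψd i x ^ 2 := by
  obtain ⟨r, hr⟩ := (isBounded_iff_forall_norm_le.1
    (isCompact_iUnion fun i => (hsupp i)).isBounded)
  set R := |r| + 1 with hR
  have hout : ∀ i x, x ∉ Ioo (-R) R → x ∉ tsupport (ψ i) := by
    intro i x hx hmem
    have := hr x (mem_iUnion.2 ⟨i, hmem⟩)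
    rw [Real.norm_eq_abs, abs_le] at this
    exact hx ⟨by linarith [le_abs_self r], by linarith [le_abs_self r]⟩
  have hzero : ∀ i x, x ∉ Ioo (-R) R → ψ i x = 0 := fun i x hx =>
    image_eq_zero_of_notMem_tsupport (hout i x hx)
  have hdzero : ∀ i x, x ∉ Ioo (-R) R → ψd i x = 0 := fun i x hx => by
    have h : deriv (ψ i) x = 0 := Function.notMem_support.1 fun h =>
      hout i x hx (support_deriv_subset h)
    rwa [(hψ i x).deriv] at h
  have heq : ∀ F : ℝ → ℝ, (∀ x, x ∉ Ioo (-R) R → F x = 0) → ∫ x, F x = ∫ x in -R..R, F x :=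
    fun F hF => (intervalIntegral.integral_eq_integral_of_support_subset fun x hx =>
      Ioo_subset_Ioc_self (by_contra fun h => hx (hF x h))).symm
  rw [heq _ (fun x hx => by simp [dens, hzero _ x hx]), heq _ (fun x hx => by simp [hdzero _ x hx])]
  refine kinetic_pi hψ hψd (by linarith [abs_nonneg r])
    (fun i => hzero i _ fun h => lt_irrefl _ h.1) (fun i => hzero i _ fun h => lt_irrefl _ h.2)
    fun v => ?_
  rw [← heq _ (fun x hx => by simp [hzero _ x hx])]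
  exact hB v

/-- The kinetic inequality for a complex orthonormal family. -/
theorem kinetic_complex {u : ι → ℝ → ℂ} (hu : ∀ j, ContDiff ℝ 1 (u j))
    (hsupp : ∀ j, HasCompactSupport (u j))
    (horth : ∀ j k, j ≠ k → ∫ x, conj (u j x) * u k x = 0)
    (hnorm : ∀ j, ∫ x, ‖u j x‖ ^ 2 = 1) :
    Real.pi ^ 2 / 4 * ∫ x, (∑ j, ‖u j x‖ ^ 2) ^ 3 ≤ ∫ x, ∑ j, ‖deriv (u j) x‖ ^ 2 := by
  have hd : ∀ j x, HasDerivAt (u j) (deriv (u j) x) x := fun j x =>
    ((hu j).differentiable one_ne_zero x).hasDerivAt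
  have hdc : ∀ j, Continuous (deriv (u j)) := fun j => (hu j).continuous_deriv le_rfl
  set ψ : ι ⊕ ι → ℝ → ℝ := Sum.elim (fun j x => (u j x).re) fun j x => (u j x).im with hψ
  set ψd : ι ⊕ ι → ℝ → ℝ :=
    Sum.elim (fun j x => (deriv (u j) x).re) fun j x => (deriv (u j) x).im with hψd
  have h1 : ∀ i x, HasDerivAt (ψ i) (ψd i x) x := by
    rintro (j | j) x
    · exact (Complex.reCLM.hasFDerivAt.comp_hasDerivAt x (hd j x)).congr_deriv rfl
    · exact (Complex.imCLM.hasFDerivAt.comp_hasDerivAt x (hd j x)).congr_deriv rfl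
  have h2 : ∀ i, Continuous (ψd i) := by
    rintro (j | j)
    · exact Complex.continuous_re.comp (hdc j)
    · exact Complex.continuous_im.comp (hdc j)
  have h3 : ∀ i, HasCompactSupport (ψ i) := by
    rintro (j | j)
    · exact (hsupp j).comp_left (g := Complex.re) rfl
    · exact (hsupp j).comp_left (g := Complex.im) rfl
  have h4 : ∀ v : ι ⊕ ι → ℝ, ∫ y, (∑ i, v i * ψ i y) ^ 2 ≤ ∑ i, v i ^ 2 := by
    intro v
    obtain ⟨hSi, hS⟩ := integral_norm_sq_sum (fun j => (hu j).continuous) hsupp horth hnorm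
      fun j => (⟨v (.inl j), -v (.inr j)⟩ : ℂ)
    have hre : ∀ y, ∑ i, v i * ψ i y =
        (∑ j, (⟨v (.inl j), -v (.inr j)⟩ : ℂ) * u j y).re := fun y => by
      simp [hψ, Fintype.sum_sum_type, ← Finset.sum_add_distrib, Complex.re_sum, Complex.mul_re,
        sub_neg_eq_add]
    refine (integral_mono_of_nonneg (.of_forall fun y => sq_nonneg _) hSi
      (.of_forall fun y => ?_)).trans (le_of_eq (hS.trans ?_))
    · simp only [hre, Complex.sq_norm, Complex.normSq_apply, ← pow_two]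
      exact le_add_of_nonneg_right (sq_nonneg _)
    · simp [Fintype.sum_sum_type, ← Finset.sum_add_distrib, Complex.sq_norm,
        Complex.normSq_apply, ← pow_two]
  have h := kinetic_real h1 h2 h3 h4
  have e1 : ∀ x, dens ψ x = ∑ j, ‖u j x‖ ^ 2 := fun x => by
    simp [dens, hψ, Fintype.sum_sum_type, ← Finset.sum_add_distrib, Complex.sq_norm,
      Complex.normSq_apply, ← pow_two]
  have e2 : ∀ x, ∑ i, ψd i x ^ 2 = ∑ j, ‖deriv (u j) x‖ ^ 2 := fun x => by
    simp [hψd, Fintype.sum_sum_type, ← Finset.sum_add_distrib, Complex.sq_norm,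
      Complex.normSq_apply, ← pow_two]
  simpa only [e1, e2] using h

/-- Young's inequality with the sharp kinetic constant. -/
theorem young_sharp {w r : ℝ} (hw : 0 ≤ w) (hr : 0 ≤ r) :
    w * r - Real.pi ^ 2 / 4 * r ^ 3 ≤ 4 / (3 * Real.sqrt 3 * Real.pi) * w ^ (3 / 2 : ℝ) := by
  rw [show w ^ (3 / 2 : ℝ) = Real.sqrt w ^ 3 by
    rw [Real.sqrt_eq_rpow, ← Real.rpow_natCast, ← Real.rpow_mul hw]; norm_num]
  set u := Real.sqrt w
  have hu : u ^ 2 = w := Real.sq_sqrt hw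
  have hu0 : 0 ≤ u := Real.sqrt_nonneg w
  set k := Real.sqrt 3 * Real.pi / 2 with hk
  have h3 : Real.sqrt 3 ^ 2 = 3 := Real.sq_sqrt (by norm_num)
  have hk0 : 0 < k := by positivity
  rw [← hu, show Real.pi ^ 2 / 4 = k ^ 2 / 3 by rw [hk, div_pow, mul_pow, h3]; ring,
    show 4 / (3 * Real.sqrt 3 * Real.pi) = 2 / (3 * k) by rw [hk]; field_simp; ring]
  refine le_of_mul_le_mul_left ?_ hk0
  rw [show k * (2 / (3 * k) * u ^ 3) = 2 / 3 * u ^ 3 by field_simp]
  nlinarith [mul_nonneg (sq_nonneg (k * r - u)) (by positivity : 0 ≤ k * r + 2 * u)]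

theorem sum_energy_le {V : ℝ → ℝ} (hVm : Measurable V) (hV0 : ∀ x, 0 ≤ V x)
    (hVi : Integrable fun x => V x ^ (3 / 2 : ℝ)) {u : ι → ℝ → ℂ}
    (hu : ∀ j, ContDiff ℝ 1 (u j)) (hsupp : ∀ j, HasCompactSupport (u j))
    (horth : ∀ j k, j ≠ k → ∫ x, conj (u j x) * u k x = 0)
    (hnorm : ∀ j, ∫ x, ‖u j x‖ ^ 2 = 1) :
    ∑ j, energy V (u j) ≤ 4 / (3 * Real.sqrt 3 * Real.pi) * ∫ x, V x ^ (3 / 2 : ℝ) := by
  have hp : (1 : ℝ) ≤ 3 / 2 := by norm_num
  have hc : ∀ j, Continuous (u j) := fun j => (hu j).continuous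
  have hρc : Continuous fun x => ∑ j, ‖u j x‖ ^ 2 :=
    continuous_finsetSum _ fun j _ => (hc j).norm.pow 2
  have hρs : HasCompactSupport fun x => ∑ j, ‖u j x‖ ^ 2 := by
    refine HasCompactSupport.intro (isCompact_iUnion fun j => hsupp j) fun x hx => ?_
    simp only [mem_iUnion, not_exists] at hx
    exact Finset.sum_eq_zero fun j _ => by simp [image_eq_zero_of_notMem_tsupport (hx j)]
  have hn : ∀ j, HasCompactSupport fun x => ‖u j x‖ ^ 2 := fun j =>
    (hsupp j).comp_left (g := fun z : ℂ => ‖z‖ ^ 2) (by simp)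
  have hi : ∀ j, Integrable fun x => V x * ‖u j x‖ ^ 2 := fun j =>
    integrable_pot_mul hp hVm hV0 hVi (g := fun x => ‖u j x‖ ^ 2) ((hc j).norm.pow 2) (hn j)
  have hdi : ∀ j, Integrable fun x => ‖deriv (u j) x‖ ^ 2 := integrable_deriv_sq hu hsupp
  have hρ3 : Integrable fun x => (∑ j, ‖u j x‖ ^ 2) ^ 3 := integrable_cube hρc hρs
  have hK := kinetic_complex hu hsupp horth hnorm
  rw [integral_finsetSum _ fun j _ => hdi j] at hK
  simp only [energy, Finset.sum_sub_distrib]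
  rw [← integral_finsetSum _ fun j _ => hi j]
  simp only [← Finset.mul_sum]
  have hVρ := integrable_pot_mul hp hVm hV0 hVi hρc hρs
  refine le_trans (sub_le_sub_left hK _) ?_
  rw [← MeasureTheory.integral_const_mul, ← MeasureTheory.integral_const_mul,
    ← integral_sub hVρ (hρ3.const_mul _)]
  exact integral_mono (hVρ.sub (hρ3.const_mul _)) (hVi.const_mul _) fun x =>
    young_sharp (hV0 x) (Finset.sum_nonneg fun j _ => sq_nonneg _)

theorem sum_pos_energy_le {V : ℝ → ℝ} (hVm : Measurable V) (hV0 : ∀ x, 0 ≤ V x)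
    (hVi : Integrable fun x => V x ^ (3 / 2 : ℝ)) {u : ι → ℝ → ℂ}
    (hu : ∀ j, ContDiff ℝ 1 (u j)) (hsupp : ∀ j, HasCompactSupport (u j))
    (horth : ∀ j k, j ≠ k → ∫ x, conj (u j x) * u k x = 0)
    (hnorm : ∀ j, ∫ x, ‖u j x‖ ^ 2 = 1) :
    ∑ j, max 0 (energy V (u j)) ≤
      4 / (3 * Real.sqrt 3 * Real.pi) * ∫ x, V x ^ (3 / 2 : ℝ) := by
  classical
  have h := sum_energy_le hVm hV0 hVi (u := fun j : {j : ι // 0 < energy V (u j)} => u j)
    (fun j => hu j) (fun j => hsupp j) (fun j k hjk => horth j k fun he => hjk (Subtype.ext he))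
    fun j => hnorm j
  refine le_trans (le_of_eq ?_) h
  rw [← Finset.sum_subtype (Finset.univ.filter fun j => 0 < energy V (u j)) (by simp)
    (fun j => energy V (u j)), Finset.sum_filter]
  refine Finset.sum_congr rfl fun j _ => ?_
  split_ifs with hj
  · exact max_eq_right hj.le
  · exact max_eq_left (not_lt.1 hj)

theorem sum_shifted_le {W : ℝ → ℝ} {γ : ℝ} (hγ : 1 ≤ γ) (hWm : Measurable W) (hW0 : ∀ x, 0 ≤ W x)
    (hWi : Integrable fun x => W x ^ (γ + 1 / 2)) {u : ι → ℝ → ℂ}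
    (hu : ∀ j, ContDiff ℝ 1 (u j)) (hsupp : ∀ j, HasCompactSupport (u j))
    (horth : ∀ j k, j ≠ k → ∫ x, conj (u j x) * u k x = 0)
    (hnorm : ∀ j, ∫ x, ‖u j x‖ ^ 2 = 1) {t : ℝ} (ht : 0 < t) :
    ∑ j, max 0 (energy W (u j) - t) ≤
      4 / (3 * Real.sqrt 3 * Real.pi) * ∫ x, max 0 (W x - t) ^ (3 / 2 : ℝ) ∧
    Integrable fun x => max 0 (W x - t) ^ (3 / 2 : ℝ) := by
  have hVm : Measurable fun x => max 0 (W x - t) := measurable_const.max (hWm.sub_const t)
  have hVi : Integrable fun x => max 0 (W x - t) ^ (3 / 2 : ℝ) := by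
    refine (hWi.const_mul (t ^ (1 - γ))).mono' (hVm.pow_const _).aestronglyMeasurable
      (.of_forall fun x => ?_)
    rw [Real.norm_eq_abs, abs_of_nonneg (Real.rpow_nonneg (le_max_left _ _) _)]
    rcases le_or_gt (W x) t with hx | hx
    · rw [max_eq_left (by linarith), Real.zero_rpow (by norm_num)]
      exact mul_nonneg (Real.rpow_nonneg ht.le _) (Real.rpow_nonneg (hW0 x) _)
    · rw [max_eq_right (by linarith)]
      have hWx : 0 < W x := ht.trans hx
      calc (W x - t) ^ (3 / 2 : ℝ) ≤ W x ^ (3 / 2 : ℝ) :=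
            Real.rpow_le_rpow (by linarith) (by linarith) (by norm_num)
        _ = W x ^ (1 - γ) * W x ^ (γ + 1 / 2) := by rw [← Real.rpow_add hWx]; congr 1; ring
        _ ≤ t ^ (1 - γ) * W x ^ (γ + 1 / 2) := mul_le_mul_of_nonneg_right
            (Real.rpow_le_rpow_of_nonpos ht hx.le (by linarith)) (Real.rpow_nonneg hWx.le _)
  refine ⟨?_, hVi⟩
  refine le_trans (Finset.sum_le_sum fun j _ => max_le_max le_rfl ?_)
    (sum_pos_energy_le hVm (fun x => le_max_left _ _) hVi hu hsupp horth hnorm)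
  have hn : HasCompactSupport fun x => ‖u j x‖ ^ 2 :=
    (hsupp j).comp_left (g := fun z : ℂ => ‖z‖ ^ 2) (by simp)
  have hgc : Continuous fun x => ‖u j x‖ ^ 2 := (hu j).continuous.norm.pow 2
  have hni : Integrable fun x => ‖u j x‖ ^ 2 := hgc.integrable_of_hasCompactSupport hn
  have hi1 := integrable_pot_mul (by linarith : 1 ≤ γ + 1 / 2) hWm hW0 hWi hgc hn
  have hi2 := integrable_pot_mul (by norm_num : (1 : ℝ) ≤ 3 / 2) hVm (fun x => le_max_left _ _) hVi
    hgc hn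
  simp only [energy]
  have h : ∫ x, (W x * ‖u j x‖ ^ 2 - t * ‖u j x‖ ^ 2) ≤
      ∫ x, max 0 (W x - t) * ‖u j x‖ ^ 2 :=
    integral_mono (hi1.sub (hni.const_mul t)) hi2 fun x => by
      show W x * ‖u j x‖ ^ 2 - t * ‖u j x‖ ^ 2 ≤ max 0 (W x - t) * ‖u j x‖ ^ 2
      rw [← sub_mul]
      exact mul_le_mul_of_nonneg_right (le_max_right _ _) (sq_nonneg _)
  rw [integral_sub hi1 (hni.const_mul t), MeasureTheory.integral_const_mul, hnorm j] at h
  linarith

end Vale.Agent.P371.Sharp
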