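import Vale.Agent.P371.MatrixCalib
import Vale.Agent.P371.MatrixProfile
import Vale.Agent.P371.SharpLifting

/-!
The sharp kinetic inequality for orthonormal families of vector valued functions: the kinetic
energy is at least `π²/4` times the integral of the trace of the cube of the matrix density.
-/

namespace Vale.Agent.P371.Matrix

open MeasureTheory intervalIntegral Finset RealInnerProductSpace Real Filter Topology ComplexConjugate
open Sharp (outer outer_apply continuous_outer inner_pow_symm)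

variable {E : Type*} [NormedAddCommGroup E] [InnerProductSpace ℝ E]
variable {α : Type*} [Fintype α]
variable {f fd : α → ℝ → E} {T : ℝ → E →L[ℝ] E} {c : ℝ}

theorem hasDerivAt_pow2 (hf : ∀ a x, HasDerivAt (f a) (fd a x) x)
    (hT : ∀ x, HasDerivAt T (c • ∑ e, outer (f e x)) x) (k : ℕ) (b : α) (x : ℝ) :
    HasDerivAt (fun y => (T y ^ k) (f b y)) ((T x ^ k) (fd b x) +
      c • ∑ l ∈ range k, ∑ e, mom2 (T x) (fun a => f a x) e b (k - 1 - l) •
        (T x ^ l) (f e x)) x := by
  induction k with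
  | zero => simpa using hf b x
  | succ k ih =>
    have h := (hT x).clm_apply ih
    have e : (fun y => (T y ^ (k + 1)) (f b y)) = fun y => T y ((T y ^ k) (f b y)) := by
      funext y; rw [pow_succ']; rfl
    rw [e]
    refine h.congr_deriv ?_
    rw [smul_apply, _root_.sum_apply, map_add, map_smul, map_sum, sum_range_succ',
      pow_succ', pow_zero, Nat.add_sub_cancel, Nat.sub_zero, smul_add,
      show (T x * T x ^ k) (fd b x) = T x ((T x ^ k) (fd b x)) from rfl]
    simp only [one_apply_eq_self, outer_apply]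
    have e' : ∑ l ∈ range k,
        T x (∑ e, mom2 (T x) (fun a => f a x) e b (k - 1 - l) • (T x ^ l) (f e x)) =
        ∑ l ∈ range k,
          ∑ e, mom2 (T x) (fun a => f a x) e b (k - (l + 1)) • (T x ^ (l + 1)) (f e x) := by
      refine sum_congr rfl fun l _ => ?_
      rw [map_sum, show k - (l + 1) = k - 1 - l by omega]
      exact sum_congr rfl fun e _ => by rw [map_smul, pow_succ']; rfl
    rw [e']
    simp only [mom2]
    abel

theorem hasDerivAt_mom2 (hf : ∀ a x, HasDerivAt (f a) (fd a x) x)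
    (hT : ∀ x, HasDerivAt T (c • ∑ e, outer (f e x)) x)
    (hs : ∀ x u v, ⟪T x u, v⟫ = ⟪u, T x v⟫) (k : ℕ) (a b : α) (x : ℝ) :
    HasDerivAt (fun y => mom2 (T y) (fun a => f a y) a b k)
      (momD2 (T x) (fun a => f a x) (fun a => fd a x) c a b k) x := by
  have h := (hf a x).inner ℝ (hasDerivAt_pow2 hf hT k b x)
  refine h.congr_deriv ?_
  simp only [momD2, inner_add_right, inner_smul_right, inner_sum]
  rw [show ⟪f a x, (T x ^ k) (fd b x)⟫ = ⟪fd b x, (T x ^ k) (f a x)⟫ by
    rw [← inner_pow_symm (hs x), real_inner_comm]]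
  simp only [mom2, mul_comm ⟪f _ x, (T x ^ (k - 1 - _)) (f b x)⟫]
  ring

theorem continuous_calD2 (A : ℕ → ℝ) (N : ℕ) {g : α → ℝ → E} (hf : ∀ a, Continuous (f a))
    (hg : ∀ a, Continuous (g a)) (hT : Continuous T) :
    Continuous fun x => calD2 A N (T x) (fun a => f a x) (fun a => g a x) c := by
  unfold calD2 momD2 mom2
  fun_prop

/-- The trace of the cube of the Gram matrix of the columns. -/
noncomputable def cube (f : α → E) : ℝ := ∑ a, ∑ e, ∑ b, ⟪f a, f e⟫ * ⟪f e, f b⟫ * ⟪f b, f a⟫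

theorem kinetic_step2 [FiniteDimensional ℝ E] (hf : ∀ a x, HasDerivAt (f a) (fd a x) x)
    (hfd : ∀ a, Continuous (fd a)) {a b : ℝ} (hab : a ≤ b) (ha : ∀ e, f e a = 0)
    (hb : ∀ e, f e b = 0) (hB : ∀ z, ∫ y in a..b, ∑ e, ⟪f e y, z⟫ ^ 2 ≤ ‖z‖ ^ 2) {δ : ℝ}
    (hδ : 0 < δ) (hδ1 : δ < 1 / 2) {η : ℝ} (hη : 0 < η) :
    (1 - 2 * δ) ^ 2 * (π ^ 2 / 4 * (∫ x in a..b, cube fun e => f e x) -
      η * ∫ x in a..b, (∑ e, ‖f e x‖ ^ 2) ^ 3) ≤ ∫ x in a..b, ∑ e, ‖fd e x‖ ^ 2 := by
  obtain ⟨co, N, hco⟩ := exists_calib_gram α hδ hδ1 hη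
  have hfc : ∀ e, Continuous (f e) := fun e =>
    continuous_iff_continuousAt.2 fun x => (hf e x).continuousAt
  have hoc : Continuous fun x => ∑ e, outer (f e x) :=
    continuous_finsetSum _ fun e _ => continuous_outer (hfc e)
  obtain ⟨c, hc⟩ : ∃ c, c = 1 - 2 * δ := ⟨_, rfl⟩
  obtain ⟨T, hTdef⟩ : ∃ T : ℝ → E →L[ℝ] E,
      T = fun x => δ • (1 : E →L[ℝ] E) + c • ∫ y in a..x, ∑ e, outer (f e y) := ⟨_, rfl⟩
  have hT : ∀ x, HasDerivAt T (c • ∑ e, outer (f e x)) x := fun x => by
    rw [hTdef]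
    exact ((integral_hasDerivAt_right (hoc.intervalIntegrable _ _)
      hoc.stronglyMeasurable.stronglyMeasurableAtFilter hoc.continuousAt).const_smul c).const_add _
  have hTc : Continuous T := continuous_iff_continuousAt.2 fun x => (hT x).continuousAt
  have hbil : ∀ x u v, ⟪u, T x v⟫ =
      δ * ⟪u, v⟫ + c * ∫ y in a..x, ∑ e, ⟪f e y, u⟫ * ⟪f e y, v⟫ := fun x u v => by
    rw [hTdef]
    simp only [add_apply, smul_apply, one_apply_eq_self, inner_add_right, inner_smul_right]
    congr 2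
    have h := ((innerSL ℝ u).comp (ContinuousLinearMap.apply ℝ E v)).intervalIntegral_comp_comm
      (hoc.intervalIntegrable (μ := volume) a x)
    simp only [ContinuousLinearMap.comp_apply, ContinuousLinearMap.apply_apply,
      innerSL_apply_apply, _root_.sum_apply, inner_sum, outer_apply,
      inner_smul_right] at h
    rw [← h]
    refine intervalIntegral.integral_congr fun y _ => sum_congr rfl fun e _ => ?_
    simp only [real_inner_comm u (f e y)]
    ring
  have hs : ∀ x u v, ⟪T x u, v⟫ = ⟪u, T x v⟫ := fun x u v => by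
    rw [real_inner_comm, hbil, hbil, real_inner_comm u v]
    simp only [mul_comm ⟪f _ _, v⟫]
  have hpos : ∀ x ∈ Set.Icc a b, ∀ z, δ * ‖z‖ ^ 2 ≤ ⟪z, T x z⟫ ∧
      ⟪z, T x z⟫ ≤ (1 - δ) * ‖z‖ ^ 2 := fun x hx z => by
    rw [hbil, real_inner_self_eq_norm_sq]
    simp only [← pow_two]
    have hgc : Continuous fun y => ∑ e, ⟪f e y, z⟫ ^ 2 := by fun_prop
    have hg0 : ∀ y, 0 ≤ ∑ e, ⟪f e y, z⟫ ^ 2 := fun y => sum_nonneg fun e _ => sq_nonneg _
    have h0 : 0 ≤ ∫ y in a..x, ∑ e, ⟪f e y, z⟫ ^ 2 := integral_nonneg hx.1 fun y _ => hg0 y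
    have h1 : ∫ y in a..x, ∑ e, ⟪f e y, z⟫ ^ 2 ≤ ‖z‖ ^ 2 := by
      have h2 : 0 ≤ ∫ y in x..b, ∑ e, ⟪f e y, z⟫ ^ 2 := integral_nonneg hx.2 fun y _ => hg0 y
      have h3 := integral_add_adjacent_intervals (hgc.intervalIntegrable (μ := volume) a x)
        (hgc.intervalIntegrable x b)
      linarith [hB z]
    have hc0 : 0 ≤ c := by linarith
    constructor
    · nlinarith [mul_nonneg hc0 h0]
    · nlinarith [mul_le_mul_of_nonneg_left h1 hc0]
  obtain ⟨G, hG⟩ : ∃ G : ℝ → ℝ, G = fun x => ∑ n ∈ range N, ∑ k ∈ range (n + 1),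
      co n * n.choose k * ∑ p, ∑ q,
        mom2 (T x) (fun e => f e x) p q k * mom2 (T x) (fun e => f e x) q p (n - k) := ⟨_, rfl⟩
  have hGd : ∀ x, HasDerivAt G (calD2 co N (T x) (fun e => f e x) (fun e => fd e x) c) x := by
    intro x
    rw [hG]
    exact HasDerivAt.fun_sum fun n _ => HasDerivAt.fun_sum fun k _ =>
      (HasDerivAt.fun_sum fun p _ => HasDerivAt.fun_sum fun q _ =>
        (hasDerivAt_mom2 hf hT hs k p q x).mul
          (hasDerivAt_mom2 hf hT hs (n - k) q p x)).const_mul _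
  have hDc : Continuous fun x => calD2 co N (T x) (fun e => f e x) (fun e => fd e x) c :=
    continuous_calD2 co N hfc hfd hTc
  have hG0 : ∀ x, (∀ e, f e x = 0) → G x = 0 := fun x hx => by rw [hG]; simp [mom2, hx]
  have hint : ∫ x in a..b, calD2 co N (T x) (fun e => f e x) (fun e => fd e x) c = 0 := by
    rw [integral_eq_sub_of_hasDerivAt (fun x _ => hGd x) (hDc.intervalIntegrable _ _), hG0 b hb,
      hG0 a ha, sub_zero]
  have hi0 : Continuous fun x => cube fun e => f e x := by unfold cube; fun_prop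
  have hi0' : Continuous fun x => (∑ e, ‖f e x‖ ^ 2) ^ 3 := by fun_prop
  have hi2 : Continuous fun x => ∑ e, ‖fd e x‖ ^ 2 := by fun_prop
  have hi3 : Continuous fun x => c * calD2 co N (T x) (fun e => f e x) (fun e => fd e x) c :=
    continuous_const.mul hDc
  have hj0 : Continuous fun x => π ^ 2 / 4 * cube fun e => f e x := continuous_const.mul hi0
  have hj1 : Continuous fun x => η * (∑ e, ‖f e x‖ ^ 2) ^ 3 := continuous_const.mul hi0'
  have hi1 : Continuous fun x =>
      c ^ 2 * (π ^ 2 / 4 * cube (fun e => f e x) - η * (∑ e, ‖f e x‖ ^ 2) ^ 3) :=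
    continuous_const.mul (hj0.sub hj1)
  have h := integral_mono_on hab (hi1.intervalIntegrable (μ := volume) _ _)
    ((hi2.add hi3).intervalIntegrable _ _) fun x hx =>
      point2 (T := T x) (fun u v => hs x u v) (fun z => (hpos x hx z).1) (fun z => (hpos x hx z).2)
        co N hco (fun e => f e x) (fun e => fd e x) c
  simp only [Pi.add_apply] at h
  rw [intervalIntegral.integral_add (hi2.intervalIntegrable _ _) (hi3.intervalIntegrable _ _),
    intervalIntegral.integral_const_mul, intervalIntegral.integral_sub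
      (hj0.intervalIntegrable _ _) (hj1.intervalIntegrable _ _), intervalIntegral.integral_const_mul,
    intervalIntegral.integral_const_mul, intervalIntegral.integral_const_mul, hint, mul_zero,
    add_zero] at h
  rwa [hc] at h

/-- The sharp matrix kinetic inequality on an interval. -/
theorem kinetic_vec2 [FiniteDimensional ℝ E] (hf : ∀ a x, HasDerivAt (f a) (fd a x) x)
    (hfd : ∀ a, Continuous (fd a)) {a b : ℝ} (hab : a ≤ b) (ha : ∀ e, f e a = 0)
    (hb : ∀ e, f e b = 0) (hB : ∀ z, ∫ y in a..b, ∑ e, ⟪f e y, z⟫ ^ 2 ≤ ‖z‖ ^ 2) :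
    π ^ 2 / 4 * (∫ x in a..b, cube fun e => f e x) ≤ ∫ x in a..b, ∑ e, ‖fd e x‖ ^ 2 := by
  have hlim : Tendsto (fun d => (1 - 2 * d) ^ 2 * (π ^ 2 / 4 * (∫ x in a..b, cube fun e => f e x) -
      d * ∫ x in a..b, (∑ e, ‖f e x‖ ^ 2) ^ 3)) (𝓝[>] (0 : ℝ))
      (𝓝 (π ^ 2 / 4 * ∫ x in a..b, cube fun e => f e x)) := by
    refine Tendsto.mono_left ?_ nhdsWithin_le_nhds
    have h : Continuous fun d : ℝ => (1 - 2 * d) ^ 2 *
      (π ^ 2 / 4 * (∫ x in a..b, cube fun e => f e x) -
        d * ∫ x in a..b, (∑ e, ‖f e x‖ ^ 2) ^ 3) := by fun_prop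
    simpa using h.tendsto 0
  refine le_of_tendsto hlim ?_
  filter_upwards [Ioo_mem_nhdsGT (by norm_num : (0 : ℝ) < 1 / 2)] with d hd
  exact kinetic_step2 hf hfd hab ha hb hB hd.1 hd.2 hd.1

/-- The entries of the matrix density. -/
def dens2 {ι : Type*} [Fintype ι] {m : ℕ} (u : ι → ℝ → Fin m → ℂ) (x : ℝ) (a b : Fin m) : ℂ :=
  ∑ j, u j x a * conj (u j x b)

/-- The sharp kinetic inequality for an orthonormal family of `ℂ^m` valued functions. -/
theorem kinetic_matrix {ι : Type*} [Fintype ι] {m : ℕ} {u : ι → ℝ → Fin m → ℂ}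
    (hu : ∀ j a, ContDiff ℝ 1 (fun x => u j x a))
    (hsupp : ∀ j a, HasCompactSupport (fun x => u j x a))
    (horth : ∀ j k, j ≠ k → ∫ x, ∑ a, conj (u j x a) * u k x a = 0)
    (hnorm : ∀ j, ∫ x, ∑ a, ‖u j x a‖ ^ 2 = 1) :
    π ^ 2 / 4 * ∫ x, (∑ a, ∑ b, ∑ c, dens2 u x a b * dens2 u x b c * dens2 u x c a).re ≤
      ∫ x, ∑ j, ∑ a, ‖deriv (fun y => u j y a) x‖ ^ 2 := by
  classical
  have huc : ∀ j a, Continuous fun x => u j x a := fun j a => (hu j a).continuous
  have hd : ∀ j a x, HasDerivAt (fun y => u j y a) (deriv (fun y => u j y a) x) x := fun j a x =>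
    ((hu j a).differentiable one_ne_zero x).hasDerivAt
  have hdc : ∀ j a, Continuous (deriv fun y => u j y a) := fun j a =>
    (hu j a).continuous_deriv le_rfl
  -- realification: two columns for each component
  obtain ⟨em, hem⟩ : ∃ em : Bool → ℂ → ℂ, em = fun s z => if s then Complex.I * z else z :=
    ⟨_, rfl⟩
  obtain ⟨f, hfdef⟩ : ∃ f : Fin m × Bool → ℝ → EuclideanSpace ℝ (ι ⊕ ι),
      f = fun e x => WithLp.toLp 2 (Sum.elim (fun j => (em e.2 (u j x e.1)).re)
        fun j => (em e.2 (u j x e.1)).im) := ⟨_, rfl⟩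
  obtain ⟨fd, hfddef⟩ : ∃ fd : Fin m × Bool → ℝ → EuclideanSpace ℝ (ι ⊕ ι),
      fd = fun e x => WithLp.toLp 2
        (Sum.elim (fun j => (em e.2 (deriv (fun y => u j y e.1) x)).re)
          fun j => (em e.2 (deriv (fun y => u j y e.1) x)).im) := ⟨_, rfl⟩
  have hemd : ∀ (s : Bool) (j : ι) (a : Fin m) (x : ℝ),
      HasDerivAt (fun y => em s (u j y a)) (em s (deriv (fun y => u j y a) x)) x := fun s j a x => by
    cases s
    · simpa [hem] using hd j a x
    · simpa [hem] using (hd j a x).const_mul Complex.I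
  have h1 : ∀ e x, HasDerivAt (f e) (fd e x) x := fun e x => by
    rw [hfdef, hfddef]
    refine (PiLp.continuousLinearEquiv 2 ℝ fun _ : ι ⊕ ι => ℝ).symm.hasFDerivAt.comp_hasDerivAt x
      (hasDerivAt_pi.2 ?_)
    rintro (j | j)
    · exact (Complex.reCLM.hasFDerivAt.comp_hasDerivAt x (hemd e.2 j e.1 x)).congr_deriv rfl
    · exact (Complex.imCLM.hasFDerivAt.comp_hasDerivAt x (hemd e.2 j e.1 x)).congr_deriv rfl
  have hemc : ∀ s : Bool, Continuous (em s) := fun s => by
    cases s
    · simpa [hem] using continuous_id'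
    · simpa [hem] using continuous_const_mul Complex.I
  have h2 : ∀ e, Continuous (fd e) := fun e => by
    rw [hfddef]
    refine (PiLp.continuousLinearEquiv 2 ℝ fun _ : ι ⊕ ι => ℝ).symm.continuous.comp
      (continuous_pi ?_)
    rintro (j | j)
    · exact Complex.continuous_re.comp ((hemc _).comp (hdc j e.1))
    · exact Complex.continuous_im.comp ((hemc _).comp (hdc j e.1))
  -- support
  obtain ⟨r, hr⟩ := (Bornology.IsBounded.subset_closedBall
    (isCompact_iUnion fun p : ι × Fin m => hsupp p.1 p.2).isBounded (0 : ℝ))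
  obtain ⟨R, hR⟩ : ∃ R, R = |r| + 1 := ⟨_, rfl⟩
  have hout : ∀ j a x, x ∉ Set.Ioo (-R) R → x ∉ tsupport (fun y => u j y a) := by
    intro j a x hx hmem
    have hxr : |x| ≤ r := by
      simpa [Real.dist_eq] using hr (Set.mem_iUnion.2 ⟨(j, a), hmem⟩)
    rw [abs_le] at hxr
    exact hx ⟨by linarith [le_abs_self r], by linarith [le_abs_self r]⟩
  have hz : ∀ j a x, x ∉ Set.Ioo (-R) R → u j x a = 0 := fun j a x hx =>
    image_eq_zero_of_notMem_tsupport (f := fun y => u j y a) (hout j a x hx)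
  have hdz : ∀ j a x, x ∉ Set.Ioo (-R) R → deriv (fun y => u j y a) x = 0 := fun j a x hx =>
    Function.notMem_support.1 fun h => hout j a x hx (support_deriv_subset h)
  have hem0 : ∀ s, em s 0 = 0 := fun s => by cases s <;> simp [hem]
  have hf0 : ∀ e x, x ∉ Set.Ioo (-R) R → f e x = 0 := fun e x hx => by
    rw [hfdef]; ext (j | j) <;> simp [hz j e.1 x hx, hem0]
  have heq : ∀ F : ℝ → ℝ, (∀ x, x ∉ Set.Ioo (-R) R → F x = 0) → ∫ x, F x = ∫ x in -R..R, F x :=
    fun F hF => (intervalIntegral.integral_eq_integral_of_support_subset fun x hx =>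
      Set.Ioo_subset_Ioc_self (by_contra fun h => hx (hF x h))).symm
  -- Bessel
  have hB : ∀ z, ∫ y in -R..R, ∑ e, ⟪f e y, z⟫ ^ 2 ≤ ‖z‖ ^ 2 := fun z => by
    obtain ⟨w, hw⟩ : ∃ w : ι → ℂ, w = fun j => ⟨z (.inl j), z (.inr j)⟩ := ⟨_, rfl⟩
    have hpt : ∀ y, ∑ e, ⟪f e y, z⟫ ^ 2 = ∑ a, ‖∑ j, conj (w j) * u j y a‖ ^ 2 := fun y => by
      rw [Fintype.sum_prod_type]
      refine sum_congr rfl fun a _ => ?_
      rw [Fintype.sum_bool, hfdef, Complex.sq_norm, Complex.normSq_apply, hw]
      simp [hem, PiLp.inner_apply, Fintype.sum_sum_type, ← sum_add_distrib, Complex.re_sum,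
        Complex.im_sum, ← pow_two]
      simp only [sum_add_distrib, sum_neg_distrib, mul_comm (z _)]
      ring
    simp only [hpt]
    rw [← heq _ (fun x hx => by simp [hz _ _ x hx])]
    have hint : ∀ j k, Integrable fun y => ∑ a, conj (u j y a) * u k y a := fun j k =>
      integrable_finsetSum _ fun a _ => ((Complex.continuous_conj.comp (huc j a)).mul
        (huc k a)).integrable_of_hasCompactSupport (hsupp k a).mul_left
    have he : ∀ y, ((∑ a, ‖∑ j, conj (w j) * u j y a‖ ^ 2 : ℝ) : ℂ) =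
        ∑ j, ∑ k, w j * conj (w k) * ∑ a, conj (u j y a) * u k y a := fun y => by
      simp only [Complex.ofReal_sum, Complex.ofReal_pow, ← Complex.conj_mul', map_sum, map_mul,
        Complex.conj_conj, mul_sum]
      simp only [sum_mul]
      rw [sum_congr rfl fun a (_ : a ∈ univ) => sum_comm, sum_comm]
      refine sum_congr rfl fun j _ => ?_
      rw [sum_comm]
      exact sum_congr rfl fun k _ => sum_congr rfl fun a _ => by ring
    have hC : (∫ y, ((∑ a, ‖∑ j, conj (w j) * u j y a‖ ^ 2 : ℝ) : ℂ)) = ((‖z‖ ^ 2 : ℝ) : ℂ) := by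
      simp only [he]
      rw [integral_finsetSum _ fun j _ => integrable_finsetSum _ fun k _ => (hint j k).const_mul _]
      have h11 : ∀ j, ∫ y, ∑ a, conj (u j y a) * u j y a = 1 := fun j => by
        simp only [Complex.conj_mul', ← Complex.ofReal_pow, ← Complex.ofReal_sum]
        rw [integral_complex_ofReal, hnorm j, Complex.ofReal_one]
      have hj : ∀ j, (∫ y, ∑ k, w j * conj (w k) * ∑ a, conj (u j y a) * u k y a) =
          ((z (.inl j) ^ 2 + z (.inr j) ^ 2 : ℝ) : ℂ) := fun j => by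
        rw [integral_finsetSum _ fun k _ => (hint j k).const_mul _]
        simp only [MeasureTheory.integral_const_mul]
        rw [sum_eq_single j (fun k _ hk => by rw [horth j k (Ne.symm hk), mul_zero])
          fun h => absurd (mem_univ j) h, h11, mul_one, Complex.mul_conj', hw,
          ← Complex.ofReal_pow, Complex.sq_norm, Complex.normSq_apply]
        simp [sq]
      simp only [hj, EuclideanSpace.norm_sq_eq, Fintype.sum_sum_type, sum_add_distrib,
        Real.norm_eq_abs, sq_abs, Complex.ofReal_add, Complex.ofReal_sum]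
    rw [integral_complex_ofReal, Complex.ofReal_inj] at hC
    exact hC.le
  have key := kinetic_vec2 h1 h2 (show -R ≤ R by linarith [abs_nonneg r])
    (fun e => hf0 e _ fun h => lt_irrefl _ h.1) (fun e => hf0 e _ fun h => lt_irrefl _ h.2) hB
  have hgram : ∀ (x : ℝ) (e e' : Fin m × Bool),
      ⟪f e x, f e' x⟫ = (∑ j, conj (em e.2 (u j x e.1)) * em e'.2 (u j x e'.1)).re := fun x e e' => by
    rw [hfdef]
    simp [PiLp.inner_apply, Fintype.sum_sum_type, ← sum_add_distrib, Complex.re_sum, mul_comm]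
  have hcube : ∀ x, cube (fun e => f e x) =
      2 * (∑ a, ∑ b, ∑ c, dens2 u x a b * dens2 u x b c * dens2 u x c a).re := fun x => by
    have hre : ∀ a b, (∑ j, conj (u j x a) * u j x b).re = (dens2 u x b a).re := fun a b => by
      simp only [dens2, mul_comm (u _ x b)]
    have him : ∀ a b, (∑ j, conj (u j x a) * u j x b).im = (dens2 u x b a).im := fun a b => by
      simp only [dens2, mul_comm (u _ x b)]
    have hI : ∀ (a b : Fin m) (s s' : Bool), (∑ j, conj (em s (u j x a)) * em s' (u j x b)).re =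
        if s = s' then (dens2 u x b a).re else
          (if s then (1 : ℝ) else -1) * (dens2 u x b a).im := fun a b s s' => by
      rw [← hre, ← him]
      cases s <;> cases s' <;>
        simp [hem, Complex.re_sum, Complex.im_sum, sum_add_distrib, sum_neg_distrib] <;>
        ring
    simp only [cube, hgram, hI, Complex.re_sum, Complex.mul_re, Complex.mul_im,
      Fintype.sum_prod_type, Fintype.sum_bool, Finset.mul_sum]
    simp only [← sum_add_distrib]
    rw [sum_congr rfl fun a (_ : a ∈ univ) => sum_comm]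
    refine sum_congr rfl fun a _ => sum_congr rfl fun b _ => sum_congr rfl fun c _ => ?_
    norm_num
    ring
  have hkin : ∀ x, ∑ e, ‖fd e x‖ ^ 2 =
      2 * ∑ j, ∑ a, ‖deriv (fun y => u j y a) x‖ ^ 2 := fun x => by
    rw [hfddef, Fintype.sum_prod_type, sum_comm (γ := ι), mul_sum]
    refine sum_congr rfl fun a _ => ?_
    rw [Fintype.sum_bool]
    simp [hem, EuclideanSpace.norm_sq_eq, Fintype.sum_sum_type, Complex.sq_norm,
      Complex.normSq_apply, ← pow_two, sum_add_distrib]
    ring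
  simp only [hcube, hkin, intervalIntegral.integral_const_mul] at key
  rw [heq _ (fun x hx => by simp [dens2, hz _ _ x hx]), heq _ (fun x hx => by simp [hdz _ _ x hx])]
  linarith

end Vale.Agent.P371.Matrix
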