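import Vale.Agent.P371.MatrixKernel

/-!
Positivity of the cubic form behind the sharp matrix calibration at `γ = 1`:
for a positive semidefinite `Q` and `u_i ∈ (0, π)` the sum of
`(sinc (A - C) - cos (A - C)) / (sin A sin C) * Re (Q_ij Q_jk Q_ki)` is nonnegative,
`A = (u_i + u_j) / 2`, `C = (u_j + u_k) / 2`.
-/

namespace Vale.Agent.P371.MatrixPos

open Real Finset Matrix ComplexConjugate ComplexOrder

variable {ι : Type*} [Fintype ι] [DecidableEq ι]

set_option linter.unusedSectionVars false

theorem posSemidef_map {G : ι → ι → ℝ} (hG : PK G) :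
    (Matrix.of fun b c => (G b c : ℂ)).PosSemidef := by
  refine Matrix.PosSemidef.of_dotProduct_mulVec_nonneg ?_ fun x => ?_
  · ext b c; simp [hG.symm c b]
  · have e : star x ⬝ᵥ (Matrix.of fun b c => (G b c : ℂ)) *ᵥ x =
        ((∑ b, ∑ c, (x b).re * (x c).re * G b c) + ∑ b, ∑ c, (x b).im * (x c).im * G b c : ℝ) := by
      apply Complex.ext
      · simp only [dotProduct, mulVec, mul_sum, Complex.re_sum, Complex.ofReal_re, Matrix.of_apply,
          ← sum_add_distrib]
        refine sum_congr rfl fun b _ => sum_congr rfl fun c _ => ?_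
        simp
        ring
      · simp only [dotProduct, mulVec, mul_sum, Complex.im_sum, Complex.ofReal_im, Matrix.of_apply]
        have h : ∀ b c, (star x b * ((G b c : ℂ) * x c)).im =
            G b c * ((x b).re * (x c).im) - G b c * ((x b).im * (x c).re) := fun b c => by
          simp
          ring
        simp only [h, sum_sub_distrib]
        rw [sub_eq_zero, sum_comm]
        refine sum_congr rfl fun b _ => sum_congr rfl fun c _ => ?_
        rw [hG.symm c b]
        ring
    rw [e]
    exact Complex.zero_le_real.mpr (add_nonneg (hG.nonneg _) (hG.nonneg _))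

/-- Schur product positivity, in real parts. -/
theorem schur_re {G : ι → ι → ℝ} (hG : PK G) {Q : Matrix ι ι ℂ} (hQ : Q.PosSemidef) (v : ι → ℂ) :
    0 ≤ ∑ b, ∑ c, G b c * (Q b c * v b * conj (v c)).re := by
  have h := ((posSemidef_map hG).hadamard hQ).dotProduct_mulVec_nonneg (fun b => conj (v b))
  have h' := (Complex.le_def.mp h).1
  refine h'.trans_eq ?_
  simp only [dotProduct, mulVec, mul_sum, Complex.re_sum, hadamard_apply, Matrix.of_apply,
    Pi.star_apply]
  refine sum_congr rfl fun b _ => sum_congr rfl fun c _ => ?_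
  simp only [RCLike.star_def, Complex.conj_conj]
  rw [show v b * ((G b c : ℂ) * Q b c * conj (v c)) =
    (G b c : ℂ) * (Q b c * v b * conj (v c)) by ring, Complex.re_ofReal_mul]

/-- The weighted hermitian form is nonnegative. -/
theorem weighted_nonneg {θ : ι → ℝ} {F : ι → ℝ}
    (hs : ∀ b c, Real.sin (θ b + θ c) ≠ 0)
    (hG : PK fun b c => (F b + F c) / Real.sin (θ b + θ c)) {Q : Matrix ι ι ℂ}
    (hQ : Q.PosSemidef) (v : ι → ℂ) :
    0 ≤ ∑ b, ∑ c, F c * (Q b c / (Real.sin (θ b + θ c) : ℂ) * v b * conj (v c)).re := by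
  have h := schur_re hG hQ v
  have e : ∀ b c, (Q b c / (Real.sin (θ b + θ c) : ℂ) * v b * conj (v c)).re =
      (Q b c * v b * conj (v c)).re / Real.sin (θ b + θ c) := fun b c => by
    rw [div_mul_eq_mul_div, div_mul_eq_mul_div, Complex.div_ofReal_re]
  have sw : ∀ b c, (Q c b * v c * conj (v b)).re = (Q b c * v b * conj (v c)).re := fun b c => by
    rw [← hQ.isHermitian.apply b c, ← Complex.conj_re]
    simp only [map_mul, RCLike.star_def, Complex.conj_conj]
    ring_nf
  have h2 : ∑ b, ∑ c, F b * ((Q b c * v b * conj (v c)).re / Real.sin (θ b + θ c)) =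
      ∑ b, ∑ c, F c * ((Q b c * v b * conj (v c)).re / Real.sin (θ b + θ c)) := by
    rw [sum_comm]
    refine sum_congr rfl fun b _ => sum_congr rfl fun c _ => ?_
    rw [sw b c, add_comm (θ c)]
  have h3 : ∑ b, ∑ c, (F b + F c) / Real.sin (θ b + θ c) * (Q b c * v b * conj (v c)).re =
      2 * ∑ b, ∑ c, F c * (Q b c / (Real.sin (θ b + θ c) : ℂ) * v b * conj (v c)).re := by
    simp only [e]
    rw [two_mul]
    conv_rhs => arg 1; rw [← h2]
    simp only [← sum_add_distrib]
    exact sum_congr rfl fun b _ => sum_congr rfl fun c _ => by ring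
  linarith

/-- The cubic coefficient `Re (Z_ij Z_jk Q_ki)`. -/
noncomputable def cub (θ : ι → ℝ) (Q : Matrix ι ι ℂ) (i j k : ι) : ℝ :=
  (Q i j / (Real.sin (θ i + θ j) : ℂ) * (Q j k / (Real.sin (θ j + θ k) : ℂ)) * Q k i).re

/-- Each member of the cosine family gives a nonnegative form. -/
theorem family_nonneg {θ : ι → ℝ} (hθ : ∀ i, 0 < θ i ∧ θ i < π / 2) {Q : Matrix ι ι ℂ}
    (hQ : Q.PosSemidef) {t : ℝ} (ht0 : 0 < t) (ht1 : t < 1) :
    0 ≤ ∑ i, ∑ j, ∑ k, Real.cos (t * (θ i - θ k)) * (1 - Real.cos ((1 - t) * (θ i - θ k))) *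
      cub θ Q i j k := by
  let s : ι → ι → ℝ := fun i j => Real.sin (θ i + θ j)
  have hs : ∀ i j, s i j ≠ 0 := fun i j => (Real.sin_pos_of_pos_of_lt_pi
    (by linarith [(hθ i).1, (hθ j).1]) (by linarith [(hθ i).2, (hθ j).2])).ne'
  let Z : ι → ι → ℂ := fun i j => Q i j / (s i j : ℂ)
  let e : ι → ℂ := fun i => Complex.exp (((1 - t) * θ i : ℝ) * Complex.I)
  let W : ι → ι → ℂ := fun i j => (e i - e j) * Z i j
  let F : ι → ι → ℝ := fun a b => wgt t (θ a) (θ b)
  have hG : ∀ a, PK fun b c => (F a b + F a c) / Real.sin (θ b + θ c) := fun a =>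
    pk_main θ hθ ht0 ht1 (hθ a).1.le (hθ a).2.le
  have hQZ : ∀ i j, Q i j = (s i j : ℂ) * Z i j := fun i j => by
    simp only [Z]
    rw [mul_div_cancel₀]
    exact_mod_cast hs i j
  have hZh : ∀ i j, conj (Z i j) = Z j i := fun i j => by
    simp only [Z, map_div₀, Complex.conj_ofReal, s]
    rw [add_comm (θ i), ← hQ.isHermitian.apply j i]
    rfl
  have hpt : ∀ i j k,
      Real.cos (t * (θ i - θ k)) * (1 - Real.cos ((1 - t) * (θ i - θ k))) * cub θ Q i j k =
        1 / 2 * (F i k * (Z j k * W i j * conj (W i k)).re) +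
          1 / 2 * (F k i * (Z i j * conj (W i k) * W j k).re) := by
    intro i j k
    have hn : Complex.normSq (e i - e k) = 2 * (1 - Real.cos ((1 - t) * (θ i - θ k))) := by
      simp only [e, Complex.normSq_apply, Complex.sub_re, Complex.sub_im,
        Complex.exp_ofReal_mul_I_re, Complex.exp_ofReal_mul_I_im]
      rw [mul_sub (1 - t) (θ i) (θ k), Real.cos_sub]
      linear_combination Real.sin_sq_add_cos_sq ((1 - t) * θ i) +
        Real.sin_sq_add_cos_sq ((1 - t) * θ k)
    have hF : F i k = s k i * Real.cos (t * (θ i - θ k)) ∧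
        F k i = s k i * Real.cos (t * (θ i - θ k)) := by
      constructor
      · simp only [F, wgt, s]
        rw [add_comm (θ i) (θ k)]
      · simp only [F, wgt, s]
        rw [show t * (θ k - θ i) = -(t * (θ i - θ k)) by ring, Real.cos_neg]
    have hc : (Complex.normSq (e i - e k) : ℂ) * (Z i j * Z j k * Q k i) =
        (s k i : ℂ) * (Z j k * W i j * conj (W i k)) +
          (s k i : ℂ) * (Z i j * conj (W i k) * W j k) := by
      rw [← Complex.mul_conj, hQZ k i, ← hZh i k]
      simp only [W, map_mul, map_sub]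
      ring
    have hre := congrArg Complex.re hc
    simp only [Complex.re_ofReal_mul, Complex.add_re] at hre
    have hcub : cub θ Q i j k = (Z i j * Z j k * Q k i).re := rfl
    rw [hn] at hre
    rw [hF.1, hF.2, hcub]
    linear_combination (Real.cos (t * (θ i - θ k)) / 2) * hre
  simp only [hpt, sum_add_distrib]
  refine add_nonneg ?_ ?_
  · simp only [← mul_sum]
    refine mul_nonneg (by norm_num) (sum_nonneg fun a _ => ?_)
    exact weighted_nonneg hs (hG a) hQ (fun b => W a b)
  · simp only [← mul_sum]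
    refine mul_nonneg (by norm_num) ?_
    have e1 : ∑ i, ∑ j, ∑ k, F k i * (Z i j * conj (W i k) * W j k).re =
        ∑ a, ∑ c, ∑ b, F a b * (Z b c * conj (W b a) * W c a).re := by
      rw [sum_comm]
      conv_rhs => rw [sum_comm]
      refine sum_congr rfl fun c _ => ?_
      rw [sum_comm]
    rw [e1]
    refine sum_nonneg fun a _ => ?_
    have h := weighted_nonneg hs (hG a) hQ (fun b => conj (W b a))
    refine h.trans_eq ?_
    refine sum_congr rfl fun c _ => sum_congr rfl fun b _ => ?_
    have : (Z c b * conj (W c a) * conj (conj (W b a))).re =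
        (Z b c * conj (W b a) * W c a).re := by
      rw [← Complex.conj_re]
      simp only [map_mul, hZh, Complex.conj_conj]
      ring_nf
    rw [← this]

/-- Antiderivative of the cosine family. -/
noncomputable def prim (x t : ℝ) : ℝ :=
  if x = 0 then 0 else Real.sin (t * x) / x - t * Real.cos x / 2 - Real.sin ((2 * t - 1) * x) / (4 * x)

theorem hasDerivAt_prim (x t : ℝ) :
    HasDerivAt (prim x) (Real.cos (t * x) * (1 - Real.cos ((1 - t) * x))) t := by
  rcases eq_or_ne x 0 with rfl | hx
  · have : prim 0 = fun _ => (0 : ℝ) := funext fun t => by simp [prim]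
    rw [this]
    simpa using hasDerivAt_const t (0 : ℝ)
  have : prim x = fun t => Real.sin (t * x) / x - t * Real.cos x / 2 -
      Real.sin ((2 * t - 1) * x) / (4 * x) := funext fun t => by simp [prim, hx]
  rw [this]
  have h1 := (((hasDerivAt_id t).mul_const x).sin).div_const x
  have h2 := ((hasDerivAt_id t).mul_const (Real.cos x)).div_const 2
  have h3 := ((((hasDerivAt_id t).const_mul 2).sub_const 1).mul_const x).sin.div_const (4 * x)
  refine ((h1.sub h2).sub h3).congr_deriv ?_
  simp only [id, one_mul, mul_one]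
  have ea : Real.cos ((2 * t - 1) * x) = Real.cos (t * x) * Real.cos ((1 - t) * x) +
      Real.sin (t * x) * Real.sin ((1 - t) * x) := by
    rw [← Real.cos_sub]; ring_nf
  have eb : Real.cos x = Real.cos (t * x) * Real.cos ((1 - t) * x) -
      Real.sin (t * x) * Real.sin ((1 - t) * x) := by
    rw [← Real.cos_add]; ring_nf
  rw [ea, eb]
  field_simp
  ring

theorem prim_gap (x : ℝ) : prim x 1 - prim x 0 = (Real.sinc x - Real.cos x) / 2 := by
  rcases eq_or_ne x 0 with rfl | hx
  · simp [prim]
  · simp only [prim, hx, if_false, Real.sinc_of_ne_zero hx]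
    norm_num
    field_simp
    ring

/-- The kernel of the matrix calibration. -/
noncomputable def kmat (A C : ℝ) : ℝ :=
  (Real.sinc (A - C) - Real.cos (A - C)) / (Real.sin A * Real.sin C)

/-- The cubic form of the sharp matrix calibration at `γ = 1` is nonnegative. -/
theorem matrix_pos (u : ι → ℝ) (hu : ∀ i, 0 < u i ∧ u i < π) {Q : Matrix ι ι ℂ}
    (hQ : Q.PosSemidef) :
    0 ≤ ∑ i, ∑ j, ∑ k, kmat ((u i + u j) / 2) ((u j + u k) / 2) *
      (Q i j * Q j k * Q k i).re := by
  set θ : ι → ℝ := fun i => u i / 2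
  have hθ : ∀ i, 0 < θ i ∧ θ i < π / 2 := fun i =>
    ⟨by simp only [θ]; linarith [(hu i).1], by simp only [θ]; linarith [(hu i).2]⟩
  let Φ : ℝ → ℝ := fun t => ∑ i, ∑ j, ∑ k, prim (θ i - θ k) t * cub θ Q i j k
  have hd : ∀ t, HasDerivAt Φ (∑ i, ∑ j, ∑ k, Real.cos (t * (θ i - θ k)) *
      (1 - Real.cos ((1 - t) * (θ i - θ k))) * cub θ Q i j k) t := fun t =>
    HasDerivAt.fun_sum fun i _ => HasDerivAt.fun_sum fun j _ => HasDerivAt.fun_sum fun k _ =>
      (hasDerivAt_prim _ t).mul_const _
  have hmono : MonotoneOn Φ (Set.Icc 0 1) := by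
    refine monotoneOn_of_hasDerivWithinAt_nonneg (convex_Icc 0 1)
      (fun t _ => (hd t).continuousAt.continuousWithinAt) (fun t _ => (hd t).hasDerivWithinAt) ?_
    intro t ht
    rw [interior_Icc] at ht
    exact family_nonneg hθ hQ ht.1 ht.2
  have h := hmono (Set.left_mem_Icc.mpr zero_le_one) (Set.right_mem_Icc.mpr zero_le_one)
    zero_le_one
  have e : 2 * (Φ 1 - Φ 0) = ∑ i, ∑ j, ∑ k, kmat ((u i + u j) / 2) ((u j + u k) / 2) *
      (Q i j * Q j k * Q k i).re := by
    simp only [Φ, ← sum_sub_distrib, mul_sum, ← sub_mul]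
    refine sum_congr rfl fun i _ => sum_congr rfl fun j _ => sum_congr rfl fun k _ => ?_
    have hq : cub θ Q i j k = (Q i j * Q j k * Q k i).re /
        (Real.sin (θ i + θ j) * Real.sin (θ j + θ k)) := by
      rw [cub, div_mul_div_comm, div_mul_eq_mul_div, ← Complex.ofReal_mul, Complex.div_ofReal_re]
    rw [prim_gap, hq, kmat, show (u i + u j) / 2 = θ i + θ j by simp only [θ]; ring,
      show (u j + u k) / 2 = θ j + θ k by simp only [θ]; ring,
      show θ i + θ j - (θ j + θ k) = θ i - θ k by ring]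
    ring
  linarith

end Vale.Agent.P371.MatrixPos
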