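import Mathlib

/-!
Scalar inequalities for the calibration at exponent `5/4`: the profile
`φ z = b z √(1 + β z²)`, its pair inequality and its polynomial approximations.
-/

namespace Vale.Agent.P371.Quarter

open Real Finset

/-- Amplitude of the profile. -/
noncomputable def amp : ℝ := 13 / 32

/-- Curvature of the profile. -/
noncomputable def curv : ℝ := 17 / 32

/-- Weight of the fifth power. -/
noncomputable def cw : ℝ := 221 / 2000

/-- The profile. -/
noncomputable def phi (z : ℝ) : ℝ := amp * z * Real.sqrt (1 + curv * z ^ 2)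

/-- The derivative of the profile. -/
noncomputable def phid (z : ℝ) : ℝ := amp * (1 + 2 * curv * z ^ 2) / Real.sqrt (1 + curv * z ^ 2)

/-- The scaling correction `(2 φ - z φ') / 3`. -/
noncomputable def del (z : ℝ) : ℝ := (2 * phi z - z * phid z) / 3

theorem base_pos (z : ℝ) : 0 < 1 + curv * z ^ 2 := by unfold curv; positivity

theorem del_eq (z : ℝ) : del z = amp * z / (3 * Real.sqrt (1 + curv * z ^ 2)) := by
  have hr := Real.sqrt_pos.2 (base_pos z)
  have hs := Real.sq_sqrt (base_pos z).le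
  obtain ⟨r, hr'⟩ : ∃ r, r = Real.sqrt (1 + curv * z ^ 2) := ⟨_, rfl⟩
  rw [← hr'] at hr hs
  rw [del, phi, phid, ← hr', show 1 + 2 * curv * z ^ 2 = 2 * r ^ 2 - 1 by rw [hs]; ring]
  field_simp
  ring

theorem single (z : ℝ) : amp ≤ cw * z ^ 4 + phid z - (phi z + del z) ^ 2 := by
  obtain ⟨r, hr⟩ : ∃ r, r = Real.sqrt (1 + curv * z ^ 2) := ⟨_, rfl⟩
  have hs : r ^ 2 = 1 + curv * z ^ 2 := hr ▸ Real.sq_sqrt (base_pos z).le
  have hr1 : 1 ≤ r := by
    rw [hr]; exact Real.one_le_sqrt.2 (by unfold curv; nlinarith [sq_nonneg z])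
  have hz : z ^ 2 = 32 / 17 * (r ^ 2 - 1) := by rw [hs]; unfold curv; ring
  have hq : (phi z + del z) ^ 2 = amp ^ 2 * z ^ 2 * (r + 1 / (3 * r)) ^ 2 := by
    rw [del_eq, phi, ← hr]; field_simp
  rw [hq, phid, ← hr, show z ^ 4 = (z ^ 2) ^ 2 by ring, hz, curv, amp, cw]
  have key : 0 ≤ 9 * (221 / 2000) * r ^ 2 * (r ^ 2 - 1) ^ 2 +
      9 * (13 / 32) * (17 / 32) ^ 2 * r * (2 * r ^ 2 - 1) -
      (13 / 32) ^ 2 * (17 / 32) * (r ^ 2 - 1) * (3 * r ^ 2 + 1) ^ 2 -
      9 * (13 / 32) * (17 / 32) ^ 2 * r ^ 2 := by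
    nlinarith [mul_nonneg (sub_nonneg.2 hr1) (sq_nonneg (r - 182 / 125)),
      mul_nonneg (mul_nonneg (sub_nonneg.2 hr1) (sub_nonneg.2 hr1))
        (sq_nonneg (r - 182 / 125)), sub_nonneg.2 hr1,
      mul_nonneg (pow_nonneg (sub_nonneg.2 hr1) 2) (sq_nonneg (r ^ 2 - 53 / 25))]
  have hr0 : (0 : ℝ) < r := by linarith
  rw [← sub_nonneg]
  have e : 221 / 2000 * (32 / 17 * (r ^ 2 - 1)) ^ 2 +
        13 / 32 * (1 + 2 * (17 / 32) * (32 / 17 * (r ^ 2 - 1))) / r -
        (13 / 32) ^ 2 * (32 / 17 * (r ^ 2 - 1)) * (r + 1 / (3 * r)) ^ 2 - 13 / 32 =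
      (9 * (221 / 2000) * r ^ 2 * (r ^ 2 - 1) ^ 2 +
        9 * (13 / 32) * (17 / 32) ^ 2 * r * (2 * r ^ 2 - 1) -
        (13 / 32) ^ 2 * (17 / 32) * (r ^ 2 - 1) * (3 * r ^ 2 + 1) ^ 2 -
        9 * (13 / 32) * (17 / 32) ^ 2 * r ^ 2) / (9 * r ^ 2 * (17 / 32) ^ 2) := by
    field_simp
    ring
  rw [e]
  positivity

/-- The inequality behind the pair inequality, in hyperbolic variables. -/
theorem pair_hyp (S D : ℝ) :
    Real.cosh D * Real.sinh D ^ 2 / (Real.cosh S * (Real.cosh S ^ 2 + Real.sinh D ^ 2)) ≤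
      amp / curv * (Real.sinh D ^ 2 * Real.cosh D ^ 2 / (Real.cosh S ^ 2 + Real.sinh D ^ 2)) *
        (4 / 3 * (Real.cosh S ^ 2 + Real.sinh S ^ 2) +
          2 / (9 * (Real.cosh S ^ 2 + Real.sinh D ^ 2))) := by
  have hcs := Real.one_le_cosh S
  have hcd := Real.one_le_cosh D
  have e1 := Real.cosh_sq_sub_sinh_sq S
  have e2 := Real.cosh_sq_sub_sinh_sq D
  obtain ⟨P, hP⟩ : ∃ P, P = Real.cosh S ^ 2 + Real.sinh D ^ 2 := ⟨_, rfl⟩
  obtain ⟨X, hX⟩ : ∃ X, X = Real.cosh S * Real.cosh D := ⟨_, rfl⟩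
  have hX1 : 1 ≤ X := hX ▸ one_le_mul_of_one_le_of_one_le hcs hcd
  have hP0 : 0 < P := by rw [hP]; positivity
  have hPX : P ≤ X ^ 2 := by
    rw [hP, hX, mul_pow, show Real.cosh D ^ 2 = 1 + Real.sinh D ^ 2 by linarith]
    nlinarith [sq_nonneg (Real.sinh D), sq_nonneg (Real.sinh S)]
  have h1 : 1 ≤ amp / curv * (X * (4 / 3 + 2 / (9 * X ^ 2))) := by
    rw [amp, curv, show X * (4 / 3 + 2 / (9 * X ^ 2)) = (12 * X ^ 2 + 2) / (9 * X) by field_simp; ring,
      ← mul_div_assoc, le_div_iff₀ (by positivity)]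
    nlinarith [sq_nonneg (X - 1)]
  have h2 : 2 / (9 * X ^ 2) ≤ 2 / (9 * P) :=
    div_le_div_of_nonneg_left (by norm_num) (by positivity) (by linarith)
  have h3 : amp / curv * (X * (4 / 3 + 2 / (9 * X ^ 2))) ≤
      amp / curv * (X * (4 / 3 * (Real.cosh S ^ 2 + Real.sinh S ^ 2) + 2 / (9 * P))) := by
    refine mul_le_mul_of_nonneg_left (mul_le_mul_of_nonneg_left ?_ (by linarith))
      (by unfold amp curv; norm_num)
    nlinarith [sq_nonneg (Real.sinh S)]
  have h4 := mul_le_mul_of_nonneg_left (h1.trans h3)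
    (by positivity : 0 ≤ Real.cosh D * Real.sinh D ^ 2 / (Real.cosh S * P))
  rw [← hP]
  refine (le_of_eq (mul_one _).symm).trans (h4.trans (le_of_eq ?_))
  rw [hX]
  field_simp

/-- The pair inequality. -/
theorem pair {x y : ℝ} (hxy : x ≠ y) :
    (phid x + phid y) / 2 - (phi y - phi x) / (y - x) ≤
      1 / 2 * (del y - del x) * (2 * (phi y - phi x) + (del y - del x)) := by
  obtain ⟨k, hk⟩ : ∃ k, k = Real.sqrt curv := ⟨_, rfl⟩
  have hk0 : 0 < k := hk ▸ Real.sqrt_pos.2 (by norm_num [curv])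
  have hk2 : k ^ 2 = curv := hk ▸ Real.sq_sqrt (by norm_num [curv])
  obtain ⟨A, hA⟩ : ∃ A, A = Real.arsinh (k * x) := ⟨_, rfl⟩
  obtain ⟨B, hB⟩ : ∃ B, B = Real.arsinh (k * y) := ⟨_, rfl⟩
  have sA : Real.sinh A = k * x := hA ▸ Real.sinh_arsinh _
  have sB : Real.sinh B = k * y := hB ▸ Real.sinh_arsinh _
  have cA : Real.sqrt (1 + curv * x ^ 2) = Real.cosh A := by
    rw [hA, Real.cosh_arsinh, mul_pow, hk2]
  have cB : Real.sqrt (1 + curv * y ^ 2) = Real.cosh B := by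
    rw [hB, Real.cosh_arsinh, mul_pow, hk2]
  have hx : x = Real.sinh A / k := by rw [sA]; field_simp
  have hy : y = Real.sinh B / k := by rw [sB]; field_simp
  obtain ⟨S, hS⟩ : ∃ S, S = (A + B) / 2 := ⟨_, rfl⟩
  obtain ⟨D, hD⟩ : ∃ D, D = (B - A) / 2 := ⟨_, rfl⟩
  have eA : A = S - D := by rw [hS, hD]; ring
  have eB : B = S + D := by rw [hS, hD]; ring
  have hsd : Real.sinh D ≠ 0 := fun h => by
    rw [Real.sinh_eq_zero] at h
    exact hxy (by rw [hx, hy, eA, eB, h]; simp)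
  have e1 := Real.cosh_sq_sub_sinh_sq S
  have e2 := Real.cosh_sq_sub_sinh_sq D
  have hcs := Real.cosh_pos S
  have hP : 0 < Real.cosh S ^ 2 + Real.sinh D ^ 2 := by positivity
  obtain ⟨cs, hcs'⟩ : ∃ v, v = Real.cosh S := ⟨_, rfl⟩
  obtain ⟨ss, hss'⟩ : ∃ v, v = Real.sinh S := ⟨_, rfl⟩
  obtain ⟨cd, hcd'⟩ : ∃ v, v = Real.cosh D := ⟨_, rfl⟩
  obtain ⟨sd, hsd'⟩ : ∃ v, v = Real.sinh D := ⟨_, rfl⟩
  have vA : Real.cosh A = cs * cd - ss * sd := by
    rw [eA, Real.cosh_sub, hcs', hss', hcd', hsd']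
  have vB : Real.cosh B = cs * cd + ss * sd := by
    rw [eB, Real.cosh_add, hcs', hss', hcd', hsd']
  have uA : Real.sinh A = ss * cd - cs * sd := by
    rw [eA, Real.sinh_sub, hcs', hss', hcd', hsd']
  have uB : Real.sinh B = ss * cd + cs * sd := by
    rw [eB, Real.sinh_add, hcs', hss', hcd', hsd']
  have hpA : 0 < cs * cd - ss * sd := vA ▸ Real.cosh_pos A
  have hpB : 0 < cs * cd + ss * sd := vB ▸ Real.cosh_pos B
  rw [← hcs', ← hss'] at e1
  rw [← hcd', ← hsd'] at e2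
  rw [← hcs', ← hsd'] at hP
  have hPe : (cs * cd - ss * sd) * (cs * cd + ss * sd) = cs ^ 2 + sd ^ 2 := by
    linear_combination cs ^ 2 * e2 + sd ^ 2 * e1
  have hd : y - x = 2 * cs * sd / k := by rw [hx, hy, uA, uB]; ring
  have hf : phi y - phi x = amp / k * (2 * sd * cd * (cs ^ 2 + ss ^ 2)) := by
    rw [phi, phi, cA, cB, hx, hy, uA, uB, vA, vB]; ring
  have hg : del y - del x = amp / (3 * k) * (2 * sd * cd / (cs ^ 2 + sd ^ 2)) := by
    rw [del_eq, del_eq, cA, cB, hx, hy, uA, uB, vA, vB]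
    have key : (ss * cd + cs * sd) / (cs * cd + ss * sd) - (ss * cd - cs * sd) / (cs * cd - ss * sd)
        = 2 * sd * cd / (cs ^ 2 + sd ^ 2) := by
      rw [div_sub_div _ _ hpB.ne' hpA.ne', mul_comm (cs * cd + ss * sd) (cs * cd - ss * sd), hPe]
      congr 1
      linear_combination 2 * sd * cd * e1
    rw [← key]
    generalize cs * cd + ss * sd = q1 at hpB
    generalize cs * cd - ss * sd = q2 at hpA
    field_simp
  have hm : (phid x + phid y) / 2 = amp * (2 * cs * cd - cs * cd / (cs ^ 2 + sd ^ 2)) := by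
    have ea : 1 + 2 * curv * x ^ 2 = 2 * Real.cosh A ^ 2 - 1 := by
      rw [← cA, Real.sq_sqrt (base_pos x).le]; ring
    have eb : 1 + 2 * curv * y ^ 2 = 2 * Real.cosh B ^ 2 - 1 := by
      rw [← cB, Real.sq_sqrt (base_pos y).le]; ring
    rw [phid, phid, cA, cB, ea, eb, vA, vB, ← hPe]
    field_simp
    ring
  have hcs0 : cs ≠ 0 := hcs' ▸ hcs.ne'
  have hsd0 : sd ≠ 0 := hsd' ▸ hsd
  have hlhs : (phid x + phid y) / 2 - (phi y - phi x) / (y - x) =
      amp * (cd * sd ^ 2 / (cs * (cs ^ 2 + sd ^ 2))) := by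
    rw [hm, hf, hd]
    field_simp
    linear_combination amp * cd * (cs ^ 2 + sd ^ 2) * e1
  have hrhs : 1 / 2 * (del y - del x) * (2 * (phi y - phi x) + (del y - del x)) =
      amp * (amp / curv * (sd ^ 2 * cd ^ 2 / (cs ^ 2 + sd ^ 2)) *
        (4 / 3 * (cs ^ 2 + ss ^ 2) + 2 / (9 * (cs ^ 2 + sd ^ 2)))) := by
    rw [hf, hg, ← hk2]
    field_simp
    ring
  rw [hlhs, hrhs]
  refine mul_le_mul_of_nonneg_left ?_ (by norm_num [amp])
  rw [hcs', hss', hcd', hsd']
  exact pair_hyp S D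

theorem hasDerivAt_phi (z : ℝ) : HasDerivAt phi (phid z) z := by
  have h1 : HasDerivAt (fun z : ℝ => 1 + curv * z ^ 2) (curv * (2 * z)) z := by
    simpa using ((hasDerivAt_pow 2 z).const_mul curv).const_add 1
  have h2 := ((hasDerivAt_id z).const_mul amp).mul (h1.sqrt (base_pos z).ne')
  refine h2.congr_deriv ?_
  have hr := Real.sqrt_pos.2 (base_pos z)
  have hs := Real.sq_sqrt (base_pos z).le
  rw [phid]
  simp only [id_eq, mul_one]
  field_simp
  linear_combination amp * hs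

theorem continuous_phid : Continuous phid :=
  Continuous.div (by fun_prop) (by fun_prop) fun z => (Real.sqrt_pos.2 (base_pos z)).ne'

theorem sqrt_base_le (z : ℝ) : Real.sqrt (1 + curv * z ^ 2) ≤ 1 + |z| := by
  rw [Real.sqrt_le_iff]
  exact ⟨by positivity, by unfold curv; nlinarith [abs_nonneg z, sq_abs z]⟩

theorem abs_phi_le (z : ℝ) : |phi z| ≤ amp * |z| * (1 + |z|) := by
  rw [phi, abs_mul, abs_mul, abs_of_nonneg (by norm_num [amp] : 0 ≤ amp),
    abs_of_nonneg (Real.sqrt_nonneg _)]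
  exact mul_le_mul_of_nonneg_left (sqrt_base_le z) (mul_nonneg (by norm_num [amp]) (abs_nonneg z))

theorem abs_del_le (z : ℝ) : |del z| ≤ amp * |z| := by
  have h1 : 1 ≤ Real.sqrt (1 + curv * z ^ 2) :=
    Real.one_le_sqrt.2 (by unfold curv; nlinarith [sq_nonneg z])
  rw [del_eq, abs_div, abs_mul, abs_of_nonneg (by norm_num [amp] : 0 ≤ amp),
    abs_of_pos (by positivity : 0 < 3 * Real.sqrt (1 + curv * z ^ 2)),
    div_le_iff₀ (by positivity)]
  exact le_mul_of_one_le_right (mul_nonneg (by norm_num [amp]) (abs_nonneg z)) (by linarith)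

/-- The value of the polynomial with coefficients `a`. -/
def pval (a : ℕ → ℝ) (N : ℕ) (x : ℝ) : ℝ := ∑ n ∈ range N, a n * x ^ n

/-- Its derivative times the variable. -/
def pzd (a : ℕ → ℝ) (N : ℕ) (x : ℝ) : ℝ := ∑ n ∈ range N, a n * n * x ^ n

/-- The divided difference of the polynomial. -/
def pdd (a : ℕ → ℝ) (N : ℕ) (x y : ℝ) : ℝ :=
  ∑ n ∈ range N, a n * ∑ l ∈ range n, x ^ l * y ^ (n - 1 - l)

theorem pdd_mul (a : ℕ → ℝ) (N : ℕ) (x y : ℝ) :
    pdd a N x y * (x - y) = pval a N x - pval a N y := by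
  rw [pdd, pval, pval, sum_mul, ← sum_sub_distrib]
  refine sum_congr rfl fun n _ => ?_
  rw [mul_assoc, geom_sum₂_mul, mul_sub]

theorem pdd_self (a : ℕ → ℝ) (N : ℕ) (x : ℝ) :
    pdd a N x x = ∑ n ∈ range N, a n * (n * x ^ (n - 1)) := by
  refine sum_congr rfl fun n _ => ?_
  congr 1
  exact geom_sum₂_self x n

/-- The divided difference of the profile. -/
noncomputable def sl (x y : ℝ) : ℝ := if x = y then phid x else (phi y - phi x) / (y - x)

theorem pair_sl (x y : ℝ) :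
    (phid x + phid y) / 2 - sl x y ≤
      1 / 2 * ((phi y + del y - (phi x + del x)) ^ 2 - (phi y - phi x) ^ 2) := by
  rcases eq_or_ne x y with h | h
  · subst h; simp [sl]
  · rw [sl, if_neg h]
    refine (pair h).trans (le_of_eq ?_)
    ring

theorem sl_zero_le (y : ℝ) : sl 0 y ≤ amp * (1 + |y|) ∧ sl y 0 ≤ amp * (1 + |y|) := by
  have h0 : phid 0 = amp := by simp [phid]
  have hp : phi 0 = 0 := by simp [phi]
  rcases eq_or_ne y 0 with h | h
  · subst h; simp [sl, h0]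
  · have e : phi y / y ≤ amp * (1 + |y|) := by
      rw [phi, show amp * y * Real.sqrt (1 + curv * y ^ 2) / y =
        amp * Real.sqrt (1 + curv * y ^ 2) by field_simp]
      exact mul_le_mul_of_nonneg_left (sqrt_base_le y) (by norm_num [amp])
    rw [sl, sl, if_neg h.symm, if_neg h, hp]
    refine ⟨by simpa using e, ?_⟩
    simpa [neg_div_neg_eq] using e

/-- Polynomials close to the profile with derivatives, vanishing at the origin. -/
theorem exists_approx {Z : ℝ} (hZ : 0 ≤ Z) {e : ℝ} (he : 0 < e) :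
    ∃ (a : ℕ → ℝ) (N : ℕ), ∀ x ∈ Set.Icc (-Z) Z,
      |pval a N x - phi x| ≤ e ∧ |(2 * pval a N x - pzd a N x) / 3 - del x| ≤ e ∧
        ∀ y ∈ Set.Icc (-Z) Z, |pdd a N x y - sl x y| ≤ e := by
  obtain ⟨e', he'⟩ : ∃ e', e' = e / (1 + Z) := ⟨_, rfl⟩
  have he0 : 0 < e' := by rw [he']; positivity
  obtain ⟨p, hp⟩ := exists_polynomial_near_of_continuousOn (-Z) Z phid
    continuous_phid.continuousOn e' he0
  obtain ⟨a, ha⟩ : ∃ a : ℕ → ℝ, a = fun n => if n = 0 then 0 else p.coeff (n - 1) / n :=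
    ⟨_, rfl⟩
  obtain ⟨N, hN⟩ : ∃ N, N = p.natDegree + 1 + 1 := ⟨_, rfl⟩
  have hd : ∀ x, pdd a N x x = p.eval x := fun x => by
    rw [pdd_self, hN, sum_range_succ', p.eval_eq_sum_range, ha]
    simp only [CharP.cast_eq_zero, zero_mul, mul_zero, add_zero, Nat.add_one_ne_zero, if_false,
      Nat.add_sub_cancel]
    refine sum_congr rfl fun n _ => ?_
    have : (n : ℝ) + 1 ≠ 0 := by positivity
    push_cast
    field_simp
  have hz : ∀ x, pzd a N x = x * pdd a N x x := fun x => by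
    rw [pdd_self, pzd, mul_sum]
    refine sum_congr rfl fun n _ => ?_
    cases n with
    | zero => simp
    | succ n => simp; ring
  have hder : ∀ x, HasDerivAt (fun x => pval a N x - phi x) (p.eval x - phid x) x := fun x => by
    refine (HasDerivAt.fun_sum fun n _ =>
      (hasDerivAt_pow n x).const_mul (a n)).sub (hasDerivAt_phi x) |>.congr_deriv ?_
    rw [← hd, pdd_self]
  have hlip : ∀ x ∈ Set.Icc (-Z) Z, ∀ y ∈ Set.Icc (-Z) Z,
      |(pval a N x - phi x) - (pval a N y - phi y)| ≤ e' * |x - y| := fun x hx y hy => by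
    simpa [Real.norm_eq_abs] using (convex_Icc (-Z) Z).norm_image_sub_le_of_norm_hasDerivWithin_le
      (f := fun x => pval a N x - phi x) (f' := fun x => p.eval x - phid x)
      (fun u _ => (hder u).hasDerivWithinAt)
      (fun u hu => by rw [Real.norm_eq_abs]; exact (hp u hu).le) hy hx
  have h0 : pval a N 0 - phi 0 = 0 := by
    rw [pval, hN, sum_range_succ', ha]
    simp [phi]
  have hee : e' ≤ e := by
    rw [he', div_le_iff₀ (by linarith : (0 : ℝ) < 1 + Z)]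
    nlinarith
  have heZ : e' * Z ≤ e := by
    rw [he', div_mul_eq_mul_div, div_le_iff₀ (by linarith : (0 : ℝ) < 1 + Z)]
    nlinarith
  refine ⟨a, N, fun x hx => ?_⟩
  have hxZ : |x| ≤ Z := abs_le.2 hx
  have hv : |pval a N x - phi x| ≤ e' * |x| := by
    simpa [h0] using hlip x hx 0 ⟨by linarith, hZ⟩
  have hdx : |p.eval x - phid x| ≤ e' := (hp x hx).le
  refine ⟨hv.trans ((mul_le_mul_of_nonneg_left hxZ he0.le).trans heZ), ?_, fun y hy => ?_⟩
  · rw [hz, hd, del, show (2 * pval a N x - x * p.eval x) / 3 - (2 * phi x - x * phid x) / 3 =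
      (2 * (pval a N x - phi x) - x * (p.eval x - phid x)) / 3 by ring, abs_div,
      abs_of_pos (by norm_num : (0 : ℝ) < 3), div_le_iff₀ (by norm_num : (0 : ℝ) < 3)]
    refine (abs_sub _ _).trans ?_
    rw [abs_mul, abs_mul, abs_two]
    have := mul_le_mul hxZ hdx (abs_nonneg _) hZ
    have := mul_le_mul_of_nonneg_left hxZ he0.le
    linarith
  · rcases eq_or_ne x y with h | h
    · subst h
      rw [sl, if_pos rfl, hd]
      exact hdx.trans hee
    · rw [sl, if_neg h]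
      have h' : x - y ≠ 0 := sub_ne_zero.2 h
      rw [show pdd a N x y - (phi y - phi x) / (y - x) =
          ((pval a N x - phi x) - (pval a N y - phi y)) / (x - y) by
        rw [← neg_sub x y, ← neg_sub (phi x) (phi y), neg_div_neg_eq, eq_div_iff h', sub_mul,
          div_mul_cancel₀ _ h', pdd_mul]; ring,
        abs_div, div_le_iff₀ (abs_pos.2 h')]
      exact (hlip x hx y hy).trans (mul_le_mul_of_nonneg_right hee (abs_nonneg _))

end Vale.Agent.P371.Quarter
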